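import Mathlib

open MeasureTheory Set Filter
open scoped ENNReal NNReal Topology Pointwise

namespace Vale.Agent.P245

lemma vol_affine_image (a c : ℝ) (ha : 0 < a) (K : Set ℝ) :
    volume ((fun x => a * x + c) '' K) = ENNReal.ofReal a * volume K := by
  have h1 : (fun x => a * x + c) '' K = (fun x => x + c) '' (a • K) := by
    ext y
    simp only [mem_image, Set.mem_smul_set, smul_eq_mul]
    constructor
    · rintro ⟨x, hx, rfl⟩
      exact ⟨a * x, ⟨x, hx, rfl⟩, rfl⟩
    · rintro ⟨z, ⟨x, hx, rfl⟩, rfl⟩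
      exact ⟨x, hx, rfl⟩
  rw [h1, image_add_right, measure_preimage_add_right, Measure.addHaar_smul]
  simp [abs_of_pos ha]

lemma bm_compact {a b : ℝ} (ha : 0 < a) (hb : 0 < b) {K L S : Set ℝ}
    (hK : IsCompact K) (hL : IsCompact L) (hKne : K.Nonempty) (hLne : L.Nonempty)
    (hsub : ∀ x ∈ K, ∀ y ∈ L, a * x + b * y ∈ S) :
    ENNReal.ofReal a * volume K + ENNReal.ofReal b * volume L ≤ volume S := by
  obtain ⟨u, huK, hu⟩ := hK.exists_isGreatest hKne
  obtain ⟨l, hlL, hl⟩ := hL.exists_isLeast hLne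
  set P := (fun x => a * x + b * l) '' K with hP
  set Q := (fun y => b * y + a * u) '' L with hQ
  have hPQ : P ∩ Q ⊆ {a * u + b * l} := by
    rintro z ⟨⟨x, hx, rfl⟩, ⟨y, hy, hxy⟩⟩
    simp only [mem_singleton_iff]
    have h1 : x ≤ u := hu hx
    have h2 : l ≤ y := hl hy
    have h3 := mul_le_mul_of_nonneg_left h1 ha.le
    have h4 := mul_le_mul_of_nonneg_left h2 hb.le
    linarith
  have hQc : IsCompact Q := hL.image (by fun_prop)
  have hzero : volume (P ∩ Q) = 0 := measure_mono_null hPQ (by simp)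
  have hu2 := measure_union_add_inter (μ := volume) P hQc.isClosed.measurableSet
  rw [hzero, add_zero] at hu2
  have hsub' : P ∪ Q ⊆ S := by
    rintro z (⟨x, hx, rfl⟩ | ⟨y, hy, rfl⟩)
    · exact hsub x hx l hlL
    · simpa [add_comm] using hsub u huK y hy
  calc ENNReal.ofReal a * volume K + ENNReal.ofReal b * volume L
      = volume P + volume Q := by rw [hP, hQ, vol_affine_image a _ ha, vol_affine_image b _ hb]
    _ = volume (P ∪ Q) := hu2.symm
    _ ≤ volume S := measure_mono hsub'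

lemma exists_compact_nonempty_approx {A : Set ℝ} (hA : MeasurableSet A) (hne : A.Nonempty)
    {c : ℝ} (hc : 0 < c) {r : ℝ≥0∞} (hr : r < ENNReal.ofReal c * volume A ∨ r = 0) :
    ∃ K ⊆ A, IsCompact K ∧ K.Nonempty ∧ r ≤ ENNReal.ofReal c * volume K := by
  obtain ⟨x0, hx0⟩ := hne
  rcases hr with hr | hr
  · have h' : r / ENNReal.ofReal c < volume A := ENNReal.div_lt_of_lt_mul' hr
    obtain ⟨K, hKA, hK, hlt⟩ := hA.exists_lt_isCompact h'
    refine ⟨insert x0 K, insert_subset hx0 hKA, hK.insert _, insert_nonempty _ _, ?_⟩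
    have h2 : r ≤ volume K * ENNReal.ofReal c :=
      (ENNReal.div_le_iff (by simpa using hc) ENNReal.ofReal_ne_top).1 hlt.le
    rw [mul_comm] at h2
    refine h2.trans ?_
    gcongr
    exact subset_insert _ _
  · exact ⟨{x0}, by simpa using hx0, isCompact_singleton, singleton_nonempty _, by simp [hr]⟩

lemma bm_meas {a b : ℝ} (ha : 0 < a) (hb : 0 < b) {A B S : Set ℝ}
    (hA : MeasurableSet A) (hB : MeasurableSet B) (hAne : A.Nonempty) (hBne : B.Nonempty)
    (hsub : ∀ x ∈ A, ∀ y ∈ B, a * x + b * y ∈ S) :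
    ENNReal.ofReal a * volume A + ENNReal.ofReal b * volume B ≤ volume S := by
  have key : ∀ r, (r < ENNReal.ofReal a * volume A ∨ r = 0) → ∀ r',
      (r' < ENNReal.ofReal b * volume B ∨ r' = 0) → r + r' ≤ volume S := by
    intro r hr r' hr'
    obtain ⟨K, hKA, hK, hKn, hKr⟩ := exists_compact_nonempty_approx hA hAne ha hr
    obtain ⟨L, hLB, hL, hLn, hLr⟩ := exists_compact_nonempty_approx hB hBne hb hr'
    exact (add_le_add hKr hLr).trans
      (bm_compact ha hb hK hL hKn hLn fun x hx y hy => hsub x (hKA hx) y (hLB hy))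
  rcases eq_or_ne (ENNReal.ofReal a * volume A) 0 with h1 | h1
  · rw [h1, zero_add]
    refine le_of_forall_lt_imp_le_of_dense fun r' hr' => ?_
    simpa using key 0 (Or.inr rfl) r' (Or.inl hr')
  rcases eq_or_ne (ENNReal.ofReal b * volume B) 0 with h2 | h2
  · rw [h2, add_zero]
    refine le_of_forall_lt_imp_le_of_dense fun r hr => ?_
    simpa using key r (Or.inl hr) 0 (Or.inr rfl)
  refine le_of_forall_lt_imp_le_of_dense fun z hz => ?_
  obtain ⟨r, hr, r', hr', hlt⟩ := ENNReal.exists_lt_add_of_lt_add hz h1 h2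
  exact hlt.le.trans (key r (Or.inl hr) r' (Or.inl hr'))

lemma ennreal_amgm {a b : ℝ} (ha : 0 < a) (hb : 0 < b) (hab : a + b = 1) (x y : ℝ≥0∞) :
    x ^ a * y ^ b ≤ ENNReal.ofReal a * x + ENNReal.ofReal b * y := by
  rcases eq_or_ne x ∞ with rfl | hx
  · rw [ENNReal.mul_top (by simpa using ha), top_add]; exact le_top
  rcases eq_or_ne y ∞ with rfl | hy
  · rw [ENNReal.mul_top (by simpa using hb), add_top]; exact le_top
  lift x to ℝ≥0 using hx
  lift y to ℝ≥0 using hy
  have h := Real.geom_mean_le_arith_mean2_weighted ha.le hb.le x.coe_nonneg y.coe_nonneg hab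
  have h' := ENNReal.ofReal_le_ofReal h
  rw [ENNReal.ofReal_mul (Real.rpow_nonneg x.coe_nonneg _), ← ENNReal.ofReal_rpow_of_nonneg x.coe_nonneg ha.le,
    ← ENNReal.ofReal_rpow_of_nonneg y.coe_nonneg hb.le, ENNReal.ofReal_add (by positivity) (by positivity),
    ENNReal.ofReal_mul ha.le, ENNReal.ofReal_mul hb.le] at h'
  simpa using h'

lemma pl_norm {a b : ℝ} (ha : 0 < a) (hb : 0 < b) (hab : a + b = 1) (F G H : ℝ → ℝ)
    (hF : Measurable F) (hG : Measurable G) (hH : Measurable H)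
    (F0 : ∀ x, 0 ≤ F x) (G0 : ∀ x, 0 ≤ G x) (H0 : ∀ x, 0 ≤ H x)
    (F1 : ∀ x, F x ≤ 1) (G1 : ∀ x, G x ≤ 1)
    (Fs : ∀ t < 1, ∃ x, t < F x) (Gs : ∀ t < 1, ∃ x, t < G x)
    (hfgh : ∀ x y t, 0 < t → t < F x → t < G y → t < H (a * x + b * y)) :
    (∫⁻ x, ENNReal.ofReal (F x)) ^ a * (∫⁻ x, ENNReal.ofReal (G x)) ^ b
      ≤ ∫⁻ x, ENNReal.ofReal (H x) := by
  refine (ennreal_amgm ha hb hab _ _).trans ?_
  rw [lintegral_eq_lintegral_meas_lt _ (Eventually.of_forall F0) hF.aemeasurable,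
    lintegral_eq_lintegral_meas_lt _ (Eventually.of_forall G0) hG.aemeasurable,
    lintegral_eq_lintegral_meas_lt _ (Eventually.of_forall H0) hH.aemeasurable]
  have hm : ∀ u : ℝ → ℝ, Measurable fun t => volume {x | t < u x} := fun u =>
    (Antitone.measurable fun s t hst => measure_mono fun x hx => lt_of_le_of_lt hst hx)
  rw [← lintegral_const_mul _ (hm F), ← lintegral_const_mul _ (hm G),
    ← lintegral_add_left ((hm F).const_mul _)]
  refine lintegral_mono_ae ?_
  filter_upwards [ae_restrict_mem measurableSet_Ioi] with t ht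
  rcases lt_or_ge t 1 with h1 | h1
  · exact bm_meas ha hb (measurableSet_lt measurable_const hF) (measurableSet_lt measurable_const hG)
      (Fs t h1) (Gs t h1) fun x hx y hy => hfgh x y t ht hx hy
  · have e1 : {x | t < F x} = ∅ := by
      ext x; simpa using (F1 x).trans h1
    have e2 : {x | t < G x} = ∅ := by
      ext x; simpa using (G1 x).trans h1
    simp [e1, e2]

lemma pl_bounded {a b : ℝ} (ha : 0 < a) (hb : 0 < b) (hab : a + b = 1) (f g h : ℝ → ℝ≥0∞)
    (hf : Measurable f) (hg : Measurable g) (hh : Measurable h)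
    (hfb : (⨆ x, f x) ≠ ∞) (hgb : (⨆ x, g x) ≠ ∞)
    (hfgh : ∀ x y, f x ^ a * g y ^ b ≤ h (a * x + b * y)) :
    (∫⁻ x, f x) ^ a * (∫⁻ x, g x) ^ b ≤ ∫⁻ x, h x := by
  set M := ⨆ x, f x with hM
  set N := ⨆ x, g x with hN
  rcases eq_or_ne M 0 with hM0 | hM0
  · have : ∀ x, f x = 0 := fun x => le_antisymm (hM0 ▸ le_iSup f x) bot_le
    simp [this, ENNReal.zero_rpow_of_pos ha]
  rcases eq_or_ne N 0 with hN0 | hN0
  · have : ∀ x, g x = 0 := fun x => le_antisymm (hN0 ▸ le_iSup g x) bot_le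
    simp [this, ENNReal.zero_rpow_of_pos hb]
  set P := M ^ a * N ^ b with hP
  have hP0 : P ≠ 0 := by simp [hP, hM0, hN0, hfb, hgb, ENNReal.rpow_eq_zero_iff]
  have hPt : P ≠ ∞ := ENNReal.mul_ne_top (ENNReal.rpow_ne_top_of_nonneg ha.le hfb)
    (ENNReal.rpow_ne_top_of_nonneg hb.le hgb)
  have hf1 : ∀ x, f x / M ≤ 1 := fun x => ENNReal.div_le_of_le_mul (by rw [one_mul]; exact le_iSup f x)
  have hg1 : ∀ x, g x / N ≤ 1 := fun x => ENNReal.div_le_of_le_mul (by rw [one_mul]; exact le_iSup g x)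
  have hh1 : ∀ x, min (h x / P) 1 ≠ ∞ := fun x => ne_top_of_le_ne_top ENNReal.one_ne_top (min_le_right _ _)
  have key := pl_norm ha hb hab (fun x => (f x / M).toReal) (fun x => (g x / N).toReal)
    (fun x => (min (h x / P) 1).toReal) (by fun_prop) (by fun_prop) (by fun_prop)
    (fun x => ENNReal.toReal_nonneg) (fun x => ENNReal.toReal_nonneg) (fun x => ENNReal.toReal_nonneg)
    (fun x => ENNReal.toReal_le_of_le_ofReal zero_le_one (by simpa using hf1 x))
    (fun x => ENNReal.toReal_le_of_le_ofReal zero_le_one (by simpa using hg1 x))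
    (fun t ht => ?_) (fun t ht => ?_) (fun x y t ht0 htx hty => ?_)
  · rw [lintegral_congr (fun x => ENNReal.ofReal_toReal (ne_top_of_le_ne_top ENNReal.one_ne_top (hf1 x))),
      lintegral_congr (fun x => ENNReal.ofReal_toReal (ne_top_of_le_ne_top ENNReal.one_ne_top (hg1 x))),
      lintegral_congr (fun x => ENNReal.ofReal_toReal (hh1 x))] at key
    have e1 : ∫⁻ x, f x = M * ∫⁻ x, f x / M := by
      rw [← lintegral_const_mul _ (by fun_prop)]
      exact lintegral_congr fun x => (ENNReal.mul_div_cancel hM0 hfb).symm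
    have e2 : ∫⁻ x, g x = N * ∫⁻ x, g x / N := by
      rw [← lintegral_const_mul _ (by fun_prop)]
      exact lintegral_congr fun x => (ENNReal.mul_div_cancel hN0 hgb).symm
    rw [e1, e2, ENNReal.mul_rpow_of_nonneg _ _ ha.le, ENNReal.mul_rpow_of_nonneg _ _ hb.le]
    calc M ^ a * (∫⁻ x, f x / M) ^ a * (N ^ b * (∫⁻ x, g x / N) ^ b)
        = P * ((∫⁻ x, f x / M) ^ a * (∫⁻ x, g x / N) ^ b) := by rw [hP]; ring
      _ ≤ P * ∫⁻ x, min (h x / P) 1 := by gcongr
      _ = ∫⁻ x, P * min (h x / P) 1 := (lintegral_const_mul _ (by fun_prop)).symm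
      _ ≤ ∫⁻ x, h x := lintegral_mono fun x =>
          (mul_le_mul' le_rfl (min_le_left _ _)).trans (le_of_eq (ENNReal.mul_div_cancel hP0 hPt))
  · rcases lt_or_ge t 0 with h0 | h0
    · exact ⟨0, h0.trans_le ENNReal.toReal_nonneg⟩
    have h2 : ENNReal.ofReal t * M < M := by
      conv_rhs => rw [← one_mul M]
      gcongr
      rwa [ENNReal.ofReal_lt_one]
    obtain ⟨x, hx⟩ := lt_iSup_iff.1 h2
    refine ⟨x, ?_⟩
    have := (ENNReal.lt_div_iff_mul_lt (Or.inl hM0) (Or.inl hfb)).2 hx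
    exact (ENNReal.ofReal_lt_iff_lt_toReal h0 (ne_top_of_le_ne_top ENNReal.one_ne_top (hf1 x))).1 this
  · rcases lt_or_ge t 0 with h0 | h0
    · exact ⟨0, h0.trans_le ENNReal.toReal_nonneg⟩
    have h2 : ENNReal.ofReal t * N < N := by
      conv_rhs => rw [← one_mul N]
      gcongr
      rwa [ENNReal.ofReal_lt_one]
    obtain ⟨x, hx⟩ := lt_iSup_iff.1 h2
    refine ⟨x, ?_⟩
    have := (ENNReal.lt_div_iff_mul_lt (Or.inl hN0) (Or.inl hgb)).2 hx
    exact (ENNReal.ofReal_lt_iff_lt_toReal h0 (ne_top_of_le_ne_top ENNReal.one_ne_top (hg1 x))).1 this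
  · have hx' : ENNReal.ofReal t < f x / M :=
      (ENNReal.ofReal_lt_iff_lt_toReal ht0.le (ne_top_of_le_ne_top ENNReal.one_ne_top (hf1 x))).2 htx
    have hy' : ENNReal.ofReal t < g y / N :=
      (ENNReal.ofReal_lt_iff_lt_toReal ht0.le (ne_top_of_le_ne_top ENNReal.one_ne_top (hg1 y))).2 hty
    have h3 : ENNReal.ofReal t < h (a * x + b * y) / P := by
      calc ENNReal.ofReal t = ENNReal.ofReal t ^ a * ENNReal.ofReal t ^ b := by
            rw [← ENNReal.rpow_add _ _ (by simpa using ht0) ENNReal.ofReal_ne_top, hab, ENNReal.rpow_one]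
        _ < (f x / M) ^ a * (g y / N) ^ b :=
            ENNReal.mul_lt_mul (ENNReal.rpow_lt_rpow hx' ha) (ENNReal.rpow_lt_rpow hy' hb)
        _ = f x ^ a * g y ^ b / P := by
            rw [ENNReal.div_rpow_of_nonneg _ _ ha.le, ENNReal.div_rpow_of_nonneg _ _ hb.le,
              div_eq_mul_inv, div_eq_mul_inv, div_eq_mul_inv, hP,
              ENNReal.mul_inv (Or.inl (by simp [hM0, hfb, ENNReal.rpow_eq_zero_iff]))
                (Or.inl (ENNReal.rpow_ne_top_of_nonneg ha.le hfb))]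
            ring
        _ ≤ h (a * x + b * y) / P := by gcongr; exact hfgh x y
    have h4 : ENNReal.ofReal t < 1 := hx'.trans_le (hf1 x)
    exact (ENNReal.ofReal_lt_iff_lt_toReal ht0.le (hh1 _)).1 (lt_min h3 h4)

lemma rpow_iSup (f : ℕ → ℝ≥0∞) {a : ℝ} (ha : 0 < a) : (⨆ k, f k) ^ a = ⨆ k, f k ^ a :=
  (ENNReal.orderIsoRpow a ha).map_iSup f

/-- One-dimensional Prekopa-Leindler inequality. -/
lemma pl_one {a b : ℝ} (ha : 0 < a) (hb : 0 < b) (hab : a + b = 1) (f g h : ℝ → ℝ≥0∞)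
    (hf : Measurable f) (hg : Measurable g) (hh : Measurable h)
    (hfgh : ∀ x y, f x ^ a * g y ^ b ≤ h (a * x + b * y)) :
    (∫⁻ x, f x) ^ a * (∫⁻ x, g x) ^ b ≤ ∫⁻ x, h x := by
  have key : ∀ u : ℝ → ℝ≥0∞, Measurable u →
      ∫⁻ x, u x = ⨆ k : ℕ, ∫⁻ x, min (u x) k := fun u hu => by
    refine Eq.trans ?_ (lintegral_iSup (f := fun (k : ℕ) x => min (u x) (k : ℝ≥0∞)) (fun k => by fun_prop)
      (fun i j hij x => min_le_min le_rfl (Nat.cast_le.2 hij)))
    refine lintegral_congr fun x => ?_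
    refine le_antisymm ?_ (iSup_le fun k => min_le_left _ _)
    rw [← inf_top_eq (u x)]
    conv_lhs => rw [← ENNReal.iSup_natCast]
    rw [inf_iSup_eq]
    exact iSup_mono fun k => by simp
  rw [key f hf, key g hg, rpow_iSup _ ha, rpow_iSup _ hb, ENNReal.iSup_mul]
  refine iSup_le fun i => ?_
  rw [ENNReal.mul_iSup]
  refine iSup_le fun j => ?_
  refine le_trans ?_ (pl_bounded ha hb hab (fun x => min (f x) ((max i j : ℕ) : ℝ≥0∞))
    (fun x => min (g x) ((max i j : ℕ) : ℝ≥0∞)) h (by fun_prop) (by fun_prop) hh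
    (ne_top_of_le_ne_top (ENNReal.natCast_ne_top _) (iSup_le fun x => min_le_right _ _))
    (ne_top_of_le_ne_top (ENNReal.natCast_ne_top _) (iSup_le fun x => min_le_right _ _))
    fun x y => le_trans ?_ (hfgh x y))
  · gcongr
    · exact le_max_left _ _
    · exact le_max_right _ _
  · gcongr <;> exact min_le_left _ _

/-- Prekopa-Leindler inequality on coordinate space. -/
lemma pl_pi {a b : ℝ} (ha : 0 < a) (hb : 0 < b) (hab : a + b = 1) :
    ∀ (n : ℕ) (f g h : (Fin n → ℝ) → ℝ≥0∞), Measurable f → Measurable g → Measurable h →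
    (∀ x y, f x ^ a * g y ^ b ≤ h (a • x + b • y)) →
    (∫⁻ x, f x) ^ a * (∫⁻ x, g x) ^ b ≤ ∫⁻ x, h x := by
  intro n
  induction n with
  | zero =>
    intro f g h _ _ _ hfgh
    have hv : (volume : Measure (Fin 0 → ℝ)) univ = 1 := by
      rw [volume_pi, Measure.pi_univ]; simp
    rw [lintegral_unique, lintegral_unique, lintegral_unique, hv, mul_one, mul_one, mul_one]
    have := hfgh default default
    refine le_trans (le_of_eq ?_) ((hfgh (fun i => i.elim0) (fun i => i.elim0)).trans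
      (le_of_eq (congrArg h (Subsingleton.elim _ _))))
    exact congrArg₂ (fun u v => f u ^ a * g v ^ b) (Subsingleton.elim _ _) (Subsingleton.elim _ _)
  | succ n ih =>
    intro f g h hf hg hh hfgh
    set e := MeasurableEquiv.piFinSuccAbove (fun _ : Fin (n + 1) => ℝ) 0 with he
    have hmp := volume_preserving_piFinSuccAbove (fun _ : Fin (n + 1) => ℝ) 0
    have conv : ∀ u : (Fin (n + 1) → ℝ) → ℝ≥0∞, Measurable u →
        ∫⁻ x, u x = ∫⁻ s : ℝ, ∫⁻ y : Fin n → ℝ, u (Fin.cons s y) := fun u hu => by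
      rw [← (hmp.symm e).lintegral_comp_emb e.symm.measurableEmbedding u,
        Measure.volume_eq_prod]
      rw [lintegral_prod (fun z => u (e.symm z)) (hu.comp e.symm.measurable).aemeasurable]
      refine lintegral_congr fun s => lintegral_congr fun y => ?_
      simp [he, MeasurableEquiv.piFinSuccAbove_symm_apply, Fin.insertNthEquiv]
    have meas : ∀ u : (Fin (n + 1) → ℝ) → ℝ≥0∞, Measurable u →
        Measurable fun s : ℝ => ∫⁻ y : Fin n → ℝ, u (Fin.cons s y) := fun u hu =>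
      Measurable.lintegral_prod_right' (f := fun (p : ℝ × (Fin n → ℝ)) => u (Fin.cons p.1 p.2))
        (hu.comp (by fun_prop))
    have mc : ∀ s : ℝ, Measurable fun y : Fin n → ℝ => (Fin.cons s y : Fin (n + 1) → ℝ) :=
      fun s => by fun_prop
    rw [conv f hf, conv g hg, conv h hh]
    refine pl_one ha hb hab _ _ _ (meas f hf) (meas g hg) (meas h hh) fun s t => ?_
    refine ih _ _ _ (hf.comp (mc s)) (hg.comp (mc t)) (hh.comp (mc _)) fun x y => ?_
    refine (hfgh _ _).trans (le_of_eq (congrArg h ?_))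
    funext i
    refine Fin.cases ?_ (fun j => ?_) i <;> simp

/-- Prekopa-Leindler inequality on Euclidean space. -/
lemma pl_euclidean {a b : ℝ} (ha : 0 < a) (hb : 0 < b) (hab : a + b = 1) {n : ℕ}
    (f g h : EuclideanSpace ℝ (Fin n) → ℝ≥0∞) (hf : Measurable f) (hg : Measurable g)
    (hh : Measurable h) (hfgh : ∀ x y, f x ^ a * g y ^ b ≤ h (a • x + b • y)) :
    (∫⁻ x, f x) ^ a * (∫⁻ x, g x) ^ b ≤ ∫⁻ x, h x := by
  have hmp := PiLp.volume_preserving_toLp (Fin n)
  rw [← hmp.lintegral_comp hf, ← hmp.lintegral_comp hg, ← hmp.lintegral_comp hh]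
  exact pl_pi ha hb hab n _ _ _ (hf.comp hmp.measurable) (hg.comp hmp.measurable)
    (hh.comp hmp.measurable) fun x y => hfgh _ _

end Vale.Agent.P245
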