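import Vale.Agent.P245.Concord

open MeasureTheory Real Filter Set
open scoped Topology RealInnerProductSpace

namespace Vale.Agent.P245

variable {n : ℕ}

lemma Poin.mono {ν : Measure (Euc n)} {R C C' e : ℝ} (h : Poin ν R C e) (hC : C ≤ C') : Poin ν R C' e :=
  fun g g' M hg hM hgM => (h g g' M hg hM hgM).trans
    (add_le_add (mul_le_mul_of_nonneg_right hC (integral_nonneg fun _ => sq_nonneg _)) le_rfl)

lemma poin_slc {ν : Measure (Euc n)} [IsProbabilityMeasure ν] {R κ : ℝ} (hκ : 0 < κ) (hν : IsLC κ ν)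
    (hS : Supp ν R) (hR : 0 ≤ R) : Poin ν R (1 / κ) 0 := fun g g' M hg _ _ => by
  rw [zero_mul, add_zero]
  exact poincare_slc hκ hν hS hR hg

/-- Tangent line bound for a negative power. -/
lemma rpow_neg_tangent {p Q y : ℝ} (hp : 0 ≤ p) (hQ : 0 < Q) (hy : 0 < y) :
    Q ^ (-p) * (1 - p * (y / Q - 1)) ≤ y ^ (-p) := by
  have h1 : y ^ (-p) = Q ^ (-p) * (y / Q) ^ (-p) := by
    rw [← mul_rpow hQ.le (by positivity), mul_div_cancel₀ _ hQ.ne']
  rw [h1]
  refine mul_le_mul_of_nonneg_left ?_ (rpow_nonneg hQ.le _)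
  rw [rpow_def_of_pos (div_pos hy hQ)]
  have h2 := mul_le_mul_of_nonneg_left (log_le_sub_one_of_pos (div_pos hy hQ)) hp
  linarith [add_one_le_exp (log (y / Q) * -p)]

section

variable {μ : Measure (Euc n)} [IsProbabilityMeasure μ] {R : ℝ}

lemma continuous_phi (hS : Supp μ R) (t : ℝ) (m : ℕ) : Continuous (phi t μ m) := (d1_phi hS t m).cont

lemma abs_phi_le (t : ℝ) (m : ℕ) (θ : Euc n) : |phi t μ m θ| ≤ 1 := by
  rw [abs_of_pos (phi_pos t m θ)]; exact phi_le_one t m θ

lemma mean_phi_ge (hS : Supp μ R) (t : ℝ) {m : ℕ} {Q : ℝ}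
    (h : 1 + elaw t μ (strace t μ m) ≤ Q) : Q ^ (-(1 / (4 * (m : ℝ)))) ≤ elaw t μ (phi t μ m) := by
  set p := 1 / (4 * (m : ℝ)) with hp
  have hb : ∀ θ, |strace t μ m θ| ≤ n * (4 * R ^ 2) ^ (2 * m) := fun θ => by
    rw [abs_of_nonneg (strace_nonneg _ _ _)]; exact strace_le hS _ _ _
  have hE0 : 0 ≤ elaw t μ (strace t μ m) := integral_nonneg fun x => integral_nonneg fun G => strace_nonneg _ _ _
  have hQ : 0 < Q := by linarith
  have hp0 : 0 ≤ p := by positivity
  set a := -(Q ^ (-p) * p / Q) with ha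
  set c := Q ^ (-p) * (1 + p - p / Q) with hc
  have hpt : ∀ θ, a * strace t μ m θ + c ≤ phi t μ m θ := fun θ => by
    refine le_trans (le_of_eq ?_) (rpow_neg_tangent hp0 hQ (by linarith [strace_nonneg (μ := μ) t m θ] :
      0 < 1 + strace t μ m θ))
    rw [ha, hc]; ring
  have h1 := elaw_mono (t := t) hS (h₁ := fun θ => a * strace t μ m θ + c)
    (((continuous_strace hS t m).const_mul a).add continuous_const) (continuous_phi hS t m)
    (B₁ := |a| * (n * (4 * R ^ 2) ^ (2 * m)) + |c|) (fun θ => (abs_add_le _ _).trans (add_le_add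
      (by rw [abs_mul]; exact mul_le_mul_of_nonneg_left (hb θ) (abs_nonneg _)) le_rfl))
    (abs_phi_le t m) hpt
  rw [elaw_affine hS (continuous_strace hS t m) hb] at h1
  refine le_trans ?_ h1
  have h2 : 0 ≤ Q ^ (-p) * p / Q * (Q - (1 + elaw t μ (strace t μ m))) :=
    mul_nonneg (by have := rpow_nonneg hQ.le (-p); positivity) (by linarith)
  have h3 : Q ^ (-p) * p / Q * Q = Q ^ (-p) * p := div_mul_cancel₀ _ hQ.ne'
  rw [ha, hc]
  have e : Q ^ (-p) * (1 + p - p / Q) = Q ^ (-p) + Q ^ (-p) * p - Q ^ (-p) * p / Q := by ring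
  rw [e]
  linarith

lemma gauss_mgf_phi (hS : Supp μ R) (hμ : IsLC 0 μ) {t : ℝ} (ht : 0 ≤ t) (j : ℕ) (x : Euc n) (l : ℝ) :
    ∫ G, exp (l * phi t μ (j + 1) (pt (√t) x G)) ∂(gam n)
      ≤ exp (l * (∫ G, phi t μ (j + 1) (pt (√t) x G) ∂(gam n)) + 5625 * t * l ^ 2 / 2) := by
  set s := √t with hs
  have hs0 : 0 ≤ s := Real.sqrt_nonneg _
  have hd := d1_phi hS t (j + 1)
  have hu : D1 (fun G => phi t μ (j + 1) (pt s x G)) (fun G => s • phigrad t μ (j + 1) (pt s x G)) := by
    refine ⟨fun G => ?_, (hd.cont'.comp (continuous_pt s x)).const_smul s⟩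
    have h1 : HasFDerivAt (pt s x) (s • ContinuousLinearMap.id ℝ (Euc n)) G :=
      ((hasFDerivAt_id G).const_smul s).const_add _
    convert! (hd.deriv (pt s x G)).comp G h1 using 1
    ext v; simp
  have h := herbst_gam hu (B := 1) (G := 75 * s) (fun G => abs_phi_le t _ _) (fun G => by
    rw [norm_smul, norm_eq_abs, abs_of_nonneg hs0, mul_comm (75 : ℝ)]
    exact mul_le_mul_of_nonneg_left (norm_phigrad_le hS hμ ht j _) hs0) l
  refine h.trans (le_of_eq ?_)
  rw [mul_pow, hs, Real.sq_sqrt ht]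
  norm_num

/-- Mean of `phi` at time `t` given the point. -/
noncomputable def pav (t : ℝ) (μ : Measure (Euc n)) (m : ℕ) (x : Euc n) : ℝ :=
  ∫ G, phi t μ m (pt (√t) x G) ∂(gam n)

/-- Gradient of `pav`. -/
noncomputable def pgrad (t : ℝ) (μ : Measure (Euc n)) (m : ℕ) (x : Euc n) : Euc n :=
  t • ∫ G, phigrad t μ m (pt (√t) x G) ∂(gam n)

lemma d1_pav (hS : Supp μ R) (hμ : IsLC 0 μ) {t : ℝ} (ht : 0 ≤ t) (j : ℕ) :
    D1 (pav t μ (j + 1)) (pgrad t μ (j + 1)) ∧ ∀ x, ‖pgrad t μ (j + 1) x‖ ≤ 75 * t := by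
  set s := √t with hs
  have hd := d1_phi hS t (j + 1)
  have hb := norm_phigrad_le hS hμ ht j
  have hp : Continuous fun p : Euc n × Euc n => pt s p.1 p.2 := by unfold pt; fun_prop
  have hi : ∀ x, Integrable (fun G => phigrad t μ (j + 1) (pt s x G)) (gam n) := fun x =>
    Integrable.of_bound (hd.cont'.comp (continuous_pt s x)).aestronglyMeasurable 75 (Eventually.of_forall fun G => hb _)
  refine ⟨⟨fun x => ?_, ?_⟩, fun x => ?_⟩
  · have hd' : ∀ G y, HasFDerivAt (fun y => phi t μ (j + 1) (pt s y G))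
        (innerSL ℝ (t • phigrad t μ (j + 1) (pt s y G))) y := fun G y => by
      have h1 : HasFDerivAt (fun y => pt s y G) (s ^ 2 • ContinuousLinearMap.id ℝ (Euc n)) y :=
        ((hasFDerivAt_id y).const_smul (s ^ 2)).add_const _
      rw [show s ^ 2 = t from Real.sq_sqrt ht] at h1
      convert! (hd.deriv (pt s y G)).comp y h1 using 1
      ext v; simp
    have := hasFDerivAt_integral_of_dominated_of_fderiv_le (μ := gam n)
      (F := fun y G => phi t μ (j + 1) (pt s y G))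
      (F' := fun y G => innerSL ℝ (t • phigrad t μ (j + 1) (pt s y G)))
      (bound := fun _ => t * 75) (s := Metric.ball x 1) (Metric.ball_mem_nhds x one_pos)
      (Eventually.of_forall fun y => (hd.cont.comp (continuous_pt s y)).aestronglyMeasurable)
      (integrable_gam_bdd (hd.cont.comp (continuous_pt s x)) fun G => abs_phi_le t _ _)
      ((innerSL ℝ).continuous.comp ((hd.cont'.comp (continuous_pt s x)).const_smul t)).aestronglyMeasurable
      (Eventually.of_forall fun G y _ => by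
        rw [innerSL_apply_norm, norm_smul, norm_eq_abs, abs_of_nonneg ht]
        exact mul_le_mul_of_nonneg_left (hb _) ht)
      (integrable_const _) (Eventually.of_forall fun G y _ => hd' G y)
    rw [ContinuousLinearMap.integral_comp_comm (innerSL ℝ)
      (φ := fun G => t • phigrad t μ (j + 1) (pt s x G)) ((hi x).smul t), integral_smul] at this
    exact this
  · exact (continuous_of_dominated (bound := fun _ => (75 : ℝ))
      (fun x => (hd.cont'.comp (continuous_pt s x)).aestronglyMeasurable)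
      (fun x => Eventually.of_forall fun G => hb _) (integrable_const _)
      (Eventually.of_forall fun G => hd.cont'.comp (hp.comp (Continuous.prodMk_left G)))).const_smul t
  · rw [pgrad, norm_smul, norm_eq_abs, abs_of_nonneg ht, mul_comm]
    refine mul_le_mul_of_nonneg_right ?_ ht
    simpa using norm_integral_le_of_norm_le_const (μ := gam n) (f := fun G => phigrad t μ (j + 1) (pt s x G)) (C := 75)
      (Eventually.of_forall fun G => hb _)

lemma elaw_phi_eq (t : ℝ) (m : ℕ) : elaw t μ (phi t μ m) = ∫ x, pav t μ m x ∂μ := rfl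

lemma pav_mgf (hS : Supp μ R) (hμ : IsLC 0 μ) {K : ℝ} (hK : 0 ≤ K) (hF : Fisi μ K) {t : ℝ} (ht : 0 ≤ t)
    (j : ℕ) (l : ℝ) :
    ∫ x, exp (l * pav t μ (j + 1) x) ∂μ
      ≤ exp (l * elaw t μ (phi t μ (j + 1)) + 5625 * (K * t ^ 2) * l ^ 2) := by
  obtain ⟨hd, hg⟩ := d1_pav hS hμ ht j
  have h := herbst_mgf hK hS hF hd (fun x _ => hg x) l
  rw [← elaw_phi_eq] at h
  simp only [mul_sub, exp_sub] at h
  rw [integral_div, div_le_iff₀ (exp_pos _), ← exp_add] at h
  exact h.trans (le_of_eq (by rw [mul_pow]; ring_nf))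

/-- Concentration of `phi` along the localisation. -/
lemma elaw_mgf_phi (hS : Supp μ R) (hμ : IsLC 0 μ) {K : ℝ} (hK : 0 ≤ K) (hF : Fisi μ K) {t : ℝ} (ht : 0 ≤ t)
    (j : ℕ) (l : ℝ) :
    elaw t μ (fun θ => exp (l * phi t μ (j + 1) θ))
      ≤ exp (l * elaw t μ (phi t μ (j + 1)) + 5625 * (K * t ^ 2 + t / 2) * l ^ 2) := by
  have hd := (d1_pav hS hμ ht j).1
  have hp : Continuous fun p : Euc n × Euc n => pt (√t) p.1 p.2 := by unfold pt; fun_prop
  have hc : Continuous fun θ => exp (l * phi t μ (j + 1) θ) := ((continuous_phi hS t _).const_mul l).rexp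
  have hcg := continuous_gint (H := fun x G => exp (l * phi t μ (j + 1) (pt (√t) x G))) (hc.comp hp)
    (B := exp (|l|)) fun x G => by
      rw [abs_exp, exp_le_exp]
      exact (le_abs_self _).trans ((abs_mul _ _).le.trans (mul_le_of_le_one_right (abs_nonneg _) (abs_phi_le t _ _)))
  have h1 := integral_mono (hS.integrable hcg)
    (hS.integrable (f := fun x => exp (l * pav t μ (j + 1) x + 5625 * t * l ^ 2 / 2))
      ((hd.cont.const_mul l).add continuous_const).rexp) fun x => gauss_mgf_phi hS hμ ht j x l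
  refine h1.trans ?_
  have e : ∀ x, exp (l * pav t μ (j + 1) x + 5625 * t * l ^ 2 / 2)
      = exp (5625 * t * l ^ 2 / 2) * exp (l * pav t μ (j + 1) x) := fun x => by rw [← exp_add, add_comm]
  rw [integral_congr_ae (Eventually.of_forall e), integral_const_mul]
  refine (mul_le_mul_of_nonneg_left (pav_mgf hS hμ hK hF ht j l) (exp_pos _).le).trans (le_of_eq ?_)
  rw [← exp_add]; ring_nf

/-- Continuous indicator of a large fibre covariance. -/
noncomputable def xi (τ : ℝ) (μ : Measure (Euc n)) (z : Euc n) : ℝ :=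
  max 0 (min 1 (16 * τ * (phi τ μ 21 z ^ 2)⁻¹ - 1))

lemma xi_nonneg (τ : ℝ) (z : Euc n) : 0 ≤ xi τ μ z := le_max_left _ _

lemma xi_le_one (τ : ℝ) (z : Euc n) : xi τ μ z ≤ 1 := max_le zero_le_one (min_le_left _ _)

lemma abs_xi_le (τ : ℝ) (z : Euc n) : |xi τ μ z| ≤ 1 := by
  rw [abs_of_nonneg (xi_nonneg τ z)]; exact xi_le_one τ z

lemma continuous_xi (hS : Supp μ R) (τ : ℝ) : Continuous (xi τ μ) :=
  continuous_const.max (continuous_const.min (((((continuous_phi hS τ 21).pow 2).inv₀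
    fun z => (pow_pos (phi_pos τ 21 z) 2).ne').const_mul _).sub continuous_const))

lemma aent_le_xi (hS : Supp μ R) (hR : 0 ≤ R) (hμ : IsLC 0 μ) {τ σ : ℝ} (hσ : 0 < σ) (hστ : σ ≤ τ) (z v : Euc n)
    (hv : ‖v‖ = 1) : aent τ μ z v v ≤ 1 / (8 * σ) + xi τ μ z / σ := by
  have hτ : 0 < τ := hσ.trans_le hστ
  have h1 := aent_le_phi hS τ (m := 21) (by norm_num) z v
  have h2 := aent_le_inv hS hR hμ hτ z v
  rw [hv, one_pow, mul_one] at h1
  rw [hv, one_pow] at h2
  have h3 : 1 / (8 * τ) ≤ 1 / (8 * σ) := one_div_le_one_div_of_le (by positivity) (by linarith)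
  rcases le_or_gt (phi τ μ 21 z ^ 2)⁻¹ (1 / (8 * τ)) with h | h
  · have := div_nonneg (xi_nonneg (μ := μ) τ z) hσ.le
    linarith
  · have hxi : xi τ μ z = 1 := by
      rw [div_lt_iff₀ (by positivity)] at h
      rw [xi, min_eq_left (by nlinarith), max_eq_right zero_le_one]
    rw [hxi]
    have : 1 / τ ≤ 1 / σ := one_div_le_one_div_of_le hσ hστ
    have : 0 < 1 / (8 * σ) := by positivity
    linarith

lemma xi_le_exp {τ : ℝ} {l : ℝ} (hl : 0 ≤ l) (z : Euc n) :
    xi τ μ z ≤ exp (l * (4 * √τ)) * exp (-l * phi τ μ 21 z) := by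
  rcases le_or_gt (16 * τ * (phi τ μ 21 z ^ 2)⁻¹) 1 with h | h
  · have e : xi τ μ z = 0 := by
      rw [xi, max_eq_left]
      exact le_trans (min_le_right _ _) (by linarith)
    rw [e]; positivity
  · have hp := phi_pos (μ := μ) τ 21 z
    rw [← div_eq_mul_inv, lt_div_iff₀ (by positivity), one_mul] at h
    have hτ : 0 < τ := by nlinarith [sq_pos_of_pos hp]
    have h4 : phi τ μ 21 z ≤ 4 * √τ := by
      refine (pow_le_pow_iff_left₀ hp.le (by positivity) two_ne_zero).1 ?_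
      rw [mul_pow, Real.sq_sqrt hτ.le]; linarith
    refine (xi_le_one τ z).trans ?_
    rw [← exp_add]
    exact one_le_exp (by have := mul_le_mul_of_nonneg_left h4 hl; linarith)

lemma elaw_xi_nonneg (τ : ℝ) : 0 ≤ elaw τ μ (xi τ μ) :=
  integral_nonneg fun _ => integral_nonneg fun _ => xi_nonneg τ _

lemma elaw_xi_le (hS : Supp μ R) (hμ : IsLC 0 μ) {K : ℝ} (hK : 0 ≤ K) (hF : Fisi μ K) {τ l : ℝ} (hτ : 0 ≤ τ)
    (hl : 0 ≤ l) :
    elaw τ μ (xi τ μ) ≤ exp (l * (4 * √τ) - l * elaw τ μ (phi τ μ 21) + 5625 * (K * τ ^ 2 + τ / 2) * l ^ 2) := by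
  have hc : Continuous fun θ => exp (-l * phi τ μ 21 θ) := ((continuous_phi hS τ _).const_mul _).rexp
  have hb : ∀ θ, |exp (-l * phi τ μ 21 θ)| ≤ 1 := fun θ => by
    rw [abs_exp, exp_le_one_iff, neg_mul, neg_nonpos]
    exact mul_nonneg hl (phi_pos τ 21 θ).le
  have h := elaw_mono (t := τ) hS (h₂ := fun θ => exp (l * (4 * √τ)) * exp (-l * phi τ μ 21 θ) + 0)
    (continuous_xi hS τ) ((hc.const_mul (exp (l * (4 * √τ)))).add continuous_const)
    (B₂ := exp (l * (4 * √τ)) + 0) (abs_xi_le τ) (fun θ => by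
      rw [add_zero, add_zero, abs_mul, abs_exp]
      exact mul_le_of_le_one_right (exp_pos _).le (hb θ))
    (fun θ => (xi_le_exp hl θ).trans (le_of_eq (add_zero _).symm))
  rw [elaw_affine hS hc hb, add_zero] at h
  refine h.trans ?_
  refine (mul_le_mul_of_nonneg_left (elaw_mgf_phi hS hμ hK hF hτ 20 (-l)) (exp_pos _).le).trans (le_of_eq ?_)
  rw [← exp_add]; ring_nf

end

end Vale.Agent.P245
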