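import Vale.Agent.P245.Moment

open MeasureTheory Real Filter Set
open scoped Topology ENNReal RealInnerProductSpace

namespace Vale.Agent.P245

variable {n : ℕ}

lemma borell {P : Measure (Euc n)} [IsProbabilityMeasure P] (hP : IsLC 0 P) (v : Euc n) (c r : ℝ)
    (h9 : P.real {x | r < |⟪v, x⟫ - c|} ≤ 1 / 9) {k : ℕ} (hk : 1 ≤ k) :
    P.real {x | (2 * k + 1) * r < |⟪v, x⟫ - c|} ≤ (1 / 8) ^ k / 9 := by
  set y := fun x : Euc n => ⟪v, x⟫ - c with hy
  set O := {x | r < |y x|} with hO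
  set K := {x | (2 * k + 1) * r < |y x|} with hK
  set I := {x | |y x| ≤ r} with hI
  have hyc : Continuous y := by fun_prop
  have mO : MeasurableSet O := measurableSet_lt measurable_const hyc.abs.measurable
  have mK : MeasurableSet K := measurableSet_lt measurable_const hyc.abs.measurable
  have mI : MeasurableSet I := measurableSet_le hyc.abs.measurable measurable_const
  set a := (1 : ℝ) / (k + 1) with ha
  set b := (k : ℝ) / (k + 1) with hb
  have hk' : (1 : ℝ) ≤ k := by exact_mod_cast hk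
  have ha0 : 0 < a := by positivity
  have hb0 : 0 < b := by positivity
  have hab : a + b = 1 := by rw [ha, hb, ← add_div, add_comm, div_self (by positivity)]
  have hpl := lintegral_pl hP ha0 hb0 hab (K.indicator 1) (I.indicator 1) (O.indicator 1)
    (measurable_one.indicator mK) (measurable_one.indicator mI) (measurable_one.indicator mO) fun x z => by
    by_cases hx : x ∈ K
    swap
    · simp [hx, ENNReal.zero_rpow_of_pos ha0]
    by_cases hz : z ∈ I
    swap
    · simp [hz, ENNReal.zero_rpow_of_pos hb0]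
    have hin : a • x + b • z ∈ O := by
      show r < |y (a • x + b • z)|
      have e : y (a • x + b • z) = a * y x + b * y z := by
        simp only [hy, inner_add_right, inner_smul_right]; linear_combination c * hab
      rw [e]
      have h1 : a * ((2 * k + 1) * r) < a * |y x| := mul_lt_mul_of_pos_left hx ha0
      have h2 : b * |y z| ≤ b * r := mul_le_mul_of_nonneg_left hz hb0.le
      have h3 : a * |y x| - b * |y z| ≤ |a * y x + b * y z| := by
        have := abs_sub_abs_le_abs_sub (a * y x) (-(b * y z))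
        rw [sub_neg_eq_add, abs_neg, abs_mul, abs_mul, abs_of_pos ha0, abs_of_pos hb0] at this
        exact this
      have h4 : a * ((2 * k + 1) * r) - b * r = r := by rw [ha, hb]; field_simp; ring
      linarith
    simp [hx, hz, hin]
  rw [lintegral_indicator_one mK, lintegral_indicator_one mI, lintegral_indicator_one mO] at hpl
  have h := ENNReal.toReal_mono (measure_ne_top _ _) hpl
  rw [ENNReal.toReal_mul, ← ENNReal.toReal_rpow, ← ENNReal.toReal_rpow] at h
  change P.real K ^ a * P.real I ^ b ≤ P.real O at h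
  have hI8 : 8 / 9 ≤ P.real I := by
    have e : I = Oᶜ := by ext x; simp [hI, hO]
    rw [e, probReal_compl_eq_one_sub mO]
    change P.real O ≤ 1 / 9 at h9
    linarith
  have hK0 : 0 ≤ P.real K := measureReal_nonneg
  have h5 : P.real K ^ a * (8 / 9 : ℝ) ^ b ≤ 1 / 9 :=
    ((mul_le_mul_of_nonneg_left (rpow_le_rpow (by norm_num) hI8 hb0.le) (rpow_nonneg hK0 _)).trans h).trans h9
  have h6 := rpow_le_rpow (by positivity) h5 (by positivity : 0 ≤ (k : ℝ) + 1)
  rw [mul_rpow (rpow_nonneg hK0 _) (rpow_nonneg (by norm_num) _), ← rpow_mul hK0, ← rpow_mul (by norm_num),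
    show a * ((k : ℝ) + 1) = 1 by rw [ha]; field_simp, show b * ((k : ℝ) + 1) = k by rw [hb]; field_simp,
    rpow_one, rpow_natCast, show ((k : ℝ) + 1) = ((k + 1 : ℕ) : ℝ) by push_cast; ring, rpow_natCast, pow_succ,
    ← le_div_iff₀ (by positivity)] at h6
  refine h6.trans (le_of_eq ?_)
  rw [div_pow, div_pow, div_pow, one_pow]
  field_simp

lemma sum_tail_bound (N : ℕ) : ∑ k ∈ Finset.range N, (2 * (k : ℝ) + 3) ^ 4 * ((1 / 8) ^ k / 9) ≤ 255 := by
  have hq : ∀ k : ℕ, (2 * (k : ℝ) + 3) ^ 4 * (1 / 8 : ℝ) ^ k ≤ 81 * (625 / 648) ^ k := by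
    intro k
    induction k with
    | zero => norm_num
    | succ k ih =>
      have h1 : 2 * ((k + 1 : ℕ) : ℝ) + 3 ≤ 5 / 3 * (2 * k + 3) := by push_cast; linarith [(k.cast_nonneg : (0:ℝ) ≤ k)]
      have h2 := pow_le_pow_left₀ (by positivity) h1 4
      rw [pow_succ, pow_succ (625 / 648 : ℝ)]
      calc (2 * ((k + 1 : ℕ) : ℝ) + 3) ^ 4 * ((1 / 8) ^ k * (1 / 8))
          ≤ (5 / 3 * (2 * k + 3)) ^ 4 * ((1 / 8) ^ k * (1 / 8)) := mul_le_mul_of_nonneg_right h2 (by positivity)
        _ = ((2 * (k : ℝ) + 3) ^ 4 * (1 / 8) ^ k) * (625 / 648) := by ring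
        _ ≤ 81 * (625 / 648) ^ k * (625 / 648) := mul_le_mul_of_nonneg_right ih (by norm_num)
        _ = _ := by ring
  have hg : ∑ k ∈ Finset.range N, (625 / 648 : ℝ) ^ k ≤ 648 / 23 := by
    have h := geom_sum_mul_neg (625 / 648 : ℝ) N
    have h0 : (0 : ℝ) ≤ (625 / 648 : ℝ) ^ N := by positivity
    rw [show (1 : ℝ) - 625 / 648 = 23 / 648 by norm_num] at h
    linarith
  calc ∑ k ∈ Finset.range N, (2 * (k : ℝ) + 3) ^ 4 * ((1 / 8) ^ k / 9)
      ≤ ∑ k ∈ Finset.range N, 9 * (625 / 648 : ℝ) ^ k := Finset.sum_le_sum fun k _ => by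
        rw [← mul_div_assoc, div_le_iff₀ (by norm_num)]
        linarith [hq k]
    _ ≤ 255 := by rw [← Finset.mul_sum]; linarith

/-- Fourth moments of linear functionals of a log-concave measure. -/
lemma fourth_moment {P : Measure (Euc n)} [IsProbabilityMeasure P] (hP : IsLC 0 P) {R : ℝ} (hS : Supp P R) (v : Euc n) (c : ℝ) :
    ∫ x, (⟪v, x⟫ - c) ^ 4 ∂P ≤ 22500 * (∫ x, (⟪v, x⟫ - c) ^ 2 ∂P) ^ 2 := by
  set y := fun x : Euc n => ⟪v, x⟫ - c with hy
  have hyc : Continuous y := by fun_prop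
  set a := ∫ x, y x ^ 2 ∂P with ha
  have ha0 : 0 ≤ a := integral_nonneg fun x => sq_nonneg _
  rcases ha0.eq_or_lt with h0 | hapos
  · have hz : (fun x => y x ^ 2) =ᵐ[P] 0 :=
      (integral_eq_zero_iff_of_nonneg (fun x => sq_nonneg _) (hS.integrable (hyc.pow 2))).1 h0.symm
    rw [integral_eq_zero_of_ae (hz.mono fun x hx => by
      have : y x = 0 := by simpa using hx
      show y x ^ 4 = 0
      simp [this])]
    positivity
  set r := 3 * √a with hr
  have hr0 : 0 < r := by positivity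
  have hr2 : r ^ 2 = 9 * a := by rw [hr, mul_pow, Real.sq_sqrt ha0]; norm_num
  have h9 : P.real {x | r < |y x|} ≤ 1 / 9 := by
    have h := mul_meas_ge_le_integral_of_nonneg (μ := P) (f := fun x => y x ^ 2) (Eventually.of_forall fun x => sq_nonneg _)
      (hS.integrable (hyc.pow 2)) (9 * a)
    have hsub : P.real {x | r < |y x|} ≤ P.real {x | 9 * a ≤ y x ^ 2} := measureReal_mono fun x hx => by
      show 9 * a ≤ y x ^ 2
      rw [← hr2, ← sq_abs (y x)]
      exact pow_le_pow_left₀ hr0.le (le_of_lt hx) 2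
    have : P.real {x | 9 * a ≤ y x ^ 2} ≤ 1 / 9 := by
      rw [le_div_iff₀ (by norm_num)]
      refine le_of_mul_le_mul_left ?_ hapos
      linarith
    linarith
  obtain ⟨Y, hY⟩ := (isCompact_closedBall (0 : Euc n) R).exists_bound_of_continuousOn hyc.continuousOn
  obtain ⟨N, hN⟩ := exists_nat_ge (Y / r)
  set J := fun k : ℕ => {x : Euc n | (2 * k + 1) * r < |y x|} with hJ
  have mJ : ∀ k, MeasurableSet (J k) := fun k => measurableSet_lt measurable_const hyc.abs.measurable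
  have hbor : ∀ k, P.real (J k) ≤ (1 / 8) ^ k / 9 := fun k => by
    rcases Nat.eq_zero_or_pos k with h | h
    · subst h; simpa [hJ] using h9
    · exact borell hP v c r h9 h
  have hpt : ∀ᵐ x ∂P, y x ^ 4 ≤ r ^ 4 + ∑ k ∈ Finset.range N, (2 * (k : ℝ) + 3) ^ 4 * r ^ 4 * (J k).indicator 1 x := by
    refine hS.mono fun x hx => ?_
    have hnn : ∀ k : ℕ, 0 ≤ (2 * (k : ℝ) + 3) ^ 4 * r ^ 4 * (J k).indicator 1 x := fun k =>
      mul_nonneg (by positivity) (Set.indicator_nonneg (fun _ _ => zero_le_one) x)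
    rw [← (by decide : Even 4).pow_abs (y x)]
    rcases le_or_gt |y x| r with h | h
    · exact (pow_le_pow_left₀ (abs_nonneg _) h 4).trans (le_add_of_nonneg_right (Finset.sum_nonneg fun k _ => hnn k))
    have hyY : |y x| ≤ Y := hY x (by simpa using hx)
    have hyN : |y x| ≤ N * r := hyY.trans ((div_le_iff₀ hr0).1 hN)
    have hex : ∃ k : ℕ, |y x| ≤ (2 * k + 3) * r := ⟨N, hyN.trans (mul_le_mul_of_nonneg_right (by linarith [(N.cast_nonneg : (0:ℝ) ≤ N)]) hr0.le)⟩
    classical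
    set k := Nat.find hex with hk
    have hk1 := Nat.find_spec hex
    rw [← hk] at hk1
    have hk2 : (2 * (k : ℝ) + 1) * r < |y x| := by
      rcases Nat.eq_zero_or_pos k with h0 | h0
      · rw [h0]; simpa using h
      · have := Nat.find_min hex (Nat.sub_lt h0 Nat.one_pos)
        rw [not_le, ← hk, Nat.cast_sub h0] at this
        push_cast at this ⊢
        linarith
    have hkN : k < N := by
      by_contra hcon
      have : (N : ℝ) ≤ k := by exact_mod_cast (not_lt.1 hcon)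
      have : (N : ℝ) * r ≤ k * r := mul_le_mul_of_nonneg_right this hr0.le
      have : 0 ≤ (k : ℝ) * r := by positivity
      linarith
    refine (pow_le_pow_left₀ (abs_nonneg _) hk1 4).trans ?_
    refine le_trans ?_ (le_add_of_nonneg_left (by positivity))
    refine le_trans (le_of_eq ?_) (Finset.single_le_sum (fun k _ => hnn k) (Finset.mem_range.2 hkN))
    rw [Set.indicator_of_mem (show x ∈ J k from hk2), Pi.one_apply, mul_one, mul_pow]
  have hiJ : ∀ k : ℕ, Integrable (fun x => (2 * (k : ℝ) + 3) ^ 4 * r ^ 4 * (J k).indicator 1 x) P := fun k =>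
    ((integrable_const (1 : ℝ)).indicator (mJ k)).const_mul _
  have h := integral_mono_ae (hS.integrable (hyc.pow 4)) ((integrable_const _).add (integrable_finsetSum _ fun k _ => hiJ k)) hpt
  simp only [Pi.add_apply, Pi.pow_apply] at h
  rw [integral_add (integrable_const _) (integrable_finsetSum _ fun k _ => hiJ k), integral_finsetSum _ fun k _ => hiJ k] at h
  simp only [integral_const_mul, integral_indicator_one (mJ _), integral_const, probReal_univ, one_smul] at h
  have h2 : ∑ k ∈ Finset.range N, (2 * (k : ℝ) + 3) ^ 4 * r ^ 4 * P.real (J k) ≤ 255 * r ^ 4 := by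
    calc _ ≤ ∑ k ∈ Finset.range N, r ^ 4 * ((2 * (k : ℝ) + 3) ^ 4 * ((1 / 8) ^ k / 9)) := Finset.sum_le_sum fun k _ => by
          have := mul_le_mul_of_nonneg_left (hbor k) (by positivity : 0 ≤ (2 * (k : ℝ) + 3) ^ 4 * r ^ 4)
          linarith
      _ ≤ _ := by rw [← Finset.mul_sum, mul_comm (255 : ℝ)]; exact mul_le_mul_of_nonneg_left (sum_tail_bound N) (by positivity)
  have e : r ^ 4 = 81 * a ^ 2 := by rw [show r ^ 4 = (r ^ 2) ^ 2 by ring, hr2]; ring
  rw [e] at h h2
  linarith [sq_nonneg a]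

section

variable {μ : Measure (Euc n)} [IsProbabilityMeasure μ] {R t : ℝ}

lemma wvec_self_sq_le (hS : Supp μ R) (hμ : IsLC 0 μ) (ht : 0 ≤ t) (θ u h : Euc n) :
    ⟪h, wvec t μ θ u u⟫ ^ 2 ≤ 22500 * aent t μ θ u u ^ 2 * aent t μ θ h h := by
  have := isProb_fib (T := t) hS θ
  have hsf := supp_fib (T := t) hS θ
  set a := aent t μ θ u u with ha
  have e : ⟪h, wvec t μ θ u u⟫ = ∫ x, (⟪u, cen t μ θ x⟫ ^ 2 - a) * ⟪h, cen t μ θ x⟫ ∂(fib t μ θ) := by
    simp only [sub_mul]
    rw [inner_wvec hS, integral_sub (hsf.integrable (by fun_prop)) (hsf.integrable (by fun_prop)), integral_const_mul,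
      integral_cen hS, mul_zero, sub_zero]
    simp only [sq]
  rw [e]
  refine (cs_integral (hsf.integrable (by fun_prop)) (hsf.integrable (by fun_prop)) (hsf.integrable (by fun_prop))).trans ?_
  have e2 : ∫ x, ⟪h, cen t μ θ x⟫ ^ 2 ∂(fib t μ θ) = aent t μ θ h h := by simp only [aent, sq]
  rw [e2]
  refine mul_le_mul_of_nonneg_right ?_ (aent_self_nonneg _ _)
  have h4 := fourth_moment (P := fib t μ θ) ((isLC_fib (T := t) hS hμ θ).weaken ht) hsf u ⟪u, bary t μ θ⟫
  simp only [← inner_sub_right] at h4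
  have h5 : ∫ x, ⟪u, x - bary t μ θ⟫ ^ 2 ∂(fib t μ θ) = a := by simp only [ha, aent, cen, sq]
  rw [h5] at h4
  refine le_trans ?_ h4
  have ev : ∫ x, (⟪u, cen t μ θ x⟫ ^ 2 - a) ^ 2 ∂(fib t μ θ) = (∫ x, ⟪u, cen t μ θ x⟫ ^ 4 ∂(fib t μ θ)) - a ^ 2 := by
    have e' : ∀ x, (⟪u, cen t μ θ x⟫ ^ 2 - a) ^ 2 = ⟪u, cen t μ θ x⟫ ^ 4 - (2 * a) * ⟪u, cen t μ θ x⟫ ^ 2 + a ^ 2 := fun x => by ring
    rw [integral_congr_ae (Eventually.of_forall e'), integral_add (hsf.integrable (by fun_prop)) (integrable_const _),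
      integral_sub (hsf.integrable (by fun_prop)) (hsf.integrable (by fun_prop)), integral_const_mul, integral_const,
      probReal_univ, one_smul]
    simp only [cen] at h5 ⊢
    rw [h5]; ring
  rw [ev]
  simp only [cen]
  linarith [sq_nonneg a]

/-- Gradient of the trace of an even power of the covariance operator. -/
noncomputable def sgrad (t : ℝ) (μ : Measure (Euc n)) (m : ℕ) (θ : Euc n) : Euc n :=
  ∑ a, ∑ c, (2 * gab t μ 0 m a c θ) • ggrad t μ 0 m a c θ

lemma strace_eq (t : ℝ) (m : ℕ) (θ : Euc n) : strace t μ m θ = ∑ a, ∑ c, gab t μ 0 m a c θ ^ 2 := by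
  rw [sum_gab_sq, sub_zero, strace]

lemma d1_strace (hS : Supp μ R) (t : ℝ) (m : ℕ) : D1 (strace t μ m) (sgrad t μ m) := by
  refine ⟨fun θ => ?_, continuous_finsetSum _ fun a _ => continuous_finsetSum _ fun c _ =>
    ((d1_gab hS t 0 m a c).cont.const_mul 2).smul (d1_gab hS t 0 m a c).cont'⟩
  have e : strace t μ m = fun θ => ∑ a, ∑ c, gab t μ 0 m a c θ * gab t μ 0 m a c θ := funext fun θ => by
    rw [strace_eq]; simp only [sq]
  rw [e]
  have h := HasFDerivAt.fun_sum (u := Finset.univ) fun a _ => HasFDerivAt.fun_sum (u := Finset.univ) fun c _ =>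
    ((d1_gab hS t 0 m a c).deriv θ).fun_mul ((d1_gab hS t 0 m a c).deriv θ)
  refine h.congr_fderiv ?_
  simp only [sgrad, map_sum, map_smul, ← add_smul, two_mul]

lemma hs_basis (M N : Op n) (b : OrthonormalBasis (Fin n) ℝ (Euc n)) :
    ∑ a, ⟪M (stdb n a), N (stdb n a)⟫ = ∑ i, ⟪M (b i), N (b i)⟫ := by
  have key : ∀ c : OrthonormalBasis (Fin n) ℝ (Euc n), ∑ i, ⟪M (c i), N (c i)⟫ = (frob (M + N) - frob (M - N)) / 4 := fun c => by
    rw [frob_basis (M + N) c, frob_basis (M - N) c, ← Finset.sum_sub_distrib, Finset.sum_div]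
    refine Finset.sum_congr rfl fun i _ => ?_
    rw [add_apply, sub_apply, norm_add_sq_real, norm_sub_sq_real]; ring
  rw [key, key]

lemma sgrad_eigen (hS : Supp μ R) (t : ℝ) (j : ℕ) (θ : Euc n) {f : OrthonormalBasis (Fin n) ℝ (Euc n)} {l : Fin n → ℝ}
    (he : ∀ k, Aop t μ θ (f k) = l k • f k) :
    sgrad t μ (j + 1) θ = ∑ p, (2 * ((j : ℝ) + 1) * l p ^ (2 * j + 1)) • wvec t μ θ (f p) (f p) := by
  refine (stdb n).toBasis.ext_elem fun k => ?_
  simp only [OrthonormalBasis.coe_toBasis_repr_apply, OrthonormalBasis.repr_apply_apply]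
  set D := dpow (Aop t μ θ) (dA t μ θ (stdb n k)) (j + 1) with hD
  have e1 : ⟪stdb n k, sgrad t μ (j + 1) θ⟫ = 2 * ∑ c, ⟪(Aop t μ θ ^ (j + 1)) (stdb n c), D (stdb n c)⟫ := by
    simp only [sgrad, inner_sum, inner_smul_right, ggrad, gab, sub_zero, (stdb n).inner_eq_ite, mul_ite, mul_one, mul_zero,
      Finset.sum_ite_eq, Finset.mem_univ, if_true, inner_eq_sum (stdb n) ((Aop t μ θ ^ (j + 1)) _), Finset.mul_sum]
    rw [Finset.sum_comm]
    exact Finset.sum_congr rfl fun c _ => Finset.sum_congr rfl fun a _ => by rw [hD]; ring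
  rw [e1, hs_basis _ _ f, inner_sum, Finset.mul_sum]
  refine Finset.sum_congr rfl fun p _ => ?_
  have hsym : ∀ q (u : Euc n), ⟪f p, (Aop t μ θ ^ q) u⟫ = l p ^ q * ⟪f p, u⟫ := fun q => by
    induction q with
    | zero => simp
    | succ q ih =>
      intro u
      rw [pow_succ', ContinuousLinearMap.mul_def, ContinuousLinearMap.comp_apply, ← symOp_Aop hS, he, real_inner_smul_left, ih]
      ring
  rw [pow_apply_eigen he, real_inner_smul_left, hD, inner_smul_right]
  simp only [dpow, Nat.pred_succ, sum_apply, inner_sum, ContinuousLinearMap.mul_def, ContinuousLinearMap.comp_apply,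
    pow_apply_eigen he, map_smul, inner_smul_right, hsym, inner_dA hS]
  have e : ∀ x ∈ Finset.range (j + 1), l p ^ x * (l p ^ (j - x) * ⟪wvec t μ θ (f p) (f p), stdb n k⟫)
      = l p ^ j * ⟪wvec t μ θ (f p) (f p), stdb n k⟫ := fun x hx => by
    rw [← mul_assoc, ← pow_add, Nat.add_sub_cancel' (by simpa [Nat.lt_succ_iff] using hx)]
  rw [Finset.sum_congr rfl e, Finset.sum_const, Finset.card_range, nsmul_eq_mul,
    real_inner_comm (wvec t μ θ (f p) (f p)) (stdb n k)]
  push_cast; ring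

/-- The Lipschitz surrogate of the inverse square root of the operator norm of the covariance. -/
noncomputable def phi (t : ℝ) (μ : Measure (Euc n)) (m : ℕ) (θ : Euc n) : ℝ :=
  (1 + strace t μ m θ) ^ (-(1 / (4 * (m : ℝ))))

/-- Gradient of `phi`. -/
noncomputable def phigrad (t : ℝ) (μ : Measure (Euc n)) (m : ℕ) (θ : Euc n) : Euc n :=
  (-(1 / (4 * (m : ℝ))) * (1 + strace t μ m θ) ^ (-(1 / (4 * (m : ℝ))) - 1)) • sgrad t μ m θ

lemma phi_pos (t : ℝ) (m : ℕ) (θ : Euc n) : 0 < phi t μ m θ :=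
  rpow_pos_of_pos (by linarith [strace_nonneg (μ := μ) t m θ]) _

lemma phi_le_one (t : ℝ) (m : ℕ) (θ : Euc n) : phi t μ m θ ≤ 1 :=
  rpow_le_one_of_one_le_of_nonpos (by linarith [strace_nonneg (μ := μ) t m θ])
    (neg_nonpos.2 (by positivity))

lemma d1_phi (hS : Supp μ R) (t : ℝ) (m : ℕ) : D1 (phi t μ m) (phigrad t μ m) := by
  have hd := d1_strace hS t m
  have hp : ∀ θ, 1 + strace t μ m θ ≠ 0 := fun θ => by linarith [strace_nonneg (μ := μ) t m θ]
  refine ⟨fun θ => ?_, (continuous_const.mul ((continuous_const.add hd.cont).rpow_const fun θ => Or.inl (hp θ))).smul hd.cont'⟩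
  have h := ((hd.deriv θ).const_add 1).rpow_const (p := -(1 / (4 * (m : ℝ)))) (Or.inl (hp θ))
  refine h.congr_fderiv ?_
  simp only [phigrad, map_smul]

lemma eigen_le_root {f : OrthonormalBasis (Fin n) ℝ (Euc n)} {l : Fin n → ℝ} {θ : Euc n} {m : ℕ} (hm : 1 ≤ m)
    (he : ∀ k, Aop t μ θ (f k) = l k • f k) (hl : ∀ k, 0 ≤ l k) (k : Fin n) :
    l k ≤ (1 + strace t μ m θ) ^ (1 / (2 * (m : ℝ))) := by
  have h : l k ^ (2 * m) ≤ 1 + strace t μ m θ := by
    rw [strace, frob_pow he]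
    linarith [Finset.single_le_sum (f := fun k => l k ^ (2 * m)) (fun k _ => pow_nonneg (hl k) _) (Finset.mem_univ k)]
  have h2 := rpow_le_rpow (pow_nonneg (hl k) _) h (by positivity : 0 ≤ 1 / (2 * (m : ℝ)))
  rwa [← rpow_natCast, ← rpow_mul (hl k), show ((2 * m : ℕ) : ℝ) * (1 / (2 * (m : ℝ))) = 1 by
    have : (m : ℝ) ≠ 0 := by exact_mod_cast (show m ≠ 0 by omega)
    push_cast; field_simp, rpow_one] at h2

lemma phi_inv_sq (t : ℝ) {m : ℕ} (hm : 1 ≤ m) (θ : Euc n) :
    (1 + strace t μ m θ) ^ (1 / (2 * (m : ℝ))) = (phi t μ m θ ^ 2)⁻¹ := by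
  have h1 : 0 < 1 + strace t μ m θ := by linarith [strace_nonneg (μ := μ) t m θ]
  have : (m : ℝ) ≠ 0 := by exact_mod_cast (show m ≠ 0 by omega)
  rw [phi, ← rpow_natCast (_ ^ _) 2, ← rpow_mul h1.le, ← rpow_neg h1.le]
  congr 1
  push_cast; field_simp; ring

lemma aent_le_phi (hS : Supp μ R) (t : ℝ) {m : ℕ} (hm : 1 ≤ m) (θ v : Euc n) :
    aent t μ θ v v ≤ (phi t μ m θ ^ 2)⁻¹ * ‖v‖ ^ 2 := by
  obtain ⟨f, l, he⟩ := (symOp_Aop (t := t) hS θ).exists_eigen
  rw [← inner_Aop hS, quad_eigen he, norm_sq_eq_sum f v, Finset.mul_sum, ← phi_inv_sq t hm]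
  exact Finset.sum_le_sum fun k _ => mul_le_mul_of_nonneg_right
    (eigen_le_root hm he (eig_Aop_nonneg hS θ he) k) (sq_nonneg _)

/-- Self-concordance: `phi` is Lipschitz with an absolute constant. -/
lemma norm_phigrad_le (hS : Supp μ R) (hμ : IsLC 0 μ) (ht : 0 ≤ t) (j : ℕ) (θ : Euc n) :
    ‖phigrad t μ (j + 1) θ‖ ≤ 75 := by
  obtain ⟨f, l, he⟩ := (symOp_Aop (t := t) hS θ).exists_eigen
  have hl := eig_Aop_nonneg hS θ he
  set m := j + 1 with hm
  set S := strace t μ m θ with hS'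
  have hS0 : 0 ≤ S := strace_nonneg _ _ _
  set q := (1 + S) ^ (1 / (4 * (m : ℝ))) with hq
  have hq0 : 0 < q := rpow_pos_of_pos (by linarith) _
  have hm0 : (0 : ℝ) < m := by rw [hm]; push_cast; positivity
  have hw : ∀ p, ‖wvec t μ θ (f p) (f p)‖ ≤ 150 * l p * q := fun p => by
    set w := wvec t μ θ (f p) (f p)
    have h := wvec_self_sq_le hS hμ ht θ (f p) w
    have hap : aent t μ θ (f p) (f p) = l p := by
      rw [← inner_Aop hS, he, inner_smul_right, real_inner_self_eq_norm_sq, f.orthonormal.1 p]; simp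
    have hwq : aent t μ θ w w ≤ q ^ 2 * ‖w‖ ^ 2 := by
      refine (aent_le_phi hS t (m := m) (by omega) θ w).trans (le_of_eq ?_)
      rw [← phi_inv_sq t (m := m) (by omega), hq, ← rpow_natCast (_ ^ _) 2, ← rpow_mul (by linarith)]
      congr 2; push_cast; field_simp; ring
    rw [real_inner_self_eq_norm_sq, hap] at h
    rcases (norm_nonneg w).eq_or_lt with h0 | h0
    · rw [← h0]; exact mul_nonneg (mul_nonneg (by norm_num) (hl p)) hq0.le
    have h2 := h.trans (mul_le_mul_of_nonneg_left hwq (by positivity))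
    refine (pow_le_pow_iff_left₀ h0.le (mul_nonneg (mul_nonneg (by norm_num) (hl p)) hq0.le) two_ne_zero).1 ?_
    refine le_of_mul_le_mul_right ?_ (by positivity : 0 < ‖w‖ ^ 2)
    linarith
  have hsg : ‖sgrad t μ m θ‖ ≤ 2 * m * 150 * q * S := by
    rw [hm, sgrad_eigen hS t j θ he]
    refine (norm_sum_le _ _).trans ?_
    have e : S = ∑ p, l p ^ (2 * m) := by rw [hS', strace, frob_pow he]
    rw [e, Finset.mul_sum]
    refine Finset.sum_le_sum fun p _ => ?_
    rw [norm_smul, norm_eq_abs, abs_of_nonneg (mul_nonneg (by positivity) (pow_nonneg (hl p) _))]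
    refine (mul_le_mul_of_nonneg_left (hw p) (mul_nonneg (by positivity) (pow_nonneg (hl p) _))).trans (le_of_eq ?_)
    rw [hm]; push_cast; ring
  rw [phigrad, norm_smul, norm_eq_abs, ← hS', abs_mul, abs_neg, abs_of_pos (by positivity), abs_of_pos (rpow_pos_of_pos (by linarith) _)]
  refine (mul_le_mul_of_nonneg_left hsg (by positivity)).trans ?_
  have e2 : (1 + S) ^ (-(1 / (4 * (m : ℝ))) - 1) * q = (1 + S)⁻¹ := by
    rw [hq, ← rpow_add (by linarith), ← rpow_neg_one]; congr 1; ring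
  have e3 : 1 / (4 * (m : ℝ)) * (1 + S) ^ (-(1 / (4 * (m : ℝ))) - 1) * (2 * m * 150 * q * S)
      = 75 * ((1 + S) ^ (-(1 / (4 * (m : ℝ))) - 1) * q * S) := by field_simp; ring
  rw [e3, e2]
  refine mul_le_of_le_one_right (by norm_num) ?_
  rw [inv_mul_le_iff₀ (by linarith)]
  linarith

lemma phi_lip (hS : Supp μ R) (hμ : IsLC 0 μ) (ht : 0 ≤ t) (j : ℕ) (θ θ' : Euc n) :
    phi t μ (j + 1) θ - 75 * ‖θ' - θ‖ ≤ phi t μ (j + 1) θ' := by
  have h := convex_univ.norm_image_sub_le_of_norm_hasFDerivWithin_le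
    (f := phi t μ (j + 1)) (f' := fun z => innerSL ℝ (phigrad t μ (j + 1) z))
    (fun z _ => ((d1_phi hS t (j + 1)).deriv z).hasFDerivWithinAt)
    (fun z _ => by rw [innerSL_apply_norm]; exact norm_phigrad_le hS hμ ht j z) (mem_univ θ) (mem_univ θ')
  rw [norm_eq_abs] at h
  linarith [neg_abs_le (phi t μ (j + 1) θ' - phi t μ (j + 1) θ)]

end

end Vale.Agent.P245
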