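import Vale.Agent.P245.Kernel

open MeasureTheory Real Filter Set
open scoped Topology ENNReal RealInnerProductSpace

namespace Vale.Agent.P245

variable {n : ℕ}

/-- Herbst argument for a self-bounding function of a Gaussian vector. -/
lemma herbst (Φ : Euc n → ℝ) (Φ' : Euc n → Euc n) {A G M α β : ℝ} (hc : Continuous Φ)
    (hc' : Continuous Φ') (hG : ∀ x, ‖Φ' x‖ ≤ G) (hA : ∀ x, |Φ x| ≤ A + G * ‖x‖) (hM : 0 ≤ M)
    (hT : ∀ z h, Φ (z + h) ≤ Φ z + ⟪Φ' z, h⟫ + M * ‖h‖ ^ 2)
    (hfis : ∀ l ∈ Ioc (0 : ℝ) 1, ∫ x, exp (l * Φ x) * ‖Φ' x‖ ^ 2 ∂(gam n) ≤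
      α * (∫ x, exp (l * Φ x) ∂(gam n)) + β * (∫ x, Φ x * exp (l * Φ x) ∂(gam n))
        + ent (gam n) (fun x => exp (l * Φ x)))
    {l₁ : ℝ} (hl₁ : l₁ ∈ Ioc (0 : ℝ) 1) :
    log (∫ x, exp (l₁ * Φ x) ∂(gam n)) / l₁ - β * log (∫ x, exp (l₁ * Φ x) ∂(gam n))
      ≤ (∫ x, Φ x ∂(gam n)) + α * l₁ := by
  have hexp : ∀ l : ℝ, ∀ x, exp (l * Φ x) ≤ exp (|l| * A) * exp (|l| * G * ‖x‖) := fun l x => by
    rw [← exp_add, exp_le_exp]
    refine (le_abs_self _).trans ((abs_mul _ _).le.trans ?_)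
    rw [mul_assoc, ← mul_add]
    exact mul_le_mul_of_nonneg_left (hA x) (abs_nonneg _)
  have hi : ∀ l : ℝ, Integrable (fun x => exp (l * Φ x)) (gam n) := fun l =>
    expInt_gam.of_growth (by fun_prop) fun x => by
      rw [norm_eq_abs, abs_exp]; exact hexp l x
  have hiP : ∀ l : ℝ, Integrable (fun x => Φ x * exp (l * Φ x)) (gam n) := fun l =>
    expInt_gam.of_growth (by fun_prop) (A := exp (A + |l| * A)) (c := G + |l| * G) fun x => by
      rw [norm_eq_abs, abs_mul, abs_exp]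
      have h1 : |Φ x| ≤ exp (A + G * ‖x‖) :=
        (hA x).trans ((le_add_of_nonneg_right zero_le_one).trans (add_one_le_exp _))
      refine (mul_le_mul h1 (hexp l x) (exp_pos _).le (exp_pos _).le).trans (le_of_eq ?_)
      rw [← exp_add, ← exp_add, ← exp_add]; ring_nf
  set Z := fun l : ℝ => ∫ x, exp (l * Φ x) ∂(gam n) with hZdef
  set N := fun l : ℝ => ∫ x, Φ x * exp (l * Φ x) ∂(gam n) with hNdef
  have hZ : ∀ l, 0 < Z l := fun l => integral_exp_pos (hi l)
  have hdZ : ∀ l : ℝ, HasDerivAt Z (N l) l := by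
    intro l
    have hb : Integrable (fun x => exp (A + (|l| + 1) * A) * exp ((G + (|l| + 1) * G) * ‖x‖)) (gam n) :=
      (expInt_gam _).const_mul _
    refine (hasDerivAt_integral_of_dominated_loc_of_deriv_le (F := fun l x => exp (l * Φ x))
      (F' := fun l x => Φ x * exp (l * Φ x)) (s := Metric.ball l 1) (Metric.ball_mem_nhds l one_pos)
      (Eventually.of_forall fun l' => by fun_prop) (hi l) (by fun_prop) ?_ hb ?_).2
    · refine Eventually.of_forall fun x l' hl' => ?_
      rw [norm_eq_abs, abs_mul, abs_exp]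
      have h1 : |Φ x| ≤ exp (A + G * ‖x‖) :=
        (hA x).trans ((le_add_of_nonneg_right zero_le_one).trans (add_one_le_exp _))
      have h2 : |l'| ≤ |l| + 1 := by
        have h3 : |l' - l| < 1 := hl'
        linarith [abs_sub_abs_le_abs_sub l' l]
      have h0 : 0 ≤ A + G * ‖x‖ := (abs_nonneg _).trans (hA x)
      have h4 : exp (l' * Φ x) ≤ exp ((|l| + 1) * (A + G * ‖x‖)) := by
        rw [exp_le_exp]
        refine (le_abs_self _).trans ((abs_mul _ _).le.trans ?_)
        exact mul_le_mul h2 (hA x) (abs_nonneg _) (by positivity)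
      refine (mul_le_mul h1 h4 (exp_pos _).le (exp_pos _).le).trans (le_of_eq ?_)
      rw [← exp_add, ← exp_add]; ring_nf
    · refine Eventually.of_forall fun x l' _ => ?_
      simpa [mul_comm] using ((hasDerivAt_id l').mul_const (Φ x)).exp
  set ψ := fun l : ℝ => log (Z l) with hψ
  have hdψ : ∀ l, HasDerivAt ψ (N l / Z l) l := fun l => (hdZ l).log (hZ l).ne'
  set h := fun l : ℝ => ψ l / l - β * ψ l - α * l with hh
  have hkey : ∀ l ∈ Ioc (0 : ℝ) 1, l * (N l / Z l) - ψ l ≤ l ^ 2 * (α + β * (N l / Z l)) := by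
    intro l hl
    have hl0 := hl.1
    have hG0 : 0 ≤ G := (norm_nonneg _).trans (hG 0)
    have h1 := ent_exp_le_slc one_pos isLC_gam expInt_gam (fun x => l * Φ x) (fun x => l • Φ' x)
      (A := A) (G := G) (M := M) (by fun_prop) (by fun_prop)
      (fun x => by
        rw [norm_smul, norm_eq_abs, abs_of_pos hl0]
        exact (mul_le_of_le_one_left (norm_nonneg _) hl.2).trans (hG x))
      (fun x => by
        rw [abs_mul, abs_of_pos hl0]
        exact (mul_le_of_le_one_left (abs_nonneg _) hl.2).trans (hA x))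
      hM
      (fun z d => by
        rw [real_inner_smul_left]
        have h2 := mul_le_mul_of_nonneg_left (hT z d) hl0.le
        have h3 : l * (M * ‖d‖ ^ 2) ≤ M * ‖d‖ ^ 2 := mul_le_of_le_one_left (by positivity) hl.2
        linarith)
    have e : ∫ x, exp (l * Φ x) * ‖l • Φ' x‖ ^ 2 ∂(gam n) = l ^ 2 * ∫ x, exp (l * Φ x) * ‖Φ' x‖ ^ 2 ∂(gam n) := by
      rw [← integral_const_mul]
      refine integral_congr_ae (Eventually.of_forall fun x => ?_)
      simp [norm_smul, mul_pow]; ring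
    rw [e] at h1
    have h2 := hfis l hl
    set E := ent (gam n) (fun x => exp (l * Φ x)) with hE
    have hE0 : 0 ≤ E := ent_nonneg (fun x => (exp_pos _).le) (hi l)
      (((hiP l).const_mul l).congr (Eventually.of_forall fun x => by simp; ring))
    have h3 : E ≤ l ^ 2 * (α * Z l + β * N l) := by
      have := mul_le_mul_of_nonneg_left h2 (sq_nonneg l)
      have hl2 : l ^ 2 * E ≤ E := mul_le_of_le_one_left hE0 (pow_le_one₀ hl0.le hl.2)
      simp only [hZdef, hNdef]
      linarith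
    have e2 : E = l * N l - Z l * ψ l := by
      simp only [hE, ent, log_exp, hψ, hZdef, hNdef]
      rw [← integral_const_mul]
      congr 1
      exact integral_congr_ae (Eventually.of_forall fun x => by ring)
    rw [e2] at h3
    have hz := hZ l
    have : Z l * (l * (N l / Z l) - ψ l) ≤ Z l * (l ^ 2 * (α + β * (N l / Z l))) := by
      field_simp
      linarith
    exact le_of_mul_le_mul_left this hz
  have hdh : ∀ l ∈ Ioc (0 : ℝ) 1, HasDerivAt h ((l * (N l / Z l) - ψ l) / l ^ 2 - β * (N l / Z l) - α) l := by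
    intro l hl
    have h1 := ((hdψ l).div (hasDerivAt_id l) hl.1.ne').sub ((hdψ l).const_mul β) |>.sub ((hasDerivAt_id l).const_mul α)
    convert! h1 using 1
    simp; ring
  have hanti : AntitoneOn h (Ioc (0 : ℝ) 1) := by
    refine antitoneOn_of_hasDerivWithinAt_nonpos (f' := fun l => (l * (N l / Z l) - ψ l) / l ^ 2 - β * (N l / Z l) - α)
      (convex_Ioc _ _) (fun l hl => (hdh l hl).continuousAt.continuousWithinAt)
      (fun l hl => (hdh l (interior_subset hl)).hasDerivWithinAt) fun l hl => ?_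
    have hl' := interior_subset hl
    have : (l * (N l / Z l) - ψ l) / l ^ 2 ≤ α + β * (N l / Z l) := by
      rw [div_le_iff₀ (pow_pos hl'.1 2)]; linarith [hkey l hl']
    linarith
  have hZ0 : Z 0 = 1 := by simp [hZdef]
  have hψ0 : ψ 0 = 0 := by simp [hψ, hZ0]
  have hN0 : N 0 = ∫ x, Φ x ∂(gam n) := by simp [hNdef]
  have hlim : Tendsto h (𝓝[>] 0) (𝓝 (∫ x, Φ x ∂(gam n))) := by
    have h1 : Tendsto (fun l => ψ l / l) (𝓝[>] 0) (𝓝 (∫ x, Φ x ∂(gam n))) := by
      have := (hdψ 0).tendsto_slope_zero_right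
      simpa [hψ0, hN0, hZ0, div_eq_inv_mul] using this
    have h2 : Tendsto ψ (𝓝[>] 0) (𝓝 0) := by
      have h3 : Tendsto ψ (𝓝 0) (𝓝 (ψ 0)) := (hdψ 0).continuousAt
      rw [hψ0] at h3
      exact h3.mono_left nhdsWithin_le_nhds
    have h3 : Tendsto (fun l : ℝ => l) (𝓝[>] 0) (𝓝 0) := tendsto_nhdsWithin_of_tendsto_nhds tendsto_id
    simpa [hh] using (h1.sub (h2.const_mul β)).sub (h3.const_mul α)
  have hle : h l₁ ≤ ∫ x, Φ x ∂(gam n) := by
    refine ge_of_tendsto hlim ?_
    filter_upwards [Ioo_mem_nhdsGT hl₁.1] with l hl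
    exact hanti ⟨hl.1, hl.2.le.trans hl₁.2⟩ hl₁ hl.2.le
  simp only [hh, hψ, hZdef] at hle
  linarith

section

variable {μ : Measure (Euc n)} [IsProbabilityMeasure μ] {R s : ℝ}

lemma abs_lam_sub_le (hS : Supp μ R) {T : ℝ} (θ δ : Euc n) :
    |lam T μ (θ + δ) - lam T μ θ| ≤ R * ‖δ‖ := by
  have h1 := lam_lower (T := T) hS θ δ
  have h2 := lam_lower (T := T) hS (θ + δ) (-δ)
  rw [add_neg_cancel_right, inner_neg_right] at h2
  have b1 : |⟪bary T μ θ, δ⟫| ≤ R * ‖δ‖ :=
    (abs_real_inner_le_norm _ _).trans (mul_le_mul_of_nonneg_right (norm_bary_le hS θ) (norm_nonneg _))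
  have b2 : |⟪bary T μ (θ + δ), δ⟫| ≤ R * ‖δ‖ :=
    (abs_real_inner_le_norm _ _).trans (mul_le_mul_of_nonneg_right (norm_bary_le hS _) (norm_nonneg _))
  rw [abs_le] at b1 b2 ⊢
  constructor <;> linarith

lemma continuous_lam (hS : Supp μ R) {T : ℝ} : Continuous (lam T μ) :=
  (continuous_zf hS).log fun θ => (zf_pos hS θ).ne'

lemma norm_bary_sq_le (hS : Supp μ R) (hsub : Sub3 μ) {T : ℝ} (hT : 0 ≤ T) (θ : Euc n) :
    ‖bary T μ θ‖ ^ 2 ≤ 3 * ‖θ‖ ^ 2 + 2 * T * n + 6 := by
  set b := bary T μ θ with hb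
  have := isProb_fib (T := T) hS θ
  have hsf := supp_fib (T := T) hS θ
  have h1 := integral_le_log_integral_exp (μ := fib T μ θ)
    (φ := fun x => ⟪(2 : ℝ) • b, x⟫ - (⟪θ, x⟫ - T / 2 * ‖x‖ ^ 2)) (hsf.integrable (by fun_prop)) (hsf.integrable (by fun_prop))
  have e1 : ∫ x, exp (⟪(2 : ℝ) • b, x⟫ - (⟪θ, x⟫ - T / 2 * ‖x‖ ^ 2)) ∂(fib T μ θ)
      = (∫ x, exp ⟪(2 : ℝ) • b, x⟫ ∂μ) / zf T μ θ := by
    rw [integral_fib, smul_eq_mul, ← div_eq_inv_mul]
    congr 1
    refine integral_congr_ae (Eventually.of_forall fun x => ?_)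
    simp only [wt, smul_eq_mul, ← exp_add]
    ring_nf
  have hpos : 0 < ∫ x, exp ⟪(2 : ℝ) • b, x⟫ ∂μ := integral_exp_pos (hS.integrable (by fun_prop))
  rw [e1, log_div hpos.ne' (zf_pos hS θ).ne'] at h1
  rw [integral_sub (hsf.integrable (by fun_prop)) (hsf.integrable (by fun_prop)),
    integral_sub (hsf.integrable (by fun_prop)) (hsf.integrable (by fun_prop)), inner_bary hS, inner_bary hS,
    integral_const_mul, real_inner_smul_left, real_inner_self_eq_norm_sq] at h1
  have h2 := log_integral_exp_inner_sub hS hsub ((2 : ℝ) • b)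
  rw [norm_smul, norm_eq_abs, abs_two, mul_pow] at h2
  have h3 := integral_le_log_integral_exp (μ := μ) (φ := fun x => ⟪θ, x⟫ - T / 2 * ‖x‖ ^ 2)
    (hS.integrable (by fun_prop)) (hS.integrable (by fun_prop))
  rw [integral_sub (hS.integrable (by fun_prop)) (hS.integrable (by fun_prop)), integral_const_mul] at h3
  change _ ≤ lam T μ θ at h3
  have h4 := mul_le_mul_of_nonneg_left (integral_norm_sq_le hS hsub) (by linarith : 0 ≤ T / 2)
  have h5 := (abs_le.1 (abs_integral_inner_le hS hsub θ)).1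
  have h6 : 0 ≤ T / 2 * ∫ x, ‖x‖ ^ 2 ∂(fib T μ θ) :=
    mul_nonneg (by linarith) (integral_nonneg fun x => by positivity)
  have h7 := real_inner_le_norm θ b
  change _ ≤ _ - lam T μ θ at h1
  nlinarith [sq_nonneg (‖θ‖ - ‖b‖), sq_nonneg (‖θ‖ - 3 / 4)]

/-- Quenched log-partition function. -/
noncomputable def qlam (s : ℝ) (μ : Measure (Euc n)) (θ : Euc n) : ℝ :=
  ∫ G, lam (s ^ 2) μ (θ + s • G) ∂(gam n)

lemma integral_zf_shift (hS : Supp μ R) (θ : Euc n) :
    ∫ G, zf (s ^ 2) μ (θ + s • G) ∂(gam n) = ∫ x, exp ⟪θ, x⟫ ∂μ := by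
  have e : ∀ x G : Euc n, wt (s ^ 2) (θ + s • G) x = exp ⟪θ, x⟫ * exp (⟪s • x, G⟫ - ‖s • x‖ ^ 2 / 2) := fun x G => by
    simp only [wt, inner_add_left, real_inner_smul_left, norm_smul, norm_eq_abs, mul_pow, sq_abs, ← exp_add,
      real_inner_comm G x]
    ring_nf
  have hi : Integrable (Function.uncurry fun x G => wt (s ^ 2) (θ + s • G) x) (μ.prod (gam n)) := by
    refine integrable_prod_gam hS ?_ (A := exp (‖θ‖ * R)) (c := |s| * R) fun x G hx => ?_
    · exact (continuous_wt (s ^ 2)).comp ((continuous_const.add (continuous_snd.const_smul s)).prodMk continuous_fst)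
    rw [wt, abs_exp, ← exp_add, exp_le_exp, inner_add_left, real_inner_smul_left]
    have h1 := (real_inner_le_norm θ x).trans (mul_le_mul_of_nonneg_left hx (norm_nonneg _))
    have h2 : s * ⟪G, x⟫ ≤ |s| * R * ‖G‖ := by
      refine (le_abs_self _).trans ((abs_mul _ _).le.trans ?_)
      rw [mul_assoc]
      refine mul_le_mul_of_nonneg_left ((abs_real_inner_le_norm G x).trans ?_) (abs_nonneg _)
      rw [mul_comm R]; exact mul_le_mul_of_nonneg_left hx (norm_nonneg _)
    nlinarith [mul_nonneg (sq_nonneg s) (sq_nonneg ‖x‖)]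
  simp only [zf]
  rw [← integral_integral_swap hi]
  refine integral_congr_ae (Eventually.of_forall fun x => ?_)
  simp only [e, integral_const_mul]
  have h := integral_gam_shift (fun _ => (1 : ℝ)) (s • x)
  simp only [smul_eq_mul, mul_one, integral_const, probReal_univ] at h
  rw [← h, mul_one]

lemma integrable_lam_shift (hS : Supp μ R) (θ : Euc n) :
    Integrable (fun G => lam (s ^ 2) μ (θ + s • G)) (gam n) := by
  refine expInt_gam.of_growth ((continuous_lam hS).comp (by fun_prop))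
    (A := exp |lam (s ^ 2) μ θ|) (c := R * |s|) fun G => ?_
  have h := abs_lam_sub_le (T := s ^ 2) hS θ (s • G)
  rw [norm_smul, norm_eq_abs, ← mul_assoc] at h
  rw [norm_eq_abs, ← exp_add]
  refine (le_trans ?_ ((le_add_of_nonneg_right zero_le_one).trans (add_one_le_exp _)))
  linarith [abs_sub_abs_le_abs_sub (lam (s ^ 2) μ (θ + s • G)) (lam (s ^ 2) μ θ)]

lemma qlam_le (hS : Supp μ R) (hsub : Sub3 μ) (θ : Euc n) : qlam s μ θ ≤ 2 + ‖θ‖ ^ 2 / 4 := by
  have hzc : Continuous fun G : Euc n => zf (s ^ 2) μ (θ + s • G) := (continuous_zf hS).comp (by fun_prop)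
  have hiz : Integrable (fun G => exp (lam (s ^ 2) μ (θ + s • G))) (gam n) := by
    refine expInt_gam.of_growth (((continuous_lam hS).comp (by fun_prop)).rexp)
      (A := exp |lam (s ^ 2) μ θ|) (c := R * |s|) fun G => ?_
    have h := abs_lam_sub_le (T := s ^ 2) hS θ (s • G)
    rw [norm_smul, norm_eq_abs, ← mul_assoc] at h
    rw [norm_eq_abs, abs_exp, ← exp_add, exp_le_exp]
    linarith [le_abs_self (lam (s ^ 2) μ θ), (abs_le.1 h).2]
  refine (integral_le_log_integral_exp (integrable_lam_shift hS θ) hiz).trans ?_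
  have e : ∀ G : Euc n, exp (lam (s ^ 2) μ (θ + s • G)) = zf (s ^ 2) μ (θ + s • G) :=
    fun G => exp_log (zf_pos hS _)
  rw [integral_congr_ae (Eventually.of_forall e), integral_zf_shift hS]
  exact log_integral_exp_inner_sub hS hsub θ

lemma le_qlam (hS : Supp μ R) (hμ : IsLC 0 μ) (hsub : Sub3 μ) (hs : 0 < s) (hsmall : 24 * s ^ 4 ≤ 1) (θ : Euc n) :
    -(3 / 2 * ‖θ‖) - s ^ 2 * (6 * ‖θ‖ ^ 2 + 14 * s ^ 2 * n + 6) ≤ qlam s μ θ := by
  set α := s ^ 2 * (6 * ‖θ‖ ^ 2 + 14 * s ^ 2 * n + 6) with hα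
  set Φ := fun G => lam (s ^ 2) μ (θ + s • G) with hΦ
  have hcΦ : Continuous Φ := (continuous_lam hS).comp (by fun_prop)
  have hcb : Continuous fun G => bary (s ^ 2) μ (θ + s • G) := (continuous_bary hS).comp (by fun_prop)
  have h := herbst Φ (fun G => s • bary (s ^ 2) μ (θ + s • G)) (A := |lam (s ^ 2) μ θ|) (G := s * R) (M := 1 / 2)
    (α := α) (β := 0) hcΦ (hcb.const_smul s)
    (fun G => by
      rw [norm_smul, norm_eq_abs, abs_of_pos hs]
      exact mul_le_mul_of_nonneg_left (norm_bary_le hS _) hs.le)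
    (fun G => by
      have h := abs_lam_sub_le (T := s ^ 2) hS θ (s • G)
      rw [norm_smul, norm_eq_abs, abs_of_pos hs] at h
      simp only [hΦ]
      linarith [abs_sub_abs_le_abs_sub (lam (s ^ 2) μ (θ + s • G)) (lam (s ^ 2) μ θ)])
    (by norm_num)
    (fun z d => by
      have h := lam_upper hS hμ (T := s ^ 2) (by positivity) (θ + s • z) (s • d)
      have e : θ + s • (z + d) = θ + s • z + s • d := by module
      simp only [hΦ]
      rw [e]
      have e2 : ‖s • d‖ ^ 2 / (2 * s ^ 2) = 1 / 2 * ‖d‖ ^ 2 := by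
        rw [norm_smul, norm_eq_abs, mul_pow, sq_abs]; field_simp
      rw [e2, inner_smul_right] at h
      rw [real_inner_smul_left]
      linarith)
    (fun l hl => ?_) (l₁ := 1) ⟨zero_lt_one, le_rfl⟩
  · simp only [one_mul, div_one, zero_mul, sub_zero, mul_one] at h
    have e : ∀ G : Euc n, exp (Φ G) = zf (s ^ 2) μ (θ + s • G) := fun G => exp_log (zf_pos hS _)
    rw [integral_congr_ae (Eventually.of_forall e), integral_zf_shift hS] at h
    have h2 := integral_le_log_integral_exp (μ := μ) (φ := fun x => ⟪θ, x⟫) (hS.integrable (by fun_prop)) (hS.integrable (by fun_prop))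
    have h5 := (abs_le.1 (abs_integral_inner_le hS hsub θ)).1
    simp only [qlam]
    linarith
  · set e := fun G => exp (l * Φ G) with he
    have hec : Continuous e := by fun_prop
    have hsR : ∀ G, e G ≤ exp |lam (s ^ 2) μ θ| * exp (s * R * ‖G‖) := fun G => by
      simp only [he, ← exp_add, exp_le_exp]
      have h := abs_lam_sub_le (T := s ^ 2) hS θ (s • G)
      rw [norm_smul, norm_eq_abs, abs_of_pos hs] at h
      refine (le_abs_self _).trans ((abs_mul _ _).le.trans ?_)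
      rw [abs_of_pos hl.1]
      refine (mul_le_of_le_one_left (abs_nonneg _) hl.2).trans ?_
      simp only [hΦ]
      linarith [abs_sub_abs_le_abs_sub (lam (s ^ 2) μ (θ + s • G)) (lam (s ^ 2) μ θ)]
    have he0 : ∀ G, 0 ≤ e G := fun G => (exp_pos _).le
    have hie : Integrable e (gam n) := expInt_gam.of_growth hec fun G => by
      rw [norm_eq_abs, abs_of_nonneg (he0 G)]; exact hsR G
    have hiG : Integrable (fun G : Euc n => e G * ‖G‖ ^ 2) (gam n) :=
      expInt_gam.of_growth (by fun_prop) (A := exp |lam (s ^ 2) μ θ|) (c := s * R + 2) fun G => by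
        rw [norm_eq_abs, abs_of_nonneg (mul_nonneg (he0 G) (sq_nonneg _)), add_mul, exp_add, ← mul_assoc]
        refine mul_le_mul (hsR G) ?_ (sq_nonneg _) (by positivity)
        rw [two_mul, exp_add, sq]
        gcongr <;> linarith [add_one_le_exp ‖G‖]
    have hil : Integrable (fun G => e G * log (e G)) (gam n) := by
      refine expInt_gam.of_growth (Real.continuous_mul_log.comp hec)
        (A := exp (|lam (s ^ 2) μ θ| + |lam (s ^ 2) μ θ|)) (c := s * R + s * R) fun G => ?_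
      simp only [he, log_exp, norm_eq_abs, abs_mul, abs_exp]
      have h := abs_lam_sub_le (T := s ^ 2) hS θ (s • G)
      rw [norm_smul, norm_eq_abs, abs_of_pos hs] at h
      have h2 : |l| * |Φ G| ≤ exp (|lam (s ^ 2) μ θ| + s * R * ‖G‖) := by
        rw [abs_of_pos hl.1]
        refine (mul_le_of_le_one_left (abs_nonneg _) hl.2).trans (le_trans ?_ ((le_add_of_nonneg_right zero_le_one).trans (add_one_le_exp _)))
        simp only [hΦ]
        linarith [abs_sub_abs_le_abs_sub (lam (s ^ 2) μ (θ + s • G)) (lam (s ^ 2) μ θ)]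
      refine (mul_le_mul (hsR G) h2 (by positivity) (by positivity)).trans (le_of_eq ?_)
      rw [← exp_add, ← exp_add, ← exp_add]; ring_nf
    set E := ent (gam n) e with hE
    have hmom : ∫ G, e G * ‖G‖ ^ 2 ∂(gam n) ≤ 4 * E + 2 * n * ∫ G, e G ∂(gam n) := by
      have hi4 : Integrable (fun G : Euc n => exp (‖G‖ ^ 2 / 4)) (gam n) := by
        rw [gam, integrable_tilted_iff integrable_gauss]
        refine (integrable_exp_neg_sq (n := n) (b := 1 / 4) (by norm_num)).congr (Eventually.of_forall fun x => ?_)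
        simp only [smul_eq_mul, ← exp_add]; ring_nf
      have h4 := integral_mul_le_ent (μ := gam n) (φ := fun G => ‖G‖ ^ 2 / 4) he0 hie hil
        ((hiG.div_const 4).congr (Eventually.of_forall fun G => by ring)) hi4
      have h5 : log (∫ G, exp (‖G‖ ^ 2 / 4) ∂(gam n)) ≤ n / 2 :=
        (log_le_iff_le_exp (integral_exp_pos hi4)).2 integral_gam_exp_sq_le
      have h6 := mul_le_mul_of_nonneg_left h5 (integral_nonneg he0 : 0 ≤ ∫ G, e G ∂(gam n))
      have e4 : ∫ G, e G * (‖G‖ ^ 2 / 4) ∂(gam n) = (∫ G, e G * ‖G‖ ^ 2 ∂(gam n)) / 4 := by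
        rw [← integral_div]; exact integral_congr_ae (Eventually.of_forall fun G => by ring)
      rw [e4] at h4
      linarith
    have hpt : ∀ G, e G * ‖s • bary (s ^ 2) μ (θ + s • G)‖ ^ 2
        ≤ s ^ 2 * (6 * ‖θ‖ ^ 2 + 2 * s ^ 2 * n + 6) * e G + 6 * s ^ 4 * (e G * ‖G‖ ^ 2) := fun G => by
      have h1 := norm_bary_sq_le hS hsub (sq_nonneg s) (θ + s • G)
      have h2 : ‖θ + s • G‖ ^ 2 ≤ 2 * ‖θ‖ ^ 2 + 2 * s ^ 2 * ‖G‖ ^ 2 := by
        have := norm_add_le θ (s • G)
        rw [norm_smul, norm_eq_abs, abs_of_pos hs] at this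
        nlinarith [sq_nonneg (‖θ‖ - s * ‖G‖), norm_nonneg (θ + s • G)]
      rw [norm_smul, norm_eq_abs, mul_pow, sq_abs]
      have h3 : ‖bary (s ^ 2) μ (θ + s • G)‖ ^ 2 ≤ 6 * ‖θ‖ ^ 2 + 2 * s ^ 2 * n + 6 + 6 * s ^ 2 * ‖G‖ ^ 2 := by
        linarith
      have h4 := mul_le_mul_of_nonneg_left h3 (mul_nonneg (he0 G) (sq_nonneg s))
      nlinarith
    have hint := integral_mono_of_nonneg (μ := gam n) (Eventually.of_forall fun G => mul_nonneg (he0 G) (sq_nonneg _))
      ((hie.const_mul _).add (hiG.const_mul _)) (Eventually.of_forall hpt)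
    simp only [Pi.add_apply] at hint
    rw [integral_add (hie.const_mul _) (hiG.const_mul _), integral_const_mul, integral_const_mul] at hint
    have h7 := mul_le_mul_of_nonneg_left hmom (by positivity : 0 ≤ 6 * s ^ 4)
    have h8 : 24 * s ^ 4 * E ≤ E :=
      mul_le_of_le_one_left (ent_nonneg he0 hie hil) hsmall
    refine hint.trans ?_
    simp only [hα, zero_mul, add_zero]
    change _ ≤ _ * ∫ G, e G ∂(gam n) + E
    linarith

lemma exp_scale_le {r y : ℝ} (hr0 : 0 ≤ r) (hr1 : r ≤ 1) :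
    exp (r * y) - 1 - r * y ≤ r ^ 2 * (exp y + exp (-y) - 2) := by
  set f := fun u : ℝ => r ^ 2 * (exp u - 1 - u) - (exp (r * u) - 1 - r * u) with hf
  have hd : ∀ u, HasDerivAt f (r ^ 2 * (exp u - 1) - (exp (r * u) * r - r)) u := fun u => by
    have h1 := (((Real.hasDerivAt_exp u).sub_const 1).sub (hasDerivAt_id u)).const_mul (r ^ 2)
    have h2 := ((((hasDerivAt_id u).const_mul r).exp).sub_const 1).sub ((hasDerivAt_id u).const_mul r)
    convert! h1.sub h2 using 1
    simp
  have hm : MonotoneOn f (Ici 0) := by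
    refine monotoneOn_of_hasDerivWithinAt_nonneg (f' := fun u => r ^ 2 * (exp u - 1) - (exp (r * u) * r - r))
      (convex_Ici 0) (fun u _ => (hd u).continuousAt.continuousWithinAt) (fun u _ => (hd u).hasDerivWithinAt) fun u _ => ?_
    have h := convexOn_exp.2 (mem_univ u) (mem_univ 0) hr0 (sub_nonneg.2 hr1) (by ring)
    simp only [smul_eq_mul, mul_zero, add_zero, exp_zero, mul_one] at h
    nlinarith [mul_le_mul_of_nonneg_left h hr0]
  have h0 : f 0 = 0 := by simp [hf]
  have h1 := hm self_mem_Ici (abs_nonneg y) (abs_nonneg y)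
  rw [h0] at h1; simp only [hf] at h1
  have h2 : exp (r * y) - 1 - r * y ≤ exp (r * |y|) - 1 - r * |y| := by
    rcases le_total 0 y with h | h
    · rw [abs_of_nonneg h]
    · rw [abs_of_nonpos h]
      have hz : 0 ≤ r * (-y) := mul_nonneg hr0 (neg_nonneg.2 h)
      have := self_le_sinh_iff.2 hz
      rw [sinh_eq, mul_neg, neg_neg] at this
      rw [mul_neg]
      linarith
  have h3 : exp |y| - 1 - |y| ≤ exp y + exp (-y) - 2 := by
    rcases le_total 0 y with h | h
    · rw [abs_of_nonneg h]; linarith [add_one_le_exp (-y)]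
    · rw [abs_of_nonpos h]; linarith [add_one_le_exp y]
  nlinarith [mul_le_mul_of_nonneg_left h3 (sq_nonneg r)]

/-- Symmetrised second difference of the log-partition function. -/
noncomputable def sdiff (T : ℝ) (μ : Measure (Euc n)) (w θ : Euc n) : ℝ :=
  lam T μ (θ + w) + lam T μ (θ - w) - 2 * lam T μ θ

lemma first_le_sdiff (hS : Supp μ R) {T : ℝ} (w θ : Euc n) :
    lam T μ (θ + w) - lam T μ θ - ⟪bary T μ θ, w⟫ ≤ sdiff T μ w θ := by
  have h := lam_lower (T := T) hS θ (-w)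
  rw [inner_neg_right, ← sub_eq_add_neg θ w] at h
  unfold sdiff
  linarith

lemma sdiff_nonneg (hS : Supp μ R) {T : ℝ} (w θ : Euc n) : 0 ≤ sdiff T μ w θ := by
  linarith [first_le_sdiff (T := T) hS w θ, lam_lower (T := T) hS θ w]

lemma sdiff_scale_le (hS : Supp μ R) {T r : ℝ} (hr0 : 0 ≤ r) (hr1 : r ≤ 1) (w θ : Euc n) :
    sdiff T μ (r • w) θ ≤ r * sdiff T μ w θ := by
  have key : ∀ u : Euc n, lam T μ (θ + r • u) ≤ (1 - r) * lam T μ θ + r * lam T μ (θ + u) := fun u => by
    have h1 := lam_lower (T := T) hS (θ + r • u) (-(r • u))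
    have h2 := lam_lower (T := T) hS (θ + r • u) ((1 - r) • u)
    rw [add_neg_cancel_right, inner_neg_right, inner_smul_right] at h1
    rw [show θ + r • u + (1 - r) • u = θ + u by module, inner_smul_right] at h2
    nlinarith [mul_le_mul_of_nonneg_left h1 (sub_nonneg.2 hr1), mul_le_mul_of_nonneg_left h2 hr0]
  have h1 := key w
  have h2 := key (-w)
  rw [smul_neg, ← sub_eq_add_neg, ← sub_eq_add_neg] at h2
  unfold sdiff
  nlinarith

lemma sdiff_small_le (hS : Supp μ R) (hμ : IsLC 0 μ) {T r : ℝ} (hT : 0 < T) (hr0 : 0 ≤ r) (hr1 : r ≤ 1)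
    (w θ : Euc n) (hw : ‖w‖ ^ 2 ≤ T) : sdiff T μ (r • w) θ ≤ 4 * r ^ 2 * sdiff T μ w θ := by
  have hi := isProb_fib (T := T) hS θ
  have hsf := supp_fib (T := T) hS θ
  have key : ∀ u : Euc n, ‖u‖ ^ 2 ≤ T → lam T μ (θ + r • u) - lam T μ θ - r * ⟪bary T μ θ, u⟫
      ≤ 2 * r ^ 2 * sdiff T μ u θ := fun u hu => by
    set c := ⟪bary T μ θ, u⟫ with hc
    have hExp : ∀ d : Euc n, ∀ k : ℝ, ∫ x, exp (⟪d, x⟫ - k) ∂(fib T μ θ)
        = exp (lam T μ (θ + d) - lam T μ θ - k) := fun d k => by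
      simp only [exp_sub]; rw [integral_div, exp_lam_shift hS, exp_sub]
    have hint := integral_mono (μ := fib T μ θ)
      (f := fun x => exp (⟪r • u, x⟫ - r * c) - 1 - r * (⟪u, x⟫ - c))
      (g := fun x => r ^ 2 * (exp (⟪u, x⟫ - c) + exp (⟪-u, x⟫ - -c) - 2))
      (hsf.integrable (by fun_prop)) (hsf.integrable (by fun_prop)) fun x => by
        have := exp_scale_le (y := ⟪u, x⟫ - c) hr0 hr1
        simp only [real_inner_smul_left, inner_neg_left]
        rw [← mul_sub, show -⟪u, x⟫ - -c = -(⟪u, x⟫ - c) by ring]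
        exact this
    rw [integral_sub (f := fun x => exp (⟪r • u, x⟫ - r * c) - 1) (hsf.integrable (by fun_prop)) (hsf.integrable (by fun_prop)),
      integral_sub (hsf.integrable (by fun_prop)) (integrable_const _), integral_const_mul, integral_const_mul,
      integral_sub (hsf.integrable (by fun_prop)) (integrable_const _),
      integral_sub (f := fun x => exp (⟪u, x⟫ - c) + exp (⟪-u, x⟫ - -c)) (hsf.integrable (by fun_prop)) (integrable_const _),
      integral_add (hsf.integrable (by fun_prop)) (hsf.integrable (by fun_prop)), hExp, hExp, hExp, inner_bary hS,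
      integral_const, integral_const, integral_const, probReal_univ, one_smul, one_smul, one_smul,
      real_inner_comm (bary T μ θ) u, ← hc, sub_self, mul_zero, sub_zero] at hint
    set P := lam T μ (θ + u) - lam T μ θ - c with hP
    set Q := lam T μ (θ + -u) - lam T μ θ - -c with hQ
    have hP0 : 0 ≤ P := by have := lam_lower (T := T) hS θ u; rw [← hc] at this; linarith
    have hQ0 : 0 ≤ Q := by
      have := lam_lower (T := T) hS θ (-u)
      rw [inner_neg_right, ← hc] at this; linarith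
    have hhalf : ‖u‖ ^ 2 / (2 * T) ≤ 1 / 2 := by rw [div_le_iff₀ (by positivity)]; linarith
    have hP1 : P ≤ 1 / 2 := by have := lam_upper hS hμ hT θ u; rw [← hc] at this; linarith
    have hQ1 : Q ≤ 1 / 2 := by
      have := lam_upper hS hμ hT θ (-u)
      rw [inner_neg_right, norm_neg, ← hc] at this; linarith
    have hlin : ∀ z : ℝ, 0 ≤ z → z ≤ 1 / 2 → exp z ≤ 1 + 2 * z := fun z hz hz1 => by
      have h := (abs_le.1 (Real.abs_exp_sub_one_sub_id_le (x := z) (by rw [abs_of_nonneg hz]; linarith))).2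
      nlinarith
    have h1 := hlin P hP0 hP1
    have h2 := hlin Q hQ0 hQ1
    have h3 := add_one_le_exp (lam T μ (θ + r • u) - lam T μ θ - r * c)
    have e : sdiff T μ u θ = P + Q := by rw [sdiff, sub_eq_add_neg θ u]; ring
    rw [e]
    nlinarith [mul_le_mul_of_nonneg_left (add_le_add h1 h2) (sq_nonneg r)]
  have h1 := key w hw
  have h2 := key (-w) (by rwa [norm_neg])
  have e : sdiff T μ (-w) θ = sdiff T μ w θ := by simp only [sdiff, sub_neg_eq_add, ← sub_eq_add_neg]; ring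
  rw [e, smul_neg, ← sub_eq_add_neg, inner_neg_right] at h2
  unfold sdiff at *
  linarith

lemma norm_sdiff_grad_le (hS : Supp μ R) (hμ : IsLC 0 μ) (hs : 0 < s) (w θ : Euc n) :
    ‖s • ((bary (s ^ 2) μ (θ + w) - bary (s ^ 2) μ θ) + (bary (s ^ 2) μ (θ - w) - bary (s ^ 2) μ θ))‖ ^ 2
      ≤ 4 * sdiff (s ^ 2) μ w θ := by
  have h1 := bary_cocoercive hS hμ (T := s ^ 2) (by positivity) θ w
  have h2 := bary_cocoercive hS hμ (T := s ^ 2) (by positivity) θ (-w)
  rw [inner_neg_right, ← sub_eq_add_neg] at h2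
  set a := ‖bary (s ^ 2) μ (θ + w) - bary (s ^ 2) μ θ‖
  set b := ‖bary (s ^ 2) μ (θ - w) - bary (s ^ 2) μ θ‖
  have h3 := norm_add_le (bary (s ^ 2) μ (θ + w) - bary (s ^ 2) μ θ) (bary (s ^ 2) μ (θ - w) - bary (s ^ 2) μ θ)
  rw [norm_smul, norm_eq_abs, abs_of_pos hs, mul_pow]
  have h4 := pow_le_pow_left₀ (norm_nonneg _) h3 2
  have h5 : (a + b) ^ 2 ≤ 2 * a ^ 2 + 2 * b ^ 2 := by nlinarith [sq_nonneg (a - b)]
  unfold sdiff
  nlinarith [mul_le_mul_of_nonneg_left (h4.trans h5) (sq_nonneg s)]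

/-- Expected second difference along the kernel started at `x`. -/
noncomputable def esd (s : ℝ) (μ : Measure (Euc n)) (w x : Euc n) : ℝ :=
  ∫ G, sdiff (s ^ 2) μ w (pt s x G) ∂(gam n)

lemma abs_sdiff_le (hS : Supp μ R) {T : ℝ} (w θ : Euc n) : |sdiff T μ w θ| ≤ 2 * (R * ‖w‖) := by
  have h1 := abs_lam_sub_le (T := T) hS θ w
  have h2 := abs_lam_sub_le (T := T) hS θ (-w)
  rw [← sub_eq_add_neg, norm_neg] at h2
  unfold sdiff
  rw [abs_le] at h1 h2 ⊢
  constructor <;> linarith

lemma continuous_sdiff (hS : Supp μ R) {T : ℝ} (w : Euc n) : Continuous (sdiff T μ w) := by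
  have h := continuous_lam (T := T) hS
  unfold sdiff
  fun_prop

lemma integrable_sdiff (hS : Supp μ R) (w x : Euc n) :
    Integrable (fun G => sdiff (s ^ 2) μ w (pt s x G)) (gam n) :=
  Integrable.of_bound ((continuous_sdiff hS w).comp (continuous_pt s x)).aestronglyMeasurable _
    (Eventually.of_forall fun _ => abs_sdiff_le hS w _)

lemma esd_le_quad (hS : Supp μ R) (hμ : IsLC 0 μ) (hsub : Sub3 μ) (hs : 0 < s) (hsmall : 216 * s ^ 2 ≤ 1)
    (w x : Euc n) (hx : ‖x‖ ≤ R) :
    esd s μ w x ≤ 7 + 4 * s ^ 4 * R ^ 2 + 28 * s ^ 4 * n + 2 * ‖w‖ ^ 2 := by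
  set θ := s ^ 2 • x with hθ
  have e : esd s μ w x = qlam s μ (θ + w) + qlam s μ (θ - w) - 2 * qlam s μ θ := by
    simp only [esd, qlam, sdiff, pt, ← hθ]
    have i0 := integrable_lam_shift (s := s) hS θ
    have i1 := integrable_lam_shift (s := s) hS (θ + w)
    have i2 := integrable_lam_shift (s := s) hS (θ - w)
    rw [← integral_const_mul, ← integral_add i1 i2,
      ← integral_sub (f := fun G => lam (s ^ 2) μ (θ + w + s • G) + lam (s ^ 2) μ (θ - w + s • G)) (i1.add i2) (i0.const_mul 2)]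
    refine integral_congr_ae (Eventually.of_forall fun G => ?_)
    dsimp only
    rw [add_right_comm θ (s • G) w, sub_add_eq_add_sub θ w (s • G)]
  have h1 := qlam_le (s := s) hS hsub (θ + w)
  have h2 := qlam_le (s := s) hS hsub (θ - w)
  have h3 := le_qlam hS hμ hsub hs (by nlinarith) θ
  have h4 := parallelogram_law_with_norm ℝ θ w
  have hs1 : s ^ 2 ≤ 1 := by nlinarith
  have h5 : ‖θ‖ ^ 2 ≤ s ^ 4 * R ^ 2 := by
    rw [hθ, norm_smul, norm_eq_abs, abs_of_nonneg (sq_nonneg s), mul_pow, ← pow_mul]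
    exact mul_le_mul_of_nonneg_left (pow_le_pow_left₀ (norm_nonneg _) hx 2) (by positivity)
  have h6 : 12 * s ^ 2 * ‖θ‖ ^ 2 ≤ ‖θ‖ ^ 2 / 2 := by
    have := mul_le_mul_of_nonneg_right hsmall (sq_nonneg ‖θ‖)
    nlinarith
  rw [e]
  nlinarith [sq_nonneg (‖θ‖ - 3 / 2), sq_nonneg ‖w‖]

lemma esd_le (hS : Supp μ R) (hμ : IsLC 0 μ) (hsub : Sub3 μ) (hs : 0 < s) (hsmall : 216 * s ^ 2 ≤ 1)
    (hB : s * √(7 + 4 * s ^ 4 * R ^ 2 + 28 * s ^ 4 * n) ≤ 1 / 1000)
    (v x : Euc n) (hv : ‖v‖ = 1) (hx : ‖x‖ ≤ R) {t : ℝ} (ht : 0 ≤ t) :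
    esd s μ (t • v) x ≤ 1 / 72 * t ^ 2 / s ^ 2 := by
  set B := 7 + 4 * s ^ 4 * R ^ 2 + 28 * s ^ 4 * n with hBdef
  have hB7 : 7 ≤ B := by
    have : 0 ≤ 4 * s ^ 4 * R ^ 2 + 28 * s ^ 4 * n := by positivity
    linarith
  set S := √B with hSdef
  have hS2 : S ^ 2 = B := Real.sq_sqrt (by linarith)
  have hS1 : 1 ≤ S := Real.one_le_sqrt.2 (by linarith)
  have hnorm : ∀ t : ℝ, 0 ≤ t → ‖t • v‖ = t := fun t ht => by
    rw [norm_smul, hv, mul_one, norm_eq_abs, abs_of_nonneg ht]
  have hquad : ∀ t : ℝ, 0 ≤ t → esd s μ (t • v) x ≤ B + 2 * t ^ 2 := fun t ht => by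
    have := esd_le_quad hS hμ hsub hs hsmall (t • v) x hx
    rwa [hnorm t ht] at this
  have hT : 0 < s ^ 2 := by positivity
  have hs1 : s ≤ 1 := by nlinarith
  have hlin : ∀ t : ℝ, 0 ≤ t → t ≤ S → esd s μ (t • v) x ≤ 3 * t * S := fun t ht htS => by
    have h1 : esd s μ (t • v) x ≤ t / S * esd s μ (S • v) x := by
      rw [esd, esd, ← integral_const_mul]
      refine integral_mono (integrable_sdiff hS _ _) ((integrable_sdiff hS _ _).const_mul _) fun G => ?_
      have := sdiff_scale_le (T := s ^ 2) hS (r := t / S) (by positivity) ((div_le_one (by linarith)).2 htS)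
        (S • v) (pt s x G)
      rwa [smul_smul, div_mul_cancel₀ _ (by linarith : S ≠ 0)] at this
    refine h1.trans ?_
    have h2 := mul_le_mul_of_nonneg_left (hquad S (by linarith)) (by positivity : 0 ≤ t / S)
    refine h2.trans (le_of_eq ?_)
    rw [← hS2]
    field_simp
    ring
  rw [le_div_iff₀ hT]
  rcases le_or_gt t s with hts | hts
  · rcases eq_or_ne t 0 with rfl | ht0
    · simp [esd, sdiff, pt, two_mul]
    have h1 : esd s μ (t • v) x ≤ 4 * (t / s) ^ 2 * esd s μ (s • v) x := by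
      rw [esd, esd, ← integral_const_mul]
      refine integral_mono (integrable_sdiff hS _ _) ((integrable_sdiff hS _ _).const_mul _) fun G => ?_
      have := sdiff_small_le hS hμ (T := s ^ 2) hT (r := t / s) (by positivity) ((div_le_one hs).2 hts)
        (s • v) (pt s x G) (by rw [hnorm s hs.le])
      rwa [smul_smul, div_mul_cancel₀ _ hs.ne'] at this
    have h2 := mul_le_mul_of_nonneg_left (hlin s hs.le (hs1.trans hS1)) (by positivity : 0 ≤ 4 * (t / s) ^ 2)
    have h3 : 4 * (t / s) ^ 2 * (3 * s * S) * s ^ 2 = 12 * t ^ 2 * (s * S) := by field_simp; ring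
    have h4 := mul_le_mul_of_nonneg_right (h1.trans h2) hT.le
    have h5 := mul_le_mul_of_nonneg_left hB (by positivity : 0 ≤ 12 * t ^ 2)
    nlinarith [sq_nonneg t]
  rcases le_or_gt t S with htS | htS
  · have h1 := mul_le_mul_of_nonneg_right (hlin t ht htS) hT.le
    have h2 : s * S * s ≤ 1 / 1000 * t := mul_le_mul hB hts.le hs.le (by norm_num)
    nlinarith [mul_le_mul_of_nonneg_left h2 (by linarith : 0 ≤ 3 * t)]
  · have h1 := mul_le_mul_of_nonneg_right (hquad t ht) hT.le
    have h2 : B ≤ t ^ 2 := by rw [← hS2]; exact pow_le_pow_left₀ (by linarith) htS.le 2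
    nlinarith [mul_le_mul_of_nonneg_left hsmall (sq_nonneg t)]

lemma inner_cov_le_first (hS : Supp μ R) {T : ℝ} {g : Euc n → ℝ} (hg : Continuous g)
    (hg0 : ∀ x, 0 ≤ g x) (θ v : Euc n) :
    ⟪v, cov T μ g θ⟫ ≤ ent (fib T μ θ) g + av T μ g θ * (lam T μ (θ + v) - lam T μ θ - ⟪bary T μ θ, v⟫) := by
  have := isProb_fib (T := T) hS θ
  have hsf := supp_fib (T := T) hS θ
  have hlog : Continuous fun x => g x * log (g x) := Real.continuous_mul_log.comp hg
  have h := integral_mul_le_ent (μ := fib T μ θ) (φ := fun x => ⟪v, x⟫ - ⟪v, bary T μ θ⟫) hg0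
    (hsf.integrable hg) (hsf.integrable hlog) (hsf.integrable (by fun_prop)) (hsf.integrable (by fun_prop))
  have e1 : ∫ x, g x * (⟪v, x⟫ - ⟪v, bary T μ θ⟫) ∂(fib T μ θ) = ⟪v, cov T μ g θ⟫ := by
    have e : ∀ x, g x * (⟪v, x⟫ - ⟪v, bary T μ θ⟫) = ⟪v, g x • x⟫ - g x * ⟪v, bary T μ θ⟫ := fun x => by
      rw [inner_smul_right]; ring
    rw [integral_congr_ae (Eventually.of_forall e),
      integral_sub (hsf.integrable (by fun_prop)) (hsf.integrable (by fun_prop)), integral_mul_const,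
      integral_inner (f := fun x => g x • x) (hsf.integrable (by fun_prop)), cov, inner_sub_right, inner_smul_right]
    rfl
  simp only [exp_sub] at h
  rw [e1, integral_div, exp_lam_shift hS, ← exp_sub, log_exp, real_inner_comm (bary T μ θ) v] at h
  exact h

lemma qcov_le (hS : Supp μ R) (hR : 0 ≤ R) (hμ : IsLC 0 μ) (hs : 0 < s) {g : Euc n → ℝ} {g' : Euc n → Euc n}
    (h : Pos1 g g') (x v : Euc n) {t H : ℝ} (hesd : esd s μ (t • v) x ≤ H) :
    t * ⟪v, ∫ G, cov (s ^ 2) μ g (pt s x G) ∂(gam n)⟫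
      ≤ 9 / (2 * s ^ 2) * qop s μ (fis g g') x + 2 * qop s μ g x * H := by
  have hT : 0 < s ^ 2 := by positivity
  set m := qop s μ g x with hm
  have hm0 : 0 < m := qop_pos hS hR h.cont h.pos x
  set P := qop s μ (fis g g') x with hP
  set c := ∫ G, cov (s ^ 2) μ g (pt s x G) ∂(gam n) with hc
  set S := fun G => sdiff (s ^ 2) μ (t • v) (pt s x G) with hSdef
  have hcS : Continuous S := (continuous_sdiff hS _).comp (continuous_pt s x)
  set b := fun G => bary (s ^ 2) μ (pt s x G) with hb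
  set S' := fun G => s • ((bary (s ^ 2) μ (pt s x G + t • v) - b G) + (bary (s ^ 2) μ (pt s x G - t • v) - b G)) with hS'
  have hcb := continuous_bary (T := s ^ 2) hS
  have hcS' : Continuous S' := by
    simp only [hS', hb]
    exact (((hcb.comp (by fun_prop)).sub (hcb.comp (by fun_prop))).add
      ((hcb.comp (by fun_prop)).sub (hcb.comp (by fun_prop)))).const_smul s
  have hbd : ∀ G, |S G| ≤ 2 * (R * ‖t • v‖) := fun G => abs_sdiff_le hS _ _
  have hiS : Integrable S (gam n) := integrable_sdiff hS _ _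
  have hie : ∀ l : ℝ, Integrable (fun G => exp (l * S G)) (gam n) := fun l =>
    Integrable.of_bound (by fun_prop) (exp (|l| * (2 * (R * ‖t • v‖)))) (Eventually.of_forall fun G => by
      rw [norm_eq_abs, abs_exp, exp_le_exp]
      exact (le_abs_self _).trans ((abs_mul _ _).le.trans (mul_le_mul_of_nonneg_left (hbd G) (abs_nonneg _))))
  have hiSe : ∀ l : ℝ, Integrable (fun G => S G * exp (l * S G)) (gam n) := fun l =>
    (hie l).bdd_mul hcS.aestronglyMeasurable (Eventually.of_forall fun G => hbd G)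
  have hherb := herbst S S' (A := 2 * (R * ‖t • v‖)) (G := s * (4 * R)) (M := 1) (α := 0) (β := 4) hcS hcS'
    (fun G => by
      rw [hS', norm_smul, norm_eq_abs, abs_of_pos hs]
      refine mul_le_mul_of_nonneg_left ((norm_add_le _ _).trans ?_) hs.le
      simp only [hb]
      linarith [norm_sub_le (bary (s ^ 2) μ (pt s x G + t • v)) (bary (s ^ 2) μ (pt s x G)),
        norm_sub_le (bary (s ^ 2) μ (pt s x G - t • v)) (bary (s ^ 2) μ (pt s x G)),
        norm_bary_le (T := s ^ 2) hS (pt s x G), norm_bary_le (T := s ^ 2) hS (pt s x G + t • v),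
        norm_bary_le (T := s ^ 2) hS (pt s x G - t • v)])
    (fun G => (hbd G).trans (le_add_of_nonneg_right (by positivity)))
    zero_le_one
    (fun z d => by
      have h1 := lam_upper hS hμ (T := s ^ 2) hT (pt s x z + t • v) (s • d)
      have h2 := lam_upper hS hμ (T := s ^ 2) hT (pt s x z - t • v) (s • d)
      have h3 := lam_lower (T := s ^ 2) hS (pt s x z) (s • d)
      have e : pt s x (z + d) = pt s x z + s • d := by simp only [pt]; module
      have e2 : ‖s • d‖ ^ 2 / (2 * s ^ 2) = 1 / 2 * ‖d‖ ^ 2 := by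
        rw [norm_smul, norm_eq_abs, mul_pow, sq_abs]; field_simp
      rw [e2, inner_smul_right] at h1 h2
      rw [inner_smul_right] at h3
      simp only [hSdef, hS', hb, sdiff, e]
      rw [add_right_comm (pt s x z) (s • d) (t • v), ← sub_add_eq_add_sub (pt s x z) (t • v) (s • d),
        real_inner_smul_left, inner_add_left, inner_sub_left, inner_sub_left]
      linarith)
    (fun l hl => by
      have hpt : ∀ G, exp (l * S G) * ‖S' G‖ ^ 2 ≤ 4 * (S G * exp (l * S G)) := fun G => by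
        have := mul_le_mul_of_nonneg_left (norm_sdiff_grad_le hS hμ hs (t • v) (pt s x G)) (exp_pos (l * S G)).le
        simp only [hS', hb, hSdef] at this ⊢
        linarith
      have h1 := integral_mono_of_nonneg (Eventually.of_forall fun G => mul_nonneg (exp_pos _).le (sq_nonneg _))
        ((hiSe l).const_mul 4) (Eventually.of_forall hpt)
      rw [integral_const_mul] at h1
      have he := ent_nonneg (μ := gam n) (g := fun G => exp (l * S G)) (fun G => (exp_pos _).le) (hie l)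
        (((hiSe l).const_mul l).congr (Eventually.of_forall fun G => by simp; ring))
      linarith)
    (l₁ := 1 / 8) ⟨by norm_num, by norm_num⟩
  have hes : ∫ G, S G ∂(gam n) ≤ H := hesd
  have hav : Integrable (fun G => av (s ^ 2) μ g (pt s x G)) (gam n) := integrable_av hS hR h.cont x
  have hcav := (continuous_av (T := s ^ 2) hS h.cont).comp (continuous_pt s x)
  obtain ⟨B, -, hB⟩ := exists_bound hR h.cont
  have havl : Integrable (fun G => av (s ^ 2) μ g (pt s x G) * log (av (s ^ 2) μ g (pt s x G))) (gam n) := by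
    obtain ⟨C, hC⟩ := (isCompact_Icc (a := -B) (b := B)).exists_bound_of_continuousOn
      Real.continuous_mul_log.continuousOn
    exact Integrable.of_bound (Real.continuous_mul_log.comp hcav).aestronglyMeasurable C
      (Eventually.of_forall fun G => hC _ (abs_le.1 (abs_av_le hS hB _)))
  have havS : Integrable (fun G => av (s ^ 2) μ g (pt s x G) * S G) (gam n) :=
    hiS.bdd_mul hcav.aestronglyMeasurable (Eventually.of_forall fun G => abs_av_le hS hB _)
  have hav8 : Integrable (fun G => av (s ^ 2) μ g (pt s x G) * (1 / 8 * S G)) (gam n) :=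
    (havS.const_mul (1 / 8)).congr (Eventually.of_forall fun G => by ring)
  have hvar := integral_mul_le_ent (μ := gam n) (φ := fun G => 1 / 8 * S G)
    (fun G => (av_pos hS h.cont h.pos (pt s x G)).le) hav havl hav8 (hie _)
  have e8 : ∫ G, av (s ^ 2) μ g (pt s x G) * (1 / 8 * S G) ∂(gam n)
      = 1 / 8 * ∫ G, av (s ^ 2) μ g (pt s x G) * S G ∂(gam n) := by
    rw [← integral_const_mul]; exact integral_congr_ae (Eventually.of_forall fun G => by ring)
  have emid := ent_gam_av_le hS hR hμ hs h x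
  rw [e8] at hvar
  have hprod : (∫ G, av (s ^ 2) μ g (pt s x G) ∂(gam n)) = m := rfl
  rw [hprod] at hvar
  have hcovi := integrable_cov (s := s) hS hR h.cont x
  have hpt : ∀ G, ⟪t • v, cov (s ^ 2) μ g (pt s x G)⟫
      ≤ 1 / (2 * s ^ 2) * av (s ^ 2) μ (fis g g') (pt s x G) + av (s ^ 2) μ g (pt s x G) * S G := fun G =>
    (inner_cov_le_first hS h.cont (fun y => (h.pos y).le) (pt s x G) (t • v)).trans
      (add_le_add (ent_fib_le hS hR hμ hT h _)
        (mul_le_mul_of_nonneg_left (first_le_sdiff hS _ _) (av_pos hS h.cont h.pos _).le))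
  have hmono := integral_mono (hcovi.const_inner (t • v))
    (((integrable_av hS hR h.cont_fis x).const_mul _).add havS) hpt
  simp only [Pi.add_apply] at hmono
  rw [integral_inner hcovi, integral_add ((integrable_av hS hR h.cont_fis x).const_mul _) havS,
    integral_const_mul, ← hc, real_inner_smul_left] at hmono
  have e10 : (∫ G, av (s ^ 2) μ (fis g g') (pt s x G) ∂(gam n)) = P := rfl
  rw [e10] at hmono
  set ψ := log (∫ G, exp (1 / 8 * S G) ∂(gam n)) with hψ
  have hψ2 : 4 * ψ ≤ H := by linarith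
  have := mul_le_mul_of_nonneg_left hψ2 hm0.le
  have e11 : 9 / (2 * s ^ 2) * P = 9 * (1 / (2 * s ^ 2) * P) := by ring
  linarith

/-- Contraction of the Fisher information under the proximal kernel. -/
lemma fis_qop_le (hS : Supp μ R) (hR : 0 ≤ R) (hμ : IsLC 0 μ) (hs : 0 < s)
    (hesd : ∀ v x : Euc n, ‖v‖ = 1 → ‖x‖ ≤ R → ∀ t : ℝ, 0 ≤ t → esd s μ (t • v) x ≤ 1 / 72 * t ^ 2 / s ^ 2)
    {g : Euc n → ℝ} {g' : Euc n → Euc n} (h : Pos1 g g') (x : Euc n) (hx : ‖x‖ ≤ R) :
    fis (qop s μ g) (qgrad s μ g) x ≤ 1 / 2 * qop s μ (fis g g') x := by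
  have hT : 0 < s ^ 2 := by positivity
  set m := qop s μ g x with hm
  have hm0 : 0 < m := qop_pos hS hR h.cont h.pos x
  set P := qop s μ (fis g g') x with hP
  have hP0 : 0 ≤ P := integral_nonneg fun G => integral_nonneg (fis_nonneg h)
  set c := ∫ G, cov (s ^ 2) μ g (pt s x G) ∂(gam n) with hc
  rw [fis, qgrad, ← hc, norm_smul, norm_eq_abs, abs_of_nonneg hT.le, mul_pow, ← hm, div_le_iff₀ hm0]
  rcases eq_or_ne c 0 with hc0 | hc0
  · rw [hc0, norm_zero]; simp; positivity
  set X := ‖c‖ with hX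
  have hXpos : 0 < X := norm_pos_iff.2 hc0
  set v := X⁻¹ • c with hv
  have hv1 : ‖v‖ = 1 := norm_smul_inv_norm hc0
  have hlog : Continuous fun x => g x * log (g x) := Real.continuous_mul_log.comp h.cont
  have main : ∀ t : ℝ, 0 ≤ t → t * X ≤ 9 / (2 * s ^ 2) * P + 2 * m * (1 / 72 * t ^ 2 / s ^ 2) := fun t ht => by
    have h1 := qcov_le hS hR hμ hs h x v (hesd v x hv1 hx t ht)
    rw [← hc, show ⟪v, c⟫ = X by rw [hv, real_inner_smul_left, real_inner_self_eq_norm_sq, ← hX]; field_simp] at h1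
    exact h1
  have h2 := main (18 * X * s ^ 2 / m) (by positivity)
  have e : 2 * m * (1 / 72 * (18 * X * s ^ 2 / m) ^ 2 / s ^ 2) = 9 * X ^ 2 * s ^ 2 / m := by field_simp; ring
  rw [e] at h2
  field_simp at h2
  nlinarith

end

end Vale.Agent.P245
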