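import Vale.Agent.P245.Iterate

open MeasureTheory Real Filter Set
open scoped Topology ENNReal RealInnerProductSpace

namespace Vale.Agent.P245

variable {n : ℕ}

lemma D1.mul {f g : Euc n → ℝ} {f' g' : Euc n → Euc n} (hf : D1 f f') (hg : D1 g g') :
    D1 (fun x => f x * g x) (fun x => f x • g' x + g x • f' x) :=
  ⟨fun x => by
    have := (hf.deriv x).mul (hg.deriv x)
    convert! this using 1
    simp only [map_add, map_smul], (hf.cont.smul hg.cont').add (hg.cont.smul hf.cont')⟩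

lemma exists_trans_bound : ∃ c : ℝ, 0 ≤ c ∧ ∀ u, |deriv Real.smoothTransition u| ≤ c := by
  have hd : Continuous (deriv Real.smoothTransition) :=
    (Real.smoothTransition.contDiff (n := 1)).continuous_deriv le_rfl
  obtain ⟨c, hc⟩ := (isCompact_Icc (a := (0:ℝ)) (b := 1)).exists_bound_of_continuousOn hd.continuousOn
  have h0 : 0 ≤ c := (norm_nonneg _).trans (hc 0 ⟨le_rfl, zero_le_one⟩)
  refine ⟨c, h0, fun u => ?_⟩
  rcases lt_or_ge u 0 with hu | hu
  · have : Real.smoothTransition =ᶠ[𝓝 u] fun _ => (0 : ℝ) :=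
      Filter.eventually_of_mem (Iio_mem_nhds hu) fun y hy => Real.smoothTransition.zero_of_nonpos (le_of_lt hy)
    rw [this.deriv_eq]; simpa using h0
  rcases le_or_gt u 1 with hu1 | hu1
  · exact hc u ⟨hu, hu1⟩
  · have : Real.smoothTransition =ᶠ[𝓝 u] fun _ => (1 : ℝ) :=
      Filter.eventually_of_mem (Ioi_mem_nhds hu1) fun y hy => Real.smoothTransition.one_of_one_le (le_of_lt hy)
    rw [this.deriv_eq]; simpa using h0

lemma deriv_trans_eq_zero {u : ℝ} (hu : 1 < u) : deriv Real.smoothTransition u = 0 := by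
  have : Real.smoothTransition =ᶠ[𝓝 u] fun _ => (1 : ℝ) :=
    Filter.eventually_of_mem (Ioi_mem_nhds hu) fun y hy => Real.smoothTransition.one_of_one_le (le_of_lt hy)
  rw [this.deriv_eq]; simp

/-- A smooth quadratic partition of unity adapted to the ball of radius `R`. -/
lemma exists_cutoff : ∃ c : ℝ, 0 ≤ c ∧ ∀ (n : ℕ) (R : ℝ), 0 < R →
    ∃ (χ η : Euc n → ℝ) (χ' η' : Euc n → Euc n), D1 χ χ' ∧ D1 η η' ∧
      (∀ x, χ x ^ 2 + η x ^ 2 = 1) ∧ (∀ x, 0 ≤ χ x) ∧ (∀ x, 2 * R < ‖x‖ → χ x = 0) ∧ (∀ x, ‖x‖ ≤ R → χ x = 1 ∧ η x = 0) ∧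
      (∀ x, ‖χ' x‖ ^ 2 + ‖η' x‖ ^ 2 ≤ c / R ^ 2) ∧ (∀ x, χ x • χ' x + η x • η' x = 0) := by
  obtain ⟨c, hc0, hc⟩ := exists_trans_bound
  refine ⟨(π / 2 * c * (4 / 3)) ^ 2, sq_nonneg _, fun n R hR => ?_⟩
  set a := fun x : Euc n => (‖x‖ ^ 2 / R ^ 2 - 1) / 3 with ha
  set φ := fun x : Euc n => π / 2 * Real.smoothTransition (a x) with hφ
  set φ' := fun x : Euc n => (π / 2 * deriv Real.smoothTransition (a x) * (2 / (3 * R ^ 2))) • x with hφ'
  have hac : Continuous a := by fun_prop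
  have hdc : Continuous fun x : Euc n => deriv Real.smoothTransition (a x) :=
    ((Real.smoothTransition.contDiff (n := 1)).continuous_deriv le_rfl).comp hac
  have hφd : ∀ x, HasFDerivAt φ (innerSL ℝ (φ' x)) x := fun x => by
    have h1 : HasFDerivAt a ((1 / 3 : ℝ) • (1 / R ^ 2 : ℝ) • (2 • innerSL ℝ x)) x := by
      have h := ((((hasStrictFDerivAt_norm_sq x).hasFDerivAt).const_smul (1 / R ^ 2 : ℝ)).sub_const 1).const_smul (1 / 3 : ℝ)
      convert! h using 1
      funext y; simp [ha, smul_eq_mul]; ring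
    have h2 : HasDerivAt Real.smoothTransition (deriv Real.smoothTransition (a x)) (a x) :=
      ((Real.smoothTransition.contDiff (n := 1)).differentiable one_ne_zero (a x)).hasDerivAt
    have h3 := (h2.comp_hasFDerivAt x h1).const_mul (π / 2)
    convert! h3 using 1
    simp only [hφ', map_smul, smul_smul, ← Nat.cast_smul_eq_nsmul ℝ]
    congr 1
    push_cast
    ring
  refine ⟨fun x => cos (φ x), fun x => sin (φ x), fun x => (-sin (φ x)) • φ' x, fun x => cos (φ x) • φ' x,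
    ⟨fun x => by rw [map_smul]; exact (hφd x).cos, ?_⟩, ⟨fun x => by simpa using! (hφd x).sin, ?_⟩, fun x => ?_, fun x => ?_, fun x hx => ?_,
    fun x hx => ?_, fun x => ?_, fun x => ?_⟩
  · have hφc : Continuous φ := continuous_iff_continuousAt.2 fun x => (hφd x).continuousAt
    exact (continuous_sin.comp hφc).neg.smul (((continuous_const.mul hdc).mul continuous_const).smul continuous_id)
  · have hφc : Continuous φ := continuous_iff_continuousAt.2 fun x => (hφd x).continuousAt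
    exact (continuous_cos.comp hφc).smul (((continuous_const.mul hdc).mul continuous_const).smul continuous_id)
  · exact Real.cos_sq_add_sin_sq (φ x)
  · refine Real.cos_nonneg_of_mem_Icc ⟨?_, ?_⟩
    · have := mul_nonneg (by positivity : (0:ℝ) ≤ π / 2) (Real.smoothTransition.nonneg (a x))
      simp only [hφ]
      linarith [Real.pi_pos]
    · exact mul_le_of_le_one_right (by positivity) (Real.smoothTransition.le_one (a x))
  · have h1 : 1 ≤ a x := by
      simp only [ha]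
      rw [le_div_iff₀ (by norm_num), le_sub_iff_add_le, le_div_iff₀ (by positivity)]
      nlinarith
    simp [hφ, Real.smoothTransition.one_of_one_le h1]
  · have h1 : a x ≤ 0 := by
      simp only [ha]
      rw [div_le_iff₀ (by norm_num), zero_mul, sub_nonpos, div_le_one (by positivity)]
      exact pow_le_pow_left₀ (norm_nonneg _) hx 2
    simp [hφ, Real.smoothTransition.zero_of_nonpos h1]
  · have e : ‖(-sin (φ x)) • φ' x‖ ^ 2 + ‖cos (φ x) • φ' x‖ ^ 2 = ‖φ' x‖ ^ 2 := by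
      simp only [norm_smul, norm_eq_abs, mul_pow, sq_abs, neg_sq]
      rw [← add_mul, Real.sin_sq_add_cos_sq, one_mul]
    rw [e]
    have hb : ‖φ' x‖ ≤ π / 2 * c * (4 / 3) / R := by
      rw [hφ', norm_smul, norm_eq_abs, abs_mul, abs_mul, abs_of_pos (by positivity : 0 < π / 2),
        abs_of_pos (by positivity : 0 < 2 / (3 * R ^ 2))]
      rcases le_or_gt ‖x‖ (2 * R) with hx | hx
      · calc π / 2 * |deriv Real.smoothTransition (a x)| * (2 / (3 * R ^ 2)) * ‖x‖
            ≤ π / 2 * c * (2 / (3 * R ^ 2)) * (2 * R) := by gcongr; exact hc _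
          _ = _ := by field_simp; ring
      · have h1 : 1 < a x := by
          simp only [ha]
          rw [lt_div_iff₀ (by norm_num), lt_sub_iff_add_lt, lt_div_iff₀ (by positivity)]
          nlinarith
        rw [deriv_trans_eq_zero h1, abs_zero, mul_zero, zero_mul, zero_mul]
        positivity
    have := pow_le_pow_left₀ (norm_nonneg _) hb 2
    rwa [div_pow] at this
  · dsimp only; module

lemma supp_integral_vanish {μ : Measure (Euc n)} [IsFiniteMeasure μ] {r : ℝ} {F : Euc n → ℝ}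
    (h0 : ∀ x, r < ‖x‖ → F x = 0) (hne : μ (Metric.closedBall 0 r) ≠ 0) :
    ∫ x, F x ∂μ = μ.real (Metric.closedBall 0 r) * ∫ x, F x ∂(onBall μ r) := by
  rw [integral_onBall, smul_eq_mul, ← mul_assoc, mul_inv_cancel₀ (show μ.real (Metric.closedBall 0 r) ≠ 0 from (ENNReal.toReal_pos hne (measure_ne_top _ _)).ne'), one_mul]
  exact (setIntegral_eq_integral_of_forall_compl_eq_zero fun x hx => h0 x (by simpa using hx)).symm

lemma ent_eq_onBall {μ : Measure (Euc n)} [IsFiniteMeasure μ] {r : ℝ} {g : Euc n → ℝ}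
    (h0 : ∀ x, r < ‖x‖ → g x = 0) (hne : μ (Metric.closedBall 0 r) ≠ 0) :
    ent μ g = μ.real (Metric.closedBall 0 r) * ent (onBall μ r) g
      - (∫ x, g x ∂μ) * log (μ.real (Metric.closedBall 0 r)) := by
  set p := μ.real (Metric.closedBall 0 r) with hp
  have hp0 : 0 < p := ENNReal.toReal_pos hne (measure_ne_top _ _)
  rw [ent, ent, supp_integral_vanish (fun x hx => by simp [h0 x hx]) hne, supp_integral_vanish h0 hne, ← hp]
  rcases eq_or_ne (∫ x, g x ∂(onBall μ r)) 0 with h | h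
  · simp [h]
  rw [log_mul hp0.ne' h]
  ring

lemma integral_onBall_le {μ : Measure (Euc n)} [IsFiniteMeasure μ] {r : ℝ} {F : Euc n → ℝ}
    (hF0 : ∀ x, 0 ≤ F x) (hi : Integrable F μ) (hne : μ (Metric.closedBall 0 r) ≠ 0) :
    μ.real (Metric.closedBall 0 r) * ∫ x, F x ∂(onBall μ r) ≤ ∫ x, F x ∂μ := by
  rw [integral_onBall, smul_eq_mul, ← mul_assoc, mul_inv_cancel₀ (show μ.real (Metric.closedBall 0 r) ≠ 0 from (ENNReal.toReal_pos hne (measure_ne_top _ _)).ne'), one_mul]
  exact setIntegral_le_integral hi (Eventually.of_forall hF0)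

section

variable {μ : Measure (Euc n)} [IsProbabilityMeasure μ] {R₁ R : ℝ}

lemma measure_compl_ball_le (hS : Supp μ R₁) (hsub : Sub3 μ) (hn : 1 ≤ n) (r : ℝ) :
    exp (r ^ 2 / 2) * μ.real {x | r ^ 2 ≤ ‖x‖ ^ 2} ≤ exp (3 * n) := by
  have h := mul_meas_ge_le_integral_of_nonneg (μ := μ) (f := fun x : Euc n => exp (‖x‖ ^ 2 / 2))
    (Eventually.of_forall fun x => (exp_pos _).le) (hS.integrable (by fun_prop)) (exp (r ^ 2 / 2))
  have e : {x : Euc n | exp (r ^ 2 / 2) ≤ exp (‖x‖ ^ 2 / 2)} = {x | r ^ 2 ≤ ‖x‖ ^ 2} := by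
    ext x
    simp only [mem_ofPred_eq, exp_le_exp]
    constructor <;> intro hx <;> linarith
  rw [e] at h
  refine h.trans ((integral_exp_norm_sq_le hS hsub).trans ?_)
  have hn' : (1 : ℝ) ≤ n := by exact_mod_cast hn
  calc 3 * exp ((n : ℝ) / 2) ≤ exp 2 * exp ((n : ℝ) / 2) := by gcongr; exact exp_two_ge_three
    _ ≤ exp (3 * n) := by rw [← exp_add, exp_le_exp]; linarith

lemma compl_ball_small (hS : Supp μ R₁) (hsub : Sub3 μ) (hn : 1 ≤ n) (hRn : 16 * n ≤ R ^ 2) :
    μ.real {x | R ^ 2 ≤ ‖x‖ ^ 2} ≤ exp (-(5 * n)) := by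
  have h := measure_compl_ball_le hS hsub hn R
  rw [← le_div_iff₀' (exp_pos _), ← exp_sub] at h
  exact h.trans (exp_le_exp.2 (by linarith))

lemma outer_bound (hS : Supp μ R₁) (hR₁ : 0 ≤ R₁) (hμ : IsLC 0 μ) (hsub : Sub3 μ) (hn : 1 ≤ n)
    (hR : 0 ≤ R) (hRn : 16 * n ≤ R ^ 2) {h : Euc n → ℝ} {h' : Euc n → Euc n} (hd : D1 h h')
    (h0 : ∀ x, ‖x‖ ≤ R → h x = 0) :
    ent μ (fun x => h x ^ 2) ≤ 48 * ∫ x, ‖h' x‖ ^ 2 ∂μ ∧ ∫ x, h x ^ 2 ∂μ ≤ 12 * ∫ x, ‖h' x‖ ^ 2 ∂μ := by
  set D := ∫ x, ‖h' x‖ ^ 2 ∂μ with hD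
  set m := ∫ x, h x ^ 2 ∂μ with hm
  have hn' : (1 : ℝ) ≤ n := by exact_mod_cast hn
  have hD0 : 0 ≤ D := integral_nonneg fun x => sq_nonneg _
  have hm0 : 0 ≤ m := integral_nonneg fun x => sq_nonneg _
  have h1 : ent μ (fun x => h x ^ 2) ≤ 24 * D + 2 * n * m := by
    refine ent_le_of_perturb (h := fun x => h x ^ 2) hS (hd.cont.pow 2) (B := 2 * n) fun δ hδ => ?_
    have hp := pos1_sq_add hd hδ
    set g := fun x => h x ^ 2 + δ with hg
    have hgc : Continuous g := hp.cont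
    have hg0 : ∀ x, 0 ≤ g x := fun x => (hp.pos x).le
    have e1 := ent_le_zero_bound hS hR₁ hμ (lam' := 1 / 8) (by norm_num) hp
    have e2 : ∫ x, fis g (fun x => (2 * h x) • h' x) x ∂μ ≤ 4 * D := by
      rw [hD, ← integral_const_mul]
      exact integral_mono (hS.integrable hp.cont_fis) ((hS.integrable (hd.cont'.norm.pow 2)).const_mul _)
        fun x => fis_sq_le hδ x
    have e3 := integral_mul_le_ent (μ := μ) (g := g) (φ := fun x => ‖x‖ ^ 2 / 2) hg0 (hS.integrable hgc)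
      (hS.integrable (Real.continuous_mul_log.comp hgc)) (hS.integrable (by fun_prop)) (hS.integrable (by fun_prop))
    have e4 : log (∫ x, exp (‖x‖ ^ 2 / 2) ∂μ) ≤ 3 * n := by
      rw [log_le_iff_le_exp (integral_exp_pos (hS.integrable (by fun_prop)))]
      refine (integral_exp_norm_sq_le hS hsub).trans ?_
      calc 3 * exp ((n : ℝ) / 2) ≤ exp 2 * exp ((n : ℝ) / 2) := by gcongr; exact exp_two_ge_three
        _ ≤ exp (3 * n) := by rw [← exp_add, exp_le_exp]; linarith
    have e5 : ∫ x, g x * (‖x‖ ^ 2 / 2) ∂μ = (∫ x, g x * ‖x‖ ^ 2 ∂μ) / 2 := by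
      rw [← integral_div]; exact integral_congr_ae (Eventually.of_forall fun x => by ring)
    rw [e5] at e3
    have hgm : 0 ≤ ∫ x, g x ∂μ := integral_nonneg hg0
    have e6 := mul_le_mul_of_nonneg_left e4 hgm
    have e7 := mul_le_mul_of_nonneg_left (integral_norm_sq_le hS hsub) hgm
    have e8 : ∫ x, g x ∂μ = m + δ := by
      rw [hg, integral_add (hS.integrable (hd.cont.fun_pow 2)) (integrable_const δ), integral_const, probReal_univ, one_smul]
    have hentnn : 0 ≤ ent μ g := ent_nonneg hg0 (hS.integrable hgc) (hS.integrable (Real.continuous_mul_log.comp hgc))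
    rw [e8] at e1 e3 e6 e7
    nlinarith
  have hA : MeasurableSet {x : Euc n | R ^ 2 ≤ ‖x‖ ^ 2} := measurableSet_le measurable_const (by fun_prop)
  set A := {x : Euc n | R ^ 2 ≤ ‖x‖ ^ 2} with hAdef
  set φ := A.indicator fun _ => (5 * n : ℝ) with hφ
  have hexp : ∀ x, exp (φ x) = 1 + A.indicator (fun _ => exp (5 * (n : ℝ)) - 1) x := fun x => by
    by_cases hx : x ∈ A <;> simp [hφ, hx]
  have hie : Integrable (fun x => exp (φ x)) μ := by
    refine ((integrable_const (1 : ℝ)).add ((integrable_const (exp (5 * (n : ℝ)) - 1)).indicator hA)).congr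
      (Eventually.of_forall fun x => (hexp x).symm)
  have hexpb : ∫ x, exp (φ x) ∂μ ≤ 2 := by
    rw [integral_congr_ae (Eventually.of_forall hexp), integral_add (integrable_const _) ((integrable_const _).indicator hA),
      integral_indicator_const _ hA, integral_const, probReal_univ, one_smul, smul_eq_mul]
    have h5 := compl_ball_small hS hsub hn hRn
    have h6 : μ.real A * (exp (5 * (n : ℝ)) - 1) ≤ exp (-(5 * n)) * exp (5 * (n : ℝ)) :=
      mul_le_mul h5 (by linarith) (by linarith [one_le_exp (by positivity : (0:ℝ) ≤ 5 * n)]) (exp_pos _).le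
    rw [← exp_add, neg_add_cancel, exp_zero] at h6
    linarith
  have hcm : Continuous fun x => h x ^ 2 := hd.cont.pow 2
  have h2 := integral_mul_le_ent (μ := μ) (g := fun x => h x ^ 2) (φ := φ) (fun x => sq_nonneg _)
    (hS.integrable hcm) (hS.integrable (Real.continuous_mul_log.comp hcm)) ?_ hie
  · have e : ∫ x, h x ^ 2 * φ x ∂μ = 5 * n * m := by
      rw [hm, ← integral_const_mul]
      refine integral_congr_ae (Eventually.of_forall fun x => ?_)
      by_cases hx : x ∈ A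
      · simp [hφ, hx]; ring
      · have : ‖x‖ ≤ R := by
          have h3 : ‖x‖ ^ 2 < R ^ 2 := not_le.1 hx
          nlinarith [norm_nonneg x]
        simp [h0 x this]
    rw [e] at h2
    have hl : log (∫ x, exp (φ x) ∂μ) ≤ 1 :=
      (log_le_log (integral_exp_pos hie) hexpb).trans ((log_le_iff_le_exp (by norm_num)).2 (by linarith [add_one_le_exp (1:ℝ)]))
    have h3 := mul_le_mul_of_nonneg_left hl hm0
    have h4 : m ≤ n * m := le_mul_of_one_le_left hm0 hn'
    constructor <;> nlinarith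
  · exact ((hS.integrable hcm).const_mul (5 * n : ℝ)).mono' ((hcm.aestronglyMeasurable).mul
      ((measurable_const.indicator hA).aestronglyMeasurable)) (Eventually.of_forall fun x => by
        by_cases hx : x ∈ A <;> simp [hφ, hx, mul_comm]; positivity)

lemma ims_pointwise {a b v : ℝ} {a' b' v' : Euc n} (h1 : a ^ 2 + b ^ 2 = 1) (h2 : a • a' + b • b' = 0) :
    ‖a • v' + v • a'‖ ^ 2 + ‖b • v' + v • b'‖ ^ 2 = ‖v'‖ ^ 2 + v ^ 2 * (‖a'‖ ^ 2 + ‖b'‖ ^ 2) := by
  simp only [norm_add_sq_real, norm_smul, real_inner_smul_left, inner_smul_right, norm_eq_abs, mul_pow, sq_abs]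
  have h3 : a * ⟪v', a'⟫ + b * ⟪v', b'⟫ = 0 := by
    have h := congrArg (fun z => ⟪v', z⟫) h2
    simpa [inner_add_right, inner_smul_right] using h
  have h4 : a ^ 2 * ‖v'‖ ^ 2 + b ^ 2 * ‖v'‖ ^ 2 = ‖v'‖ ^ 2 := by rw [← add_mul, h1, one_mul]
  have h5 : 2 * (a * (v * ⟪v', a'⟫)) + 2 * (b * (v * ⟪v', b'⟫)) = 0 := by
    linear_combination (2 * v) * h3
  linarith

end

/-- Gluing the estimates on the ball and outside it. -/
lemma combine {μ : Measure (Euc n)} [IsProbabilityMeasure μ] {R₁ R c K K' : ℝ} (hS : Supp μ R₁)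
    (hR₁ : 0 ≤ R₁) (hμ : IsLC 0 μ) (hsub3 : Sub3 μ) (hn : 1 ≤ n) (hR0 : 0 < R) (hRn : 16 * n ≤ R ^ 2)
    (hc0 : 0 ≤ c) {χ η : Euc n → ℝ} {χ' η' : Euc n → Euc n} (hχ : D1 χ χ') (hη : D1 η η')
    (hsum : ∀ x, χ x ^ 2 + η x ^ 2 = 1) (hχ0 : ∀ x, 2 * R < ‖x‖ → χ x = 0)
    (hin : ∀ x, ‖x‖ ≤ R → χ x = 1 ∧ η x = 0) (hgrad : ∀ x, ‖χ' x‖ ^ 2 + ‖η' x‖ ^ 2 ≤ c / R ^ 2)
    (horth : ∀ x, χ x • χ' x + η x • η' x = 0) (hne : μ (Metric.closedBall 0 (2 * R)) ≠ 0)
    (hpge : 20 / 21 ≤ μ.real (Metric.closedBall (0 : Euc n) (2 * R))) (hK0 : 0 ≤ K) (hKK' : K + 50 ≤ K')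
    (hcK : K' * (c / R ^ 2) ≤ 1 / 2)
    (hlsi : ∀ {g : Euc n → ℝ} {g' : Euc n → Euc n}, D1 g g' →
      ent (onBall μ (2 * R)) (fun x => g x ^ 2) ≤ K * ∫ x, ‖g' x‖ ^ 2 ∂(onBall μ (2 * R)))
    (hiχ : 0 < ∫ x, χ x ∂(onBall μ (2 * R))) {f : Euc n → ℝ} {f' : Euc n → Euc n} (hf : D1 f f') :
    ent μ (fun x => f x ^ 2) ≤ 176 * K' * ∫ x, ‖f' x‖ ^ 2 ∂μ := by
  set p := μ.real (Metric.closedBall (0 : Euc n) (2 * R)) with hp
  have hp0 : 0 < p := by linarith
  set ν := onBall μ (2 * R) with hν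
  have : IsProbabilityMeasure ν := isProb_onBall hne
  have hνS : Supp ν (2 * R) := supp_onBall μ _
  set a := (∫ x, χ x * f x ∂ν) / ∫ x, χ x ∂ν with ha
  set v := fun x => f x - a with hv
  have hvd : D1 v f' := ⟨fun x => (hf.deriv x).sub_const a, hf.cont'⟩
  set u := fun x => χ x * v x with hu
  set w := fun x => η x * v x with hw
  set u' := fun x => χ x • f' x + v x • χ' x with hu'
  set w' := fun x => η x • f' x + v x • η' x with hw'
  have hud : D1 u u' := hχ.mul hvd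
  have hwd : D1 w w' := hη.mul hvd
  have huv : ∫ x, u x ∂ν = 0 := by
    have e : ∀ x, u x = χ x * f x - χ x * a := fun x => by simp only [hu, hv]; ring
    rw [integral_congr_ae (Eventually.of_forall e), integral_sub (f := fun x => χ x * f x) (g := fun x => χ x * a)
      (hνS.integrable (hχ.cont.mul hf.cont)) (hνS.integrable (hχ.cont.mul continuous_const)), integral_mul_const, ha, mul_div_cancel₀ _ hiχ.ne', sub_self]
  have hu0 : ∀ x, 2 * R < ‖x‖ → u x = 0 := fun x hx => by simp [hu, hχ0 x hx]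
  have hw0 : ∀ x, ‖x‖ ≤ R → w x = 0 := fun x hx => by simp [hw, (hin x hx).2]
  set Du := ∫ x, ‖u' x‖ ^ 2 ∂μ with hDu
  set Dw := ∫ x, ‖w' x‖ ^ 2 ∂μ with hDw
  set mu2 := ∫ x, u x ^ 2 ∂μ with hmu2
  set mw2 := ∫ x, w x ^ 2 ∂μ with hmw2
  set D := ∫ x, ‖f' x‖ ^ 2 ∂μ with hD
  set σ := ∫ x, v x ^ 2 ∂μ with hσ
  have hDu0 : 0 ≤ Du := integral_nonneg fun x => sq_nonneg _
  have hDw0 : 0 ≤ Dw := integral_nonneg fun x => sq_nonneg _
  have hD0 : 0 ≤ D := integral_nonneg fun x => sq_nonneg _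
  have hσ0 : 0 ≤ σ := integral_nonneg fun x => sq_nonneg _
  have hmu0 : 0 ≤ mu2 := integral_nonneg fun x => sq_nonneg _
  have hDν : p * ∫ x, ‖u' x‖ ^ 2 ∂ν ≤ Du :=
    integral_onBall_le (fun x => sq_nonneg _) (hS.integrable (hud.cont'.norm.pow 2)) hne
  have hmu : mu2 ≤ K / 2 * Du := by
    have e := supp_integral_vanish (μ := μ) (F := fun x => u x ^ 2) (fun x hx => by simp [hu0 x hx]) hne
    change mu2 = p * ∫ x, u x ^ 2 ∂ν at e
    rw [e]
    refine (mul_le_mul_of_nonneg_left (poincare_of_lsi hνS hlsi hud huv) hp0.le).trans ?_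
    rw [← mul_assoc, mul_comm p (K / 2), mul_assoc]
    exact mul_le_mul_of_nonneg_left hDν (by positivity)
  have hentu : ent μ (fun x => u x ^ 2) ≤ K * Du + mu2 := by
    rw [ent_eq_onBall (fun x hx => by simp [hu0 x hx]) hne]
    change p * ent ν (fun x => u x ^ 2) - mu2 * log p ≤ _
    have h1 := mul_le_mul_of_nonneg_left (hlsi hud) hp0.le
    have h2 : p * (K * ∫ x, ‖u' x‖ ^ 2 ∂ν) ≤ K * Du := by
      rw [← mul_assoc, mul_comm p K, mul_assoc]
      exact mul_le_mul_of_nonneg_left hDν hK0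
    have h3 : -log p ≤ 1 := by
      have := log_le_sub_one_of_pos (show 0 < 1 / p by positivity)
      rw [one_div, log_inv] at this
      have h4 : p⁻¹ ≤ 21 / 20 := by
        rw [inv_le_comm₀ hp0 (by norm_num)]; norm_num; linarith
      linarith
    have h5 := mul_le_mul_of_nonneg_left h3 hmu0
    linarith
  obtain ⟨hentw, hmw⟩ := outer_bound hS hR₁ hμ hsub3 hn hR0.le hRn hwd hw0
  have hD12 : Du + Dw ≤ D + c / R ^ 2 * σ := by
    have i1 : Integrable (fun x => ‖u' x‖ ^ 2) μ := hS.integrable (hud.cont'.norm.pow 2)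
    have i2 : Integrable (fun x => ‖w' x‖ ^ 2) μ := hS.integrable (hwd.cont'.norm.pow 2)
    have i3 : Integrable (fun x => ‖f' x‖ ^ 2) μ := hS.integrable (hf.cont'.norm.pow 2)
    have i4 : Integrable (fun x => c / R ^ 2 * v x ^ 2) μ := hS.integrable ((hvd.cont.pow 2).const_mul _)
    rw [hDu, hDw, hD, hσ, ← integral_add i1 i2, ← integral_const_mul, ← integral_add i3 i4]
    refine integral_mono (i1.add i2) (i3.add i4) fun x => ?_
    show ‖u' x‖ ^ 2 + ‖w' x‖ ^ 2 ≤ ‖f' x‖ ^ 2 + c / R ^ 2 * v x ^ 2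
    rw [hu', hw', ims_pointwise (hsum x) (horth x)]
    have := mul_le_mul_of_nonneg_left (hgrad x) (sq_nonneg (v x))
    linarith
  have hσe : σ = mu2 + mw2 := by
    rw [hσ, hmu2, hmw2, ← integral_add (hS.integrable (f := fun x => u x ^ 2) (hud.cont.pow 2))
      (hS.integrable (f := fun x => w x ^ 2) (hwd.cont.pow 2))]
    refine integral_congr_ae (Eventually.of_forall fun x => ?_)
    simp only [hu, hw, mul_pow, ← add_mul, hsum x, one_mul]
  have hsq : ∀ x, v x ^ 2 = u x ^ 2 + w x ^ 2 := fun x => by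
    simp only [hu, hw, mul_pow, ← add_mul, hsum x, one_mul]
  have hentv : ent μ (fun x => v x ^ 2) ≤ ent μ (fun x => u x ^ 2) + ent μ (fun x => w x ^ 2) := by
    rw [show (fun x => v x ^ 2) = fun x => u x ^ 2 + w x ^ 2 from funext hsq]
    exact ent_add_le (fun x => sq_nonneg _) (fun x => sq_nonneg _) (hS.integrable (hud.cont.pow 2))
      (hS.integrable (Real.continuous_mul_log.comp (hud.cont.pow 2))) (hS.integrable (hwd.cont.pow 2))
      (hS.integrable (Real.continuous_mul_log.comp (hwd.cont.pow 2)))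
      (hS.integrable (Real.continuous_mul_log.comp ((hud.cont.pow 2).add (hwd.cont.pow 2))))
  have hK'0 : 0 ≤ K' := by linarith
  have hσK : σ ≤ 2 * K' * D := by
    have h1 : σ ≤ K' * (Du + Dw) := by
      rw [hσe]
      have := mul_nonneg hK0 hDu0
      have := mul_nonneg hK0 hDw0
      linarith [mul_le_mul_of_nonneg_right hKK' hDu0, mul_le_mul_of_nonneg_right hKK' hDw0]
    have h2 := h1.trans (mul_le_mul_of_nonneg_left hD12 hK'0)
    linarith [mul_le_mul_of_nonneg_right hcK hσ0]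
  have hDD : Du + Dw ≤ 2 * D := by
    have h1 := mul_le_mul_of_nonneg_left hσK (by positivity : 0 ≤ c / R ^ 2)
    have h2 := mul_le_mul_of_nonneg_right hcK hD0
    linarith
  have hev : ent μ (fun x => v x ^ 2) ≤ 4 * K' * D := by
    have h1 : ent μ (fun x => v x ^ 2) ≤ K' * (Du + Dw) + σ := by
      have : 0 ≤ mw2 := integral_nonneg fun x => sq_nonneg _
      have := mul_nonneg hK0 hDw0
      linarith [mul_le_mul_of_nonneg_right hKK' hDu0, mul_le_mul_of_nonneg_right hKK' hDw0]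
    have h2 := mul_le_mul_of_nonneg_left hDD hK'0
    linarith
  have hfin : ent μ (fun x => f x ^ 2) ≤ 176 * K' * D := by
    have e : (fun x => f x ^ 2) = fun x => (a + v x) ^ 2 := funext fun x => by simp [hv]
    rw [e]
    rcases hσ0.eq_or_lt with hz | hz
    · have hvz : (fun x => v x ^ 2) =ᵐ[μ] 0 :=
        (integral_eq_zero_iff_of_nonneg (fun x => sq_nonneg _) (hS.integrable (hvd.cont.pow 2))).1 hz.symm
      have hz' : ∀ᵐ x ∂μ, v x = 0 := hvz.mono fun x hx => by simpa using hx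
      have e0 : ent μ (fun x => (a + v x) ^ 2) = 0 := by
        have e1 : ∫ x, (a + v x) ^ 2 * log ((a + v x) ^ 2) ∂μ = a ^ 2 * log (a ^ 2) := by
          rw [integral_congr_ae (g := fun _ => a ^ 2 * log (a ^ 2)) (hz'.mono fun x hx => by simp [hx])]
          simp
        have e2 : ∫ x, (a + v x) ^ 2 ∂μ = a ^ 2 := by
          rw [integral_congr_ae (g := fun _ => a ^ 2) (hz'.mono fun x hx => by simp [hx])]
          simp
        rw [ent, e1, e2, sub_self]
      rw [e0]; positivity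
    · have h1 := ent_shift (μ := μ) a (hS.integrable (hvd.cont.fun_pow 2))
        (hS.integrable (Real.continuous_mul_log.comp (hvd.cont.fun_pow 2)))
        (hS.integrable ((continuous_const.add hvd.cont).fun_pow 2))
        (hS.integrable (Real.continuous_mul_log.comp ((continuous_const.add hvd.cont).fun_pow 2))) hz
      linarith
  exact hfin

/-- Log-Sobolev inequality of order `n^(1/3)` for compactly supported measures. -/
theorem core_lsi : ∃ C : ℝ, 0 < C ∧ ∀ (n : ℕ), 1 ≤ n → ∀ (μ : Measure (Euc n)), IsProbabilityMeasure μ →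
    ∀ R₁ : ℝ, 0 ≤ R₁ → Supp μ R₁ → IsLC 0 μ → (∀ v : Euc n, ‖v‖ = 1 → ∫ x, exp (⟪v, x⟫ ^ 2) ∂μ ≤ 11 / 5) →
    ∀ (f : Euc n → ℝ) (f' : Euc n → Euc n), D1 f f' →
      ent μ (fun x => f x ^ 2) ≤ C * (n : ℝ) ^ (1 / 3 : ℝ) * ∫ x, ‖f' x‖ ^ 2 ∂μ := by
  obtain ⟨c, hc0, hcut⟩ := exists_cutoff
  set L := max 4 (2 * c * (640000000 + 50)) with hL
  have hL4 : 4 ≤ L := le_max_left _ _
  have hLc : 2 * c * (640000000 + 50) ≤ L := le_max_right _ _
  refine ⟨200 * (640000000 * L + 50), by positivity, fun n hn μ hprob R₁ hR₁ hS hμ hsub f f' hf => ?_⟩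
  have hn' : (1 : ℝ) ≤ n := by exact_mod_cast hn
  set N := (n : ℝ) ^ (1 / 3 : ℝ) with hN
  have hN1 : 1 ≤ N := one_le_rpow hn' (by norm_num)
  have hNn : N ≤ n := by
    rw [hN]; exact (rpow_le_rpow_of_exponent_le hn' (by norm_num : (1/3 : ℝ) ≤ 1)).trans (le_of_eq (rpow_one _))
  set R := L * √n with hR
  have hsn : 0 < √(n : ℝ) := Real.sqrt_pos.2 (by linarith)
  have hR0 : 0 < R := by positivity
  have hR2 : R ^ 2 = L ^ 2 * n := by rw [hR, mul_pow, Real.sq_sqrt (by linarith)]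
  have hRn : 16 * n ≤ R ^ 2 := by rw [hR2]; exact mul_le_mul_of_nonneg_right (by nlinarith) (by linarith)
  have hsub3 : Sub3 μ := fun v hv => (hsub v hv).trans (by norm_num)
  obtain ⟨χ, η, χ', η', hχ, hη, hsum, hχpos, hχ0, hin, hgrad, horth⟩ := hcut n R hR0
  set B := Metric.closedBall (0 : Euc n) (2 * R) with hB
  set p := μ.real B with hp
  have hpge : 20 / 21 ≤ p := by
    have h1 := measure_compl_ball_le hS hsub3 hn (2 * R)
    rw [← le_div_iff₀' (exp_pos _), ← exp_sub] at h1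
    have h2 : μ.real Bᶜ ≤ μ.real {x : Euc n | (2 * R) ^ 2 ≤ ‖x‖ ^ 2} := measureReal_mono fun x hx => by
      simp only [hB, mem_compl_iff, Metric.mem_closedBall, dist_zero_right, not_le] at hx
      exact pow_le_pow_left₀ (by positivity) hx.le 2
    have h3 := probReal_compl_eq_one_sub (μ := μ) (s := B) measurableSet_closedBall
    have h4 : exp (3 * (n : ℝ) - (2 * R) ^ 2 / 2) ≤ 1 / 21 := by
      rw [le_div_iff₀ (by norm_num)]
      have h5 : 3 * (n : ℝ) - (2 * R) ^ 2 / 2 ≤ -20 := by linarith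
      have h6 := exp_le_exp.2 h5
      have h7 : exp (-20 : ℝ) * exp 20 = 1 := by rw [← exp_add]; simp
      have h8 := mul_le_mul_of_nonneg_left (add_one_le_exp (20 : ℝ)) (exp_pos (-20 : ℝ)).le
      linarith
    linarith
  have hp0 : 0 < p := by linarith
  have hp1 : p ≤ 1 := measureReal_le_one
  have hne : μ B ≠ 0 := fun h => by simp [hp, measureReal_def, h] at hp0
  set ν := onBall μ (2 * R) with hν
  have : IsProbabilityMeasure ν := isProb_onBall hne
  have hνS : Supp ν (2 * R) := supp_onBall μ _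
  have hνsub : Sub3 ν := fun v hv => by
    have h1 := integral_onBall_le (μ := μ) (r := 2 * R) (F := fun x => exp (⟪v, x⟫ ^ 2)) (fun x => (exp_pos _).le)
      (hS.integrable (by fun_prop)) hne
    change p * _ ≤ _ at h1
    have h2 := h1.trans (hsub v hv)
    have h3 : 0 ≤ ∫ x, exp (⟪v, x⟫ ^ 2) ∂ν := integral_nonneg fun x => (exp_pos _).le
    nlinarith [mul_le_mul_of_nonneg_right hpge h3]
  set K := 640000000 * L * N with hK
  have hlsi : ∀ {g : Euc n → ℝ} {g' : Euc n → Euc n}, D1 g g' →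
      ent ν (fun x => g x ^ 2) ≤ K * ∫ x, ‖g' x‖ ^ 2 ∂ν := fun {g g'} hg => by
    have := lsi_ball (μ := ν) hn (ρ := 2 * L) (by linarith) (by rw [hR]; ring) hνS (hμ.onBall hne) hνsub hg
    refine this.trans (le_of_eq ?_)
    rw [hK, hN]; ring
  set K' := (640000000 * L + 50) * N with hK'
  have hKK' : K + 50 ≤ K' := by rw [hK, hK']; nlinarith
  have hK0 : 0 ≤ K := by positivity
  have hcK : K' * (c / R ^ 2) ≤ 1 / 2 := by
    rw [hR2, hK', ← mul_div_assoc, div_le_iff₀ (by positivity)]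
    have h1 : (640000000 * L + 50) * N * c ≤ (640000000 + 50) * L * n * c := by
      gcongr
      nlinarith
    have h2 : (640000000 + 50) * L * n * c ≤ L * L * n / 2 := by
      have := mul_le_mul_of_nonneg_left hLc (by positivity : 0 ≤ L * (n : ℝ))
      nlinarith
    nlinarith
  have hball : 0 < μ.real (Metric.closedBall (0 : Euc n) R) := by
    have h1 := compl_ball_small hS hsub3 hn hRn
    have h2 : μ.real (Metric.closedBall (0 : Euc n) R)ᶜ ≤ μ.real {x : Euc n | R ^ 2 ≤ ‖x‖ ^ 2} := measureReal_mono fun x hx => by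
      simp only [mem_compl_iff, Metric.mem_closedBall, dist_zero_right, not_le] at hx
      exact pow_le_pow_left₀ hR0.le hx.le 2
    rw [probReal_compl_eq_one_sub measurableSet_closedBall] at h2
    have : exp (-(5 * (n : ℝ))) < 1 := exp_lt_one_iff.2 (by linarith)
    linarith
  have hiχ : 0 < ∫ x, χ x ∂ν := by
    rw [hν, integral_onBall, smul_eq_mul]
    refine mul_pos (inv_pos.2 hp0) (hball.trans_le ?_)
    have h1 : μ.real (Metric.closedBall (0 : Euc n) R) = ∫ x in B, (Metric.closedBall (0 : Euc n) R).indicator (fun _ => (1 : ℝ)) x ∂μ := by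
      rw [integral_indicator_const _ measurableSet_closedBall, smul_eq_mul, mul_one, measureReal_restrict_apply measurableSet_closedBall,
        inter_eq_self_of_subset_left (Metric.closedBall_subset_closedBall (by linarith))]
    rw [h1]
    refine integral_mono ((integrable_const _).indicator measurableSet_closedBall) (hS.integrable hχ.cont).integrableOn fun x => ?_
    by_cases hx : x ∈ Metric.closedBall (0 : Euc n) R
    · rw [indicator_of_mem hx, (hin x (by simpa using hx)).1]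
    · rw [indicator_of_notMem hx]; exact hχpos x
  refine (combine hS hR₁ hμ hsub3 hn hR0 hRn hc0 hχ hη hsum hχ0 hin hgrad horth hne hpge hK0 hKK' hcK hlsi hiχ hf).trans ?_
  rw [hK']
  have : 0 ≤ (640000000 * L + 50) * N * ∫ x, ‖f' x‖ ^ 2 ∂μ := by positivity
  linarith

end Vale.Agent.P245
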