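import Mathlib

open MeasureTheory Real Filter
open scoped Topology

namespace Vale.Agent.P245

/-- The entropy functional `∫ g log g - (∫ g) log (∫ g)`, with `0 log 0 = 0`. -/
noncomputable def ent {α : Type*} [MeasurableSpace α] (μ : Measure α) (g : α → ℝ) : ℝ :=
  (∫ x, g x * log (g x) ∂μ) - (∫ x, g x ∂μ) * log (∫ x, g x ∂μ)

lemma mul_log_sub_ge (r : ℝ) {c : ℝ} (hr : 0 ≤ r) (hc : 0 < c) :
    0 ≤ r * log r - r * log c - r + c := by
  rcases hr.eq_or_lt with h | h
  · simp [← h, hc.le]
  have h1 : log (c / r) ≤ c / r - 1 := log_le_sub_one_of_pos (by positivity)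
  rw [log_div hc.ne' h.ne'] at h1
  have h2 := mul_le_mul_of_nonneg_left h1 h.le
  have h3 : r * (c / r - 1) = c - r := by field_simp
  nlinarith

variable {α : Type*} [MeasurableSpace α] {μ : Measure α}

/-- Variational inequality for entropy. -/
lemma integral_mul_le_ent [IsProbabilityMeasure μ] {g φ : α → ℝ} (hg0 : ∀ x, 0 ≤ g x)
    (hg : Integrable g μ) (hgl : Integrable (fun x => g x * log (g x)) μ)
    (hgφ : Integrable (fun x => g x * φ x) μ) (hφ : Integrable (fun x => exp (φ x)) μ) :
    ∫ x, g x * φ x ∂μ ≤ ent μ g + (∫ x, g x ∂μ) * log (∫ x, exp (φ x) ∂μ) := by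
  set m := ∫ x, g x ∂μ with hm
  have hm0 : 0 ≤ m := integral_nonneg hg0
  have hZ : 0 < ∫ x, exp (φ x) ∂μ := integral_exp_pos hφ
  rcases hm0.eq_or_lt with h | h
  · have hz : g =ᵐ[μ] 0 := (integral_eq_zero_iff_of_nonneg hg0 hg).1 h.symm
    have e1 : ∫ x, g x * φ x ∂μ = 0 := integral_eq_zero_of_ae (hz.mono fun x hx => by simp [hx])
    have e2 : ∫ x, g x * log (g x) ∂μ = 0 := integral_eq_zero_of_ae (hz.mono fun x hx => by simp [hx])
    simp [ent, e1, e2, ← hm, ← h]
  set Z := ∫ x, exp (φ x) ∂μ with hZdef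
  have key : ∀ x, g x * φ x ≤ g x * log (g x) - g x * log (m / Z) - g x + (m / Z) * exp (φ x) := by
    intro x
    have := mul_log_sub_ge (g x) (c := (m / Z) * exp (φ x)) (hg0 x) (by positivity)
    rw [log_mul (by positivity) (exp_ne_zero _), log_exp] at this
    linarith
  have hI : Integrable (fun x => g x * log (g x) - g x * log (m / Z) - g x + (m / Z) * exp (φ x)) μ :=
    ((hgl.sub (hg.mul_const _)).sub hg).add (hφ.const_mul _)
  calc ∫ x, g x * φ x ∂μ
      ≤ ∫ x, (g x * log (g x) - g x * log (m / Z) - g x + (m / Z) * exp (φ x)) ∂μ :=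
        integral_mono hgφ hI key
    _ = _ := by
        have e1 := integral_add (μ := μ) (f := fun x => g x * log (g x) - g x * log (m / Z) - g x)
          (g := fun x => (m / Z) * exp (φ x)) ((hgl.sub (hg.mul_const _)).sub hg) (hφ.const_mul _)
        have e2 := integral_sub (μ := μ) (f := fun x => g x * log (g x) - g x * log (m / Z))
          (g := fun x => g x) (hgl.sub (hg.mul_const _)) hg
        have e3 := integral_sub (μ := μ) (f := fun x => g x * log (g x))
          (g := fun x => g x * log (m / Z)) hgl (hg.mul_const _)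
        rw [e1, e2, e3, integral_mul_const, integral_const_mul, log_div h.ne' hZ.ne']
        simp only [ent, ← hm, ← hZdef]
        field_simp
        ring

/-- Jensen inequality for the exponential. -/
lemma integral_le_log_integral_exp [IsProbabilityMeasure μ] {φ : α → ℝ} (hφ : Integrable φ μ)
    (he : Integrable (fun x => exp (φ x)) μ) : ∫ x, φ x ∂μ ≤ log (∫ x, exp (φ x) ∂μ) := by
  simpa [ent] using integral_mul_le_ent (μ := μ) (g := fun _ => (1 : ℝ)) (φ := φ)
    (fun _ => zero_le_one) (integrable_const _) (by simp) (by simpa using hφ) he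

lemma ent_nonneg [IsProbabilityMeasure μ] {g : α → ℝ} (hg0 : ∀ x, 0 ≤ g x)
    (hg : Integrable g μ) (hgl : Integrable (fun x => g x * log (g x)) μ) : 0 ≤ ent μ g := by
  have h := integral_mul_le_ent (μ := μ) (g := g) (φ := fun _ => (0 : ℝ)) hg0 hg hgl
    (by simp only [mul_zero]; exact integrable_zero _ _ _) (integrable_const _)
  simp only [mul_zero, exp_zero, integral_zero, integral_const, probReal_univ, one_smul, log_one, add_zero] at h
  exact h

lemma ent_le_integral [IsProbabilityMeasure μ] {g : α → ℝ} (hg0 : ∀ x, 0 ≤ g x)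
    (hg : Integrable g μ) (hgl : Integrable (fun x => g x * log (g x)) μ) {c : ℝ} (hc : 0 < c) :
    ent μ g ≤ ∫ x, (g x * log (g x) - g x * log c - g x + c) ∂μ := by
  have e1 := integral_add (μ := μ) (f := fun x => g x * log (g x) - g x * log c - g x)
    (g := fun _ => c) ((hgl.sub (hg.mul_const _)).sub hg) (integrable_const _)
  have e2 := integral_sub (μ := μ) (f := fun x => g x * log (g x) - g x * log c)
    (g := fun x => g x) (hgl.sub (hg.mul_const _)) hg
  have e3 := integral_sub (μ := μ) (f := fun x => g x * log (g x))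
    (g := fun x => g x * log c) hgl (hg.mul_const _)
  rw [e1, e2, e3, integral_mul_const, integral_const, probReal_univ, one_smul, ent]
  have := mul_log_sub_ge (∫ x, g x ∂μ) (integral_nonneg hg0) hc
  linarith

lemma two_term_log_sum {a b A B : ℝ} (ha : 0 ≤ a) (hb : 0 ≤ b) (hA : 0 < A) (hB : 0 < B) :
    (a + b) * (log (a + b) - log (A + B)) ≤ a * (log a - log A) + b * (log b - log B) := by
  rcases (add_nonneg ha hb).eq_or_lt with h | h
  · have ea : a = 0 := by linarith
    have eb : b = 0 := by linarith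
    simp [ea, eb]
  have h1 := mul_log_sub_ge a (c := (a + b) * A / (A + B)) ha (by positivity)
  have h2 := mul_log_sub_ge b (c := (a + b) * B / (A + B)) hb (by positivity)
  rw [log_div (by positivity) (by positivity), log_mul h.ne' hA.ne'] at h1
  rw [log_div (by positivity) (by positivity), log_mul h.ne' hB.ne'] at h2
  have h3 : (a + b) * A / (A + B) + (a + b) * B / (A + B) = a + b := by field_simp
  nlinarith

lemma ent_add_le {g h : α → ℝ} (hg0 : ∀ x, 0 ≤ g x) (hh0 : ∀ x, 0 ≤ h x)
    (hg : Integrable g μ) (hgl : Integrable (fun x => g x * log (g x)) μ)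
    (hh : Integrable h μ) (hhl : Integrable (fun x => h x * log (h x)) μ)
    (hs : Integrable (fun x => (g x + h x) * log (g x + h x)) μ) :
    ent μ (fun x => g x + h x) ≤ ent μ g + ent μ h := by
  set A := ∫ x, g x ∂μ with hA
  set B := ∫ x, h x ∂μ with hB
  have hab : ∫ x, (g x + h x) ∂μ = A + B := integral_add hg hh
  have hA' : 0 ≤ A := integral_nonneg hg0
  have hB' : 0 ≤ B := integral_nonneg hh0
  rcases hA'.eq_or_lt with hA0 | hA0
  · have hz : g =ᵐ[μ] 0 := (integral_eq_zero_iff_of_nonneg hg0 hg).1 hA0.symm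
    have e2 : ∫ x, g x * log (g x) ∂μ = 0 := integral_eq_zero_of_ae (hz.mono fun x hx => by simp [hx])
    have e3 : ∫ x, (g x + h x) * log (g x + h x) ∂μ = ∫ x, h x * log (h x) ∂μ :=
      integral_congr_ae (hz.mono fun x hx => by simp [hx])
    simp [ent, hab, e2, e3, ← hA, ← hA0, ← hB]
  rcases hB'.eq_or_lt with hB0 | hB0
  · have hz : h =ᵐ[μ] 0 := (integral_eq_zero_iff_of_nonneg hh0 hh).1 hB0.symm
    have e2 : ∫ x, h x * log (h x) ∂μ = 0 := integral_eq_zero_of_ae (hz.mono fun x hx => by simp [hx])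
    have e3 : ∫ x, (g x + h x) * log (g x + h x) ∂μ = ∫ x, g x * log (g x) ∂μ :=
      integral_congr_ae (hz.mono fun x hx => by simp [hx])
    simp [ent, hab, e2, e3, ← hA, ← hB0, ← hB]
  have key : ∀ x, (g x + h x) * log (g x + h x) ≤ g x * log (g x) - g x * log A
      + (h x * log (h x) - h x * log B) + (g x + h x) * log (A + B) := by
    intro x
    have := two_term_log_sum (hg0 x) (hh0 x) hA0 hB0
    linarith
  have i1 : Integrable (fun x => g x * log (g x) - g x * log A
      + (h x * log (h x) - h x * log B) + (g x + h x) * log (A + B)) μ :=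
    ((hgl.sub (hg.mul_const _)).add (hhl.sub (hh.mul_const _))).add ((hg.add hh).mul_const _)
  have h2 := integral_mono hs i1 key
  rw [integral_add (f := fun x => g x * log (g x) - g x * log A + (h x * log (h x) - h x * log B))
      (g := fun x => (g x + h x) * log (A + B))
      ((hgl.sub (hg.mul_const _)).add (hhl.sub (hh.mul_const _))) ((hg.add hh).mul_const _),
    integral_add (f := fun x => g x * log (g x) - g x * log A)
      (g := fun x => h x * log (h x) - h x * log B) (hgl.sub (hg.mul_const _))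
      (hhl.sub (hh.mul_const _)),
    integral_sub hgl (hg.mul_const _), integral_sub hhl (hh.mul_const _),
    integral_mul_const, integral_mul_const, integral_mul_const, hab] at h2
  simp only [ent, hab, ← hA, ← hB]
  linarith

lemma log_le_half_sub_inv {y : ℝ} (hy : 1 ≤ y) : log y ≤ (y - 1 / y) / 2 := by
  rcases eq_or_lt_of_le hy with h | h
  · simp [← h]
  have h0 : (0 : ℝ) < y := by linarith
  have hs := self_lt_sinh_iff.2 (log_pos h)
  rw [sinh_log h0] at hs
  rw [one_div]
  linarith

lemma mul_log_sub_ge_sq {r c M : ℝ} (hr : 0 ≤ r) (hc : 0 < c) (hrM : r ≤ M) (hcM : c ≤ M) :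
    (r - c) ^ 2 / (2 * M) ≤ r * log r - r * log c - r + c := by
  have hM : 0 < M := hc.trans_le hcM
  rcases hr.eq_or_lt with h | h
  · subst h
    simp only [zero_sub, neg_sq, zero_mul, sub_zero, zero_add]
    rw [div_le_iff₀ (by positivity)]
    nlinarith
  rcases le_total c r with hcr | hcr
  · have h1 := le_log_one_add_of_nonneg (x := r / c - 1) (by rw [sub_nonneg, le_div_iff₀ hc]; linarith)
    rw [add_sub_cancel, log_div h.ne' hc.ne'] at h1
    have e : 2 * (r / c - 1) / (r / c - 1 + 2) = 2 * (r - c) / (r + c) := by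
      field_simp
      ring
    rw [e] at h1
    have h2 := mul_le_mul_of_nonneg_left h1 h.le
    have e2 : r * (2 * (r - c) / (r + c)) - r + c = (r - c) ^ 2 / (r + c) := by
      field_simp
      ring
    have h3 : (r - c) ^ 2 / (2 * M) ≤ (r - c) ^ 2 / (r + c) :=
      div_le_div_of_nonneg_left (sq_nonneg _) (by positivity) (by linarith)
    nlinarith
  · have h1 := log_le_half_sub_inv (y := c / r) (by rw [le_div_iff₀ h]; linarith)
    rw [log_div hc.ne' h.ne'] at h1
    have h2 := mul_le_mul_of_nonneg_left h1 h.le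
    have e2 : r * ((c / r - 1 / (c / r)) / 2) = (c - r ^ 2 / c) / 2 := by
      field_simp
    have e3 : (r - c) ^ 2 / (2 * c) = (r ^ 2 / c - c) / 2 - r + c := by
      field_simp
      ring
    have h3 : (r - c) ^ 2 / (2 * M) ≤ (r - c) ^ 2 / (2 * c) :=
      div_le_div_of_nonneg_left (sq_nonneg _) (by positivity) (by linarith)
    nlinarith

lemma var_le_ent [IsProbabilityMeasure μ] {r : α → ℝ} {M : ℝ} (hr0 : ∀ x, 0 ≤ r x)
    (hrM : ∀ᵐ x ∂μ, r x ≤ M) (hr : Integrable r μ)
    (hrl : Integrable (fun x => r x * log (r x)) μ)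
    (hsq : Integrable (fun x => (r x - ∫ y, r y ∂μ) ^ 2) μ) :
    ∫ x, (r x - ∫ y, r y ∂μ) ^ 2 ∂μ ≤ 2 * M * ent μ r := by
  set c := ∫ y, r y ∂μ with hc
  have hc' : 0 ≤ c := integral_nonneg hr0
  rcases hc'.eq_or_lt with h | h
  · have hz : r =ᵐ[μ] 0 := (integral_eq_zero_iff_of_nonneg hr0 hr).1 h.symm
    have e1 : ∫ x, (r x - c) ^ 2 ∂μ = 0 := integral_eq_zero_of_ae (hz.mono fun x hx => by simp [hx, ← h])
    have e2 : ∫ x, r x * log (r x) ∂μ = 0 := integral_eq_zero_of_ae (hz.mono fun x hx => by simp [hx])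
    rw [e1, ent, e2, ← hc, ← h]
    simp
  have hcM : c ≤ M := by
    have := integral_mono_ae hr (integrable_const M) hrM
    simpa using this
  have hM : 0 < M := h.trans_le hcM
  have key : ∀ᵐ x ∂μ, (r x - c) ^ 2 ≤ 2 * M * (r x * log (r x) - r x * log c - r x + c) := by
    filter_upwards [hrM] with x hx
    have := mul_log_sub_ge_sq (hr0 x) h hx hcM
    rw [div_le_iff₀ (by positivity)] at this
    linarith
  have i1 : Integrable (fun x => r x * log (r x) - r x * log c - r x + c) μ :=
    ((hrl.sub (hr.mul_const _)).sub hr).add (integrable_const _)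
  refine (integral_mono_ae hsq (i1.const_mul _) key).trans (le_of_eq ?_)
  rw [integral_const_mul]
  congr 1
  rw [integral_add (f := fun x => r x * log (r x) - r x * log c - r x) ((hrl.sub (hr.mul_const _)).sub hr)
      (integrable_const _), integral_sub (f := fun x => r x * log (r x) - r x * log c) (hrl.sub (hr.mul_const _)) hr,
    integral_sub hrl (hr.mul_const _), integral_mul_const, integral_const, probReal_univ, one_smul]
  simp only [ent, ← hc]
  ring

/-- Pointwise estimate used for adding a constant inside a squared function. -/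
lemma shift_pointwise (a v : ℝ) {σ : ℝ} (hσ : 0 < σ) :
    (a + v) ^ 2 * log ((a + v) ^ 2) - (a + v) ^ 2 * log (a ^ 2 + σ ^ 2) - (a + v) ^ 2 + (a ^ 2 + σ ^ 2)
      ≤ 4 * (v ^ 2 * log (v ^ 2) - v ^ 2 * log (σ ^ 2) - v ^ 2 + σ ^ 2) + 40 * (v ^ 2 + σ ^ 2) := by
  set c := a ^ 2 + σ ^ 2 with hc
  have hc0 : 0 < c := by positivity
  have hnn := mul_log_sub_ge (v ^ 2) (sq_nonneg v) (c := σ ^ 2) (by positivity)
  set r := (a + v) ^ 2 with hr
  rcases le_or_gt (v ^ 2) c with hv | hv
  · have h1 : r * log r - r * log c - r + c ≤ (r - c) ^ 2 / c := by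
      rcases (sq_nonneg (a + v)).eq_or_lt with h | h
      · have : r = 0 := by rw [hr, ← h]
        rw [this, le_div_iff₀ hc0]
        simp
        nlinarith
      have h2 : log (r / c) ≤ r / c - 1 := log_le_sub_one_of_pos (by positivity)
      rw [log_div (by positivity) hc0.ne'] at h2
      have h3 := mul_le_mul_of_nonneg_left h2 (sq_nonneg (a + v))
      have e : r * (r / c - 1) - r + c = (r - c) ^ 2 / c := by field_simp; ring
      nlinarith
    have h4 : (r - c) ^ 2 / c ≤ 40 * (v ^ 2 + σ ^ 2) := by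
      rw [div_le_iff₀ hc0, hr, hc]
      have hva : v ^ 2 * v ^ 2 ≤ v ^ 2 * (a ^ 2 + σ ^ 2) := mul_le_mul_of_nonneg_left hv (sq_nonneg v)
      have := sq_nonneg (2 * a * v - v ^ 2 + σ ^ 2)
      have := sq_nonneg (2 * a * v - v ^ 2)
      have := sq_nonneg (2 * a * v + v ^ 2)
      nlinarith [mul_nonneg (sq_nonneg σ) (sq_nonneg a), mul_nonneg (sq_nonneg v) (sq_nonneg σ),
        mul_nonneg (sq_nonneg σ) (sq_nonneg σ), mul_nonneg (sq_nonneg v) (sq_nonneg a),
        sq_nonneg (2 * a * v + σ ^ 2), sq_nonneg (v ^ 2 + σ ^ 2), sq_nonneg (v ^ 2 - σ ^ 2)]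
    linarith
  · have hrv : r ≤ 4 * v ^ 2 := by
      rw [hr]; nlinarith [sq_nonneg (a - v), sq_nonneg σ]
    have hv0 : 0 < v ^ 2 := hc0.trans hv
    have hσv : σ ^ 2 ≤ v ^ 2 := by nlinarith [sq_nonneg a]
    have h1 : r * log r - r * log c - r + c ≤ 4 * (v ^ 2 * log (v ^ 2) - v ^ 2 * log (σ ^ 2)) + 12 * v ^ 2 + c := by
      have hlog4 : log (4 : ℝ) ≤ 3 := by
        have := log_le_sub_one_of_pos (show (0 : ℝ) < 4 by norm_num)
        linarith
      have hd : 0 ≤ log (v ^ 2) - log (σ ^ 2) := sub_nonneg.2 (log_le_log (by positivity) hσv)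
      have hl : log σ + log σ ≤ log c := by
        rw [← log_mul hσ.ne' hσ.ne']
        exact log_le_log (by positivity) (by nlinarith [sq_nonneg a])
      have hlσ : log (σ ^ 2) = log σ + log σ := by rw [log_pow]; push_cast; ring
      rcases le_or_gt r c with hrc | hrc
      · have : r * log r - r * log c ≤ 0 := by
          rcases (sq_nonneg (a + v)).eq_or_lt with h | h
          · simp [hr, ← h]
          · have := log_le_log (by positivity : (0 : ℝ) < r) hrc
            nlinarith [sq_nonneg (a + v)]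
        nlinarith [sq_nonneg (a + v), mul_nonneg hv0.le hd]
      · have hr0 : 0 < r := hc0.trans hrc
        have h2 : log r ≤ log 4 + log (v ^ 2) := by
          rw [← log_mul (by norm_num) hv0.ne']
          exact log_le_log hr0 hrv
        have h3 : r * (log r - log c) ≤ r * (3 + (log (v ^ 2) - log (σ ^ 2))) :=
          mul_le_mul_of_nonneg_left (by linarith) hr0.le
        have h4 : r * (3 + (log (v ^ 2) - log (σ ^ 2))) ≤ 4 * v ^ 2 * (3 + (log (v ^ 2) - log (σ ^ 2))) :=
          mul_le_mul_of_nonneg_right hrv (by linarith)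
        nlinarith
    nlinarith

lemma ent_shift [IsProbabilityMeasure μ] {v : α → ℝ} (a : ℝ) (hv : Integrable (fun x => v x ^ 2) μ)
    (hvl : Integrable (fun x => v x ^ 2 * log (v x ^ 2)) μ)
    (hg : Integrable (fun x => (a + v x) ^ 2) μ)
    (hgl : Integrable (fun x => (a + v x) ^ 2 * log ((a + v x) ^ 2)) μ)
    (hpos : 0 < ∫ x, v x ^ 2 ∂μ) :
    ent μ (fun x => (a + v x) ^ 2) ≤ 4 * ent μ (fun x => v x ^ 2) + 80 * ∫ x, v x ^ 2 ∂μ := by
  set σ := Real.sqrt (∫ x, v x ^ 2 ∂μ) with hσ
  have hσ0 : 0 < σ := Real.sqrt_pos.2 hpos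
  have hσ2 : σ ^ 2 = ∫ x, v x ^ 2 ∂μ := Real.sq_sqrt hpos.le
  refine (ent_le_integral (fun x => sq_nonneg _) hg hgl (c := a ^ 2 + σ ^ 2) (by positivity)).trans ?_
  have i1 : Integrable (fun x => v x ^ 2 * log (v x ^ 2) - v x ^ 2 * log (σ ^ 2) - v x ^ 2 + σ ^ 2) μ :=
    ((hvl.sub (hv.mul_const _)).sub hv).add (integrable_const _)
  have i2 : Integrable (fun x => 40 * (v x ^ 2 + σ ^ 2)) μ := (hv.add (integrable_const _)).const_mul _
  have i0 : Integrable (fun x => (a + v x) ^ 2 * log ((a + v x) ^ 2) - (a + v x) ^ 2 * log (a ^ 2 + σ ^ 2)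
      - (a + v x) ^ 2 + (a ^ 2 + σ ^ 2)) μ :=
    ((hgl.sub (hg.mul_const _)).sub hg).add (integrable_const _)
  refine (integral_mono i0 ((i1.const_mul 4).add i2) fun x => shift_pointwise a (v x) hσ0).trans (le_of_eq ?_)
  simp only [Pi.add_apply]
  rw [integral_add (i1.const_mul 4) i2, integral_const_mul, integral_const_mul,
    integral_add (f := fun x => v x ^ 2 * log (v x ^ 2) - v x ^ 2 * log (σ ^ 2) - v x ^ 2)
      ((hvl.sub (hv.mul_const _)).sub hv) (integrable_const _),
    integral_sub (f := fun x => v x ^ 2 * log (v x ^ 2) - v x ^ 2 * log (σ ^ 2)) (hvl.sub (hv.mul_const _)) hv,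
    integral_sub hvl (hv.mul_const _), integral_mul_const, integral_add hv (integrable_const _),
    integral_const, probReal_univ, one_smul]
  rw [ent, ← hσ2]
  ring

end Vale.Agent.P245
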