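import Vale.Agent.P245.Meas

open MeasureTheory Real Filter Set
open scoped Topology ENNReal RealInnerProductSpace

namespace Vale.Agent.P245

variable {n : ℕ}

lemma cont_param {μ : Measure (Euc n)} [IsFiniteMeasure μ] {R : ℝ} (hS : Supp μ R) {V : Type*}
    [NormedAddCommGroup V] [NormedSpace ℝ V] {F : Euc n → Euc n → V}
    (hF : Continuous (Function.uncurry F)) : Continuous fun θ => ∫ x, F θ x ∂μ := by
  refine continuous_iff_continuousAt.2 fun θ₀ => ?_
  obtain ⟨C, hC⟩ := ((isCompact_closedBall θ₀ 1).prod (isCompact_closedBall (0 : Euc n) R)).exists_bound_of_continuousOn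
    hF.continuousOn
  refine continuousAt_of_dominated
    (Eventually.of_forall fun θ => (hF.comp (Continuous.prodMk_right θ)).aestronglyMeasurable) ?_
    (integrable_const C) (Eventually.of_forall fun x => (hF.comp (Continuous.prodMk_left x)).continuousAt)
  filter_upwards [Metric.closedBall_mem_nhds θ₀ one_pos] with θ hθ
  exact hS.mono fun x hx => hC (θ, x) ⟨hθ, by simpa using hx⟩

/-- Gaussian-damped exponential weight. -/
noncomputable def wt (T : ℝ) (θ x : Euc n) : ℝ := exp (⟪θ, x⟫ - T / 2 * ‖x‖ ^ 2)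

/-- Normalisation of the tilted measure. -/
noncomputable def zf (T : ℝ) (μ : Measure (Euc n)) (θ : Euc n) : ℝ := ∫ x, wt T θ x ∂μ

/-- The tilted fiber measure. -/
noncomputable def fib (T : ℝ) (μ : Measure (Euc n)) (θ : Euc n) : Measure (Euc n) :=
  μ.tilted (fun x => ⟪θ, x⟫ - T / 2 * ‖x‖ ^ 2)

/-- Log-partition function. -/
noncomputable def lam (T : ℝ) (μ : Measure (Euc n)) (θ : Euc n) : ℝ := log (zf T μ θ)

/-- Average of `g` over the fiber. -/
noncomputable def av (T : ℝ) (μ : Measure (Euc n)) (g : Euc n → ℝ) (θ : Euc n) : ℝ :=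
  ∫ x, g x ∂(fib T μ θ)

/-- Barycentre of the fiber. -/
noncomputable def bary (T : ℝ) (μ : Measure (Euc n)) (θ : Euc n) : Euc n := ∫ x, x ∂(fib T μ θ)

/-- Covariance vector of `g` and the coordinate on the fiber. -/
noncomputable def cov (T : ℝ) (μ : Measure (Euc n)) (g : Euc n → ℝ) (θ : Euc n) : Euc n :=
  (∫ x, g x • x ∂(fib T μ θ)) - av T μ g θ • bary T μ θ

lemma continuous_wt (T : ℝ) : Continuous (Function.uncurry (wt (n := n) T)) := by
  unfold wt Function.uncurry; fun_prop

@[fun_prop]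
lemma continuous_wt_snd (T : ℝ) (θ : Euc n) : Continuous (wt T θ) := by unfold wt; fun_prop

section

variable {μ : Measure (Euc n)} [IsProbabilityMeasure μ] {R T : ℝ}

lemma zf_pos (hS : Supp μ R) (θ : Euc n) : 0 < zf T μ θ :=
  integral_exp_pos (hS.integrable (by fun_prop))

lemma isProb_fib (hS : Supp μ R) (θ : Euc n) : IsProbabilityMeasure (fib T μ θ) :=
  isProbabilityMeasure_tilted (hS.integrable (by fun_prop))

lemma supp_fib (hS : Supp μ R) (θ : Euc n) : Supp (fib T μ θ) R :=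
  (tilted_absolutelyContinuous _ _).ae_le hS

lemma isLC_fib (hS : Supp μ R) (hμ : IsLC 0 μ) (θ : Euc n) : IsLC T (fib T μ θ) := by
  have h := hμ.tilted (κ' := T) (W := fun x => ⟪θ, x⟫ - T / 2 * ‖x‖ ^ 2) (by fun_prop)
    (hS.integrable (by fun_prop)) fun x y a b _ _ hab => by
      have h1 := congrArg (fun t => T / 2 * t) (quad_identity a b hab x y)
      simp only [inner_add_right, inner_smul_right] at h1 ⊢
      nlinarith
  simpa [fib] using h

lemma integral_fib {V : Type*} [NormedAddCommGroup V] [NormedSpace ℝ V] (θ : Euc n) (f : Euc n → V) :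
    ∫ x, f x ∂(fib T μ θ) = (zf T μ θ)⁻¹ • ∫ x, wt T θ x • f x ∂μ := by
  rw [fib, integral_tilted, ← integral_smul]
  refine integral_congr_ae (Eventually.of_forall fun x => ?_)
  simp [zf, wt, smul_smul, div_eq_inv_mul]

lemma av_eq (g : Euc n → ℝ) (θ : Euc n) :
    av T μ g θ = (∫ x, wt T θ x * g x ∂μ) / zf T μ θ := by
  rw [av, integral_fib, smul_eq_mul, ← div_eq_inv_mul]; rfl

lemma continuous_zf (hS : Supp μ R) : Continuous (zf T μ) := cont_param hS (continuous_wt T)

lemma continuous_av (hS : Supp μ R) {g : Euc n → ℝ} (hg : Continuous g) : Continuous (av T μ g) := by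
  have e : av T μ g = fun θ => (∫ x, wt T θ x * g x ∂μ) / zf T μ θ := funext (av_eq g)
  rw [e]
  refine Continuous.div (cont_param hS ?_) (continuous_zf hS) fun θ => (zf_pos hS θ).ne'
  exact (continuous_wt T).mul (hg.comp continuous_snd)

lemma continuous_bary (hS : Supp μ R) : Continuous (bary T μ) := by
  have e : bary T μ = fun θ => (zf T μ θ)⁻¹ • ∫ x, wt T θ x • x ∂μ := funext fun θ => integral_fib θ id
  rw [e]
  exact ((continuous_zf hS).inv₀ fun θ => (zf_pos hS θ).ne').smul
    (cont_param hS ((continuous_wt T).smul continuous_snd))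

lemma continuous_cov (hS : Supp μ R) {g : Euc n → ℝ} (hg : Continuous g) : Continuous (cov T μ g) := by
  have e : cov T μ g = fun θ => ((zf T μ θ)⁻¹ • ∫ x, wt T θ x • (g x • x) ∂μ) - av T μ g θ • bary T μ θ :=
    funext fun θ => by rw [cov, integral_fib]
  rw [e]
  exact (((continuous_zf hS).inv₀ fun θ => (zf_pos hS θ).ne').smul
    (cont_param (F := fun θ x => wt T θ x • (g x • x)) hS
      ((continuous_wt T).smul ((hg.comp continuous_snd).smul continuous_snd)))).sub
    ((continuous_av hS hg).smul (continuous_bary hS))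

lemma hasFDerivAt_num (hS : Supp μ R) {g : Euc n → ℝ} (hg : Continuous g) (θ : Euc n) :
    HasFDerivAt (fun θ => ∫ x, wt T θ x * g x ∂μ)
      (innerSL ℝ (∫ x, wt T θ x • (g x • x) ∂μ)) θ := by
  set F' : Euc n → Euc n → (Euc n →L[ℝ] ℝ) := fun θ x => innerSL ℝ (wt T θ x • (g x • x)) with hF'
  have hc : Continuous (Function.uncurry F') :=
    (innerSL ℝ).continuous.comp ((continuous_wt T).smul ((hg.comp continuous_snd).smul continuous_snd))
  obtain ⟨C, hC⟩ := ((isCompact_closedBall θ 1).prod (isCompact_closedBall (0 : Euc n) R)).exists_bound_of_continuousOn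
    hc.continuousOn
  have hd : ∀ x θ', HasFDerivAt (fun θ => wt T θ x * g x) (F' θ' x) θ' := fun x θ' => by
    have h1 : HasFDerivAt (fun θ : Euc n => ⟪θ, x⟫ - T / 2 * ‖x‖ ^ 2) (innerSL ℝ x) θ' := by
      have : HasFDerivAt (fun θ : Euc n => ⟪θ, x⟫) (innerSL ℝ x) θ' := by
        have h := (innerSL ℝ x).hasFDerivAt (x := θ')
        simpa [innerSL_apply_apply, real_inner_comm] using! h
      exact this.sub_const _
    have h2 := h1.exp.mul_const (g x)
    convert! h2 using 1
    simp [hF', wt, smul_smul, mul_comm]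
  have := hasFDerivAt_integral_of_dominated_of_fderiv_le (μ := μ) (F := fun θ x => wt T θ x * g x)
    (F' := F') (bound := fun _ => C) (s := Metric.ball θ 1) (Metric.ball_mem_nhds θ one_pos)
    (Eventually.of_forall fun θ' => ((continuous_wt_snd T θ').mul hg).aestronglyMeasurable)
    (hS.integrable ((continuous_wt_snd T θ).mul hg))
    ((hc.comp (Continuous.prodMk_right θ)).aestronglyMeasurable)
    (hS.mono fun x hx θ' hθ' => hC (θ', x) ⟨Metric.ball_subset_closedBall hθ', by simpa using hx⟩)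
    (integrable_const C) (Eventually.of_forall fun x θ' _ => hd x θ')
  rwa [hF', ContinuousLinearMap.integral_comp_comm (innerSL ℝ) (hS.integrable (by fun_prop))] at this

lemma hasFDerivAt_zf (hS : Supp μ R) (θ : Euc n) :
    HasFDerivAt (zf T μ) (innerSL ℝ (∫ x, wt T θ x • x ∂μ)) θ := by
  have h := hasFDerivAt_num (T := T) hS (g := fun _ => (1 : ℝ)) continuous_const θ
  simpa [zf] using! h

lemma hasFDerivAt_lam (hS : Supp μ R) (θ : Euc n) :
    HasFDerivAt (lam T μ) (innerSL ℝ (bary T μ θ)) θ := by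
  have h := (hasFDerivAt_zf (T := T) hS θ).log (zf_pos hS θ).ne'
  rw [bary, integral_fib, map_smul]
  simpa [lam] using! h

lemma hasFDerivAt_av (hS : Supp μ R) {g : Euc n → ℝ} (hg : Continuous g) (θ : Euc n) :
    HasFDerivAt (av T μ g) (innerSL ℝ (cov T μ g θ)) θ := by
  have e : av T μ g = fun θ => (∫ x, wt T θ x * g x ∂μ) * (zf T μ θ)⁻¹ := funext fun θ => by
    rw [av_eq, div_eq_mul_inv]
  have hz := zf_pos (T := T) hS θ
  have hinv := (hasDerivAt_inv hz.ne').comp_hasFDerivAt θ (hasFDerivAt_zf (T := T) hS θ)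
  have h : HasFDerivAt (fun θ => (∫ x, wt T θ x * g x ∂μ) * (zf T μ θ)⁻¹) _ θ :=
    (hasFDerivAt_num hS hg θ).mul hinv
  rw [e]
  convert! h using 1
  rw [cov, integral_fib, bary, integral_fib, av_eq, map_sub, map_smul, map_smul, map_smul]
  simp only [smul_smul, sub_eq_neg_add, ← neg_smul]
  congr 2
  field_simp

lemma abs_av_le (hS : Supp μ R) {g : Euc n → ℝ} {B : ℝ} (hb : ∀ x, ‖x‖ ≤ R → |g x| ≤ B) (θ : Euc n) :
    |av T μ g θ| ≤ B := by
  have := isProb_fib (T := T) hS θ
  simpa [av] using! norm_integral_le_of_norm_le_const (μ := fib T μ θ) (f := g) (C := B)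
    ((supp_fib hS θ).mono fun x hx => hb x hx)

lemma norm_bary_le (hS : Supp μ R) (θ : Euc n) : ‖bary T μ θ‖ ≤ R := by
  have := isProb_fib (T := T) hS θ
  simpa [bary] using! norm_integral_le_of_norm_le_const (μ := fib T μ θ) (f := fun x => x) (C := R)
    (supp_fib hS θ)

lemma norm_cov_le (hS : Supp μ R) (hR : 0 ≤ R) {g : Euc n → ℝ} {B : ℝ}
    (hb : ∀ x, ‖x‖ ≤ R → |g x| ≤ B) (θ : Euc n) : ‖cov T μ g θ‖ ≤ 2 * B * R := by
  have := isProb_fib (T := T) hS θ
  have hB : 0 ≤ B := (abs_nonneg _).trans (hb 0 (by simpa using hR))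
  have h1 : ‖∫ x, g x • x ∂(fib T μ θ)‖ ≤ B * R := by
    simpa using! norm_integral_le_of_norm_le_const (μ := fib T μ θ) (f := fun x => g x • x) (C := B * R)
      ((supp_fib hS θ).mono fun x hx => by
        rw [norm_smul]; exact mul_le_mul (hb x hx) hx (norm_nonneg _) hB)
  have h2 : ‖av T μ g θ • bary T μ θ‖ ≤ B * R := by
    rw [norm_smul]; exact mul_le_mul (abs_av_le hS hb θ) (norm_bary_le hS θ) (norm_nonneg _) hB
  exact (norm_sub_le _ _).trans (by linarith)

lemma av_pos (hS : Supp μ R) {g : Euc n → ℝ} (hg : Continuous g) (hpos : ∀ x, 0 < g x) (θ : Euc n) :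
    0 < av T μ g θ := by
  have := isProb_fib (T := T) hS θ
  rw [av, integral_pos_iff_support_of_nonneg (fun x => (hpos x).le) ((supp_fib hS θ).integrable hg)]
  have : Function.support g = univ := eq_univ_of_forall fun x => (hpos x).ne'
  simp [this]

lemma av_const (hS : Supp μ R) (c : ℝ) (θ : Euc n) : av T μ (fun _ => c) θ = c := by
  have := isProb_fib (T := T) hS θ
  simp [av]

lemma exp_lam_shift (hS : Supp μ R) (θ δ : Euc n) :
    ∫ x, exp ⟪δ, x⟫ ∂(fib T μ θ) = exp (lam T μ (θ + δ) - lam T μ θ) := by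
  have hp := zf_pos (T := T) hS θ
  have hp' := zf_pos (T := T) hS (θ + δ)
  rw [integral_fib, lam, lam, exp_sub, exp_log hp', exp_log hp, smul_eq_mul, div_eq_inv_mul]
  congr 1
  refine integral_congr_ae (Eventually.of_forall fun x => ?_)
  simp only [wt, smul_eq_mul, ← exp_add, inner_add_left]
  ring_nf

lemma inner_bary (hS : Supp μ R) (θ δ : Euc n) :
    ∫ x, ⟪δ, x⟫ ∂(fib T μ θ) = ⟪δ, bary T μ θ⟫ := by
  have := isProb_fib (T := T) hS θ
  rw [bary, ← integral_inner (f := fun x : Euc n => x) ((supp_fib hS θ).integrable (by fun_prop))]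

lemma lam_lower (hS : Supp μ R) (θ δ : Euc n) :
    lam T μ θ + ⟪bary T μ θ, δ⟫ ≤ lam T μ (θ + δ) := by
  have := isProb_fib (T := T) hS θ
  have h := integral_le_log_integral_exp (μ := fib T μ θ) (φ := fun x => ⟪δ, x⟫)
    ((supp_fib hS θ).integrable (by fun_prop)) ((supp_fib hS θ).integrable (by fun_prop))
  rw [exp_lam_shift hS, log_exp, inner_bary hS, real_inner_comm] at h
  linarith

lemma lam_upper (hS : Supp μ R) (hμ : IsLC 0 μ) (hT : 0 < T) (θ δ : Euc n) :
    lam T μ (θ + δ) ≤ lam T μ θ + ⟪bary T μ θ, δ⟫ + ‖δ‖ ^ 2 / (2 * T) := by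
  have := isProb_fib (T := T) hS θ
  have h := log_integral_exp_inner_le hT (isLC_fib (T := T) hS hμ θ) (supp_fib hS θ).expInt δ
  rw [exp_lam_shift hS, log_exp, inner_bary hS, real_inner_comm] at h
  linarith

/-- Cocoercivity of the barycentre map. -/
lemma bary_cocoercive (hS : Supp μ R) (hμ : IsLC 0 μ) (hT : 0 < T) (θ δ : Euc n) :
    T / 2 * ‖bary T μ (θ + δ) - bary T μ θ‖ ^ 2
      ≤ lam T μ (θ + δ) - lam T μ θ - ⟪bary T μ θ, δ⟫ := by
  set d := bary T μ θ - bary T μ (θ + δ) with hd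
  set u := T • d with hu
  have h1 := lam_lower (T := T) hS θ (δ + u)
  have h2 := lam_upper hS hμ hT (θ + δ) u
  rw [add_assoc] at h2
  rw [inner_add_right] at h1
  have h3 : ⟪bary T μ θ, u⟫ - ⟪bary T μ (θ + δ), u⟫ = T * ‖d‖ ^ 2 := by
    rw [← inner_sub_left, ← hd, hu, inner_smul_right, real_inner_self_eq_norm_sq]
  have h4 : ‖u‖ ^ 2 / (2 * T) = T / 2 * ‖d‖ ^ 2 := by
    rw [hu, norm_smul, norm_eq_abs, abs_of_pos hT]; field_simp
  rw [norm_sub_rev, ← hd]
  linarith

end

end Vale.Agent.P245
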