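import Vale.Agent.P245.Conc

open MeasureTheory Real Filter Set
open scoped Topology RealInnerProductSpace

namespace Vale.Agent.P245

variable {n : ℕ}

lemma rpow_ev {p : ℝ} (hp : 0 < p) (C : ℝ) : ∀ᶠ n : ℕ in atTop, C ≤ (n : ℝ) ^ p :=
  ((tendsto_rpow_atTop hp).comp tendsto_natCast_atTop_atTop).eventually (eventually_ge_atTop C)

lemma err_small : ∀ᶠ n : ℕ in atTop, ∀ m : ℕ, (m : ℝ) ≤ 25 * (n : ℝ) ^ (1 / 100 : ℝ) →
    10 ^ 11 * (m : ℝ) ^ 2 * (n : ℝ) ^ 6 * (512 * n) ^ (2 * m + 1) * exp (-(n : ℝ) ^ (1 / 25 : ℝ)) ≤ 1 := by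
  have hA : 0 ≤ log (10 ^ 11 : ℝ) := log_nonneg (by norm_num)
  filter_upwards [rpow_ev (by norm_num : (0 : ℝ) < 1 / 50) (log (10 ^ 11 : ℝ) + 50 + 600 + 51 * 107),
    eventually_ge_atTop 1] with n hn hn1 m hm
  have hn' : (1 : ℝ) ≤ n := by exact_mod_cast hn1
  set L := (n : ℝ) ^ (1 / 100 : ℝ) with hL
  have hL1 : 1 ≤ L := one_le_rpow hn' (by norm_num)
  have hlog : log n ≤ 100 * L := by
    have := log_le_rpow_div (x := (n : ℝ)) (by linarith) (by norm_num : (0 : ℝ) < 1 / 100)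
    linarith [show L / (1 / 100) = 100 * L by ring]
  have hlog0 : 0 ≤ log n := log_nonneg hn'
  have e2 : (n : ℝ) ^ (1 / 50 : ℝ) = L ^ 2 := by rw [hL, ← rpow_natCast, ← rpow_mul (by linarith)]; norm_num
  have e4 : (n : ℝ) ^ (1 / 25 : ℝ) = L ^ 2 * L ^ 2 := by rw [← e2, ← rpow_add (by linarith)]; norm_num
  rw [e2] at hn
  rw [e4]
  have h512 : (512 : ℝ) * n ≤ exp (7 + log n) := by
    rw [exp_add, exp_log (by linarith)]
    refine mul_le_mul_of_nonneg_right ?_ (by linarith)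
    have h2 : (2.7 : ℝ) ≤ exp 1 := by linarith [Real.exp_one_gt_d9]
    calc (512 : ℝ) ≤ 2.7 ^ 7 := by norm_num
      _ ≤ exp 1 ^ 7 := pow_le_pow_left₀ (by norm_num) h2 7
      _ = exp 7 := by rw [← exp_nat_mul]; norm_num
  have hm2 : (m : ℝ) ^ 2 ≤ exp (2 * m) := by
    rw [two_mul, exp_add, sq]
    have := add_one_le_exp (m : ℝ)
    exact mul_le_mul (by linarith) (by linarith) m.cast_nonneg (exp_pos _).le
  have h6 : (n : ℝ) ^ 6 = exp (6 * log n) := by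
    rw [show (6 : ℝ) = ((6 : ℕ) : ℝ) by norm_num, exp_nat_mul, exp_log (by linarith)]
  have hp : ((512 : ℝ) * n) ^ (2 * m + 1) ≤ exp ((2 * m + 1 : ℕ) * (7 + log n)) := by
    rw [exp_nat_mul]; exact pow_le_pow_left₀ (by positivity) h512 _
  calc 10 ^ 11 * (m : ℝ) ^ 2 * (n : ℝ) ^ 6 * (512 * n) ^ (2 * m + 1) * exp (-(L ^ 2 * L ^ 2))
      ≤ exp (log (10 ^ 11 : ℝ)) * exp (2 * m) * exp (6 * log n) * exp ((2 * m + 1 : ℕ) * (7 + log n))
          * exp (-(L ^ 2 * L ^ 2)) := by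
        rw [exp_log (by norm_num), ← h6]
        gcongr
    _ = exp (log (10 ^ 11 : ℝ) + 2 * m + 6 * log n + (2 * m + 1 : ℕ) * (7 + log n) + -(L ^ 2 * L ^ 2)) := by
        simp only [exp_add]
    _ ≤ 1 := by
        rw [exp_le_one_iff]
        push_cast
        have h1 : (2 * (m : ℝ) + 1) * (7 + log n) ≤ (51 * L) * (107 * L) :=
          mul_le_mul (by linarith) (by linarith) (by linarith) (by positivity)
        have h2 : L ≤ L ^ 2 := by nlinarith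
        have h3 := mul_le_mul_of_nonneg_right hn (sq_nonneg L)
        have h4 := mul_nonneg hA (by nlinarith : 0 ≤ L ^ 2 - 1)
        linarith

lemma emax_le {R : ℝ} (hR2 : R ^ 2 = 64 * n) (i : ℕ) :
    emax n R i ≤ 2 * ((i + 2 : ℕ) : ℝ) ^ 2 * (n : ℝ) ^ 2 * (512 * n) ^ (2 * (i + 2) + 1) := by
  rw [emax, show (8 * R ^ 3) ^ 2 = 64 * (R ^ 2) ^ 3 by ring, hR2, show 8 * (64 * (n : ℝ)) = 512 * n by ring,
    show 2 * (i + 2) + 1 = (2 * i + 2) + 3 by ring, pow_add _ (2 * i + 2) 3]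
  have h3 : 64 * (64 * (n : ℝ)) ^ 3 ≤ (512 * n) ^ 3 := by
    rw [mul_pow, mul_pow]
    linarith [pow_nonneg (n.cast_nonneg : (0 : ℝ) ≤ n) 3]
  have hQ : 0 ≤ ((512 : ℝ) * n) ^ (2 * i + 2) := by positivity
  generalize ((512 : ℝ) * n) ^ (2 * i + 2) = Q at *
  have h4 := mul_le_mul_of_nonneg_left h3 (by positivity : 0 ≤ 2 * ((i + 2 : ℕ) : ℝ) ^ 2 * (n : ℝ) ^ 2 * Q)
  refine le_trans (le_of_eq ?_) (h4.trans (le_of_eq ?_)) <;> push_cast <;> ring

lemma err_arith {ν τ T X Em : ℝ} {m : ℕ} (hν : 1 ≤ ν) (hT : 0 < T) (hTτ : 2 * T ≤ τ) (hT1 : T ≤ 1)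
    (hτn : 1 / τ ≤ 10000 * ν ^ 2) (hX : 0 ≤ X)
    (hem : Em ≤ 2 * (m : ℝ) ^ 2 * ν ^ 2 * (512 * ν) ^ (2 * m + 1)) (hem0 : 0 ≤ Em) :
    24 * (m : ℝ) ^ 2 * (8 / τ * T ^ 2 + T) * (2 * ν * (512 * ν) ^ (2 * m) + ν)
        * ((18 * (64 * ν) + 4 / (τ - T)) * (16 * (64 * ν)) * X)
        + 2 * ((18 * (64 * ν) + 4 / τ) * X) * T ^ 2 * (ν ^ 2 * Em)
      ≤ 10 ^ 11 * (m : ℝ) ^ 2 * ν ^ 6 * (512 * ν) ^ (2 * m + 1) * X := by
  have hτ : 0 < τ := by linarith
  have hσ : 0 < τ - T := by linarith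
  rw [pow_succ (512 * ν) (2 * m)] at hem ⊢
  have hP1 : 1 ≤ (512 * ν) ^ (2 * m) := one_le_pow₀ (by linarith)
  generalize (512 * ν) ^ (2 * m) = P at *
  have hTτ1 : T / τ ≤ 1 / 2 := by rw [div_le_iff₀ hτ]; linarith
  have a1 : 8 / τ * T ^ 2 + T ≤ 5 := by
    have h := mul_le_mul_of_nonneg_left hTτ1 (by linarith : 0 ≤ 8 * T)
    have e : 8 / τ * T ^ 2 = 8 * T * (T / τ) := by ring
    linarith
  have hn3 : ν ≤ ν ^ 2 := le_self_pow₀ hν (by norm_num)
  have a2 : 18 * (64 * ν) + 4 / (τ - T) ≤ 82000 * ν ^ 2 := by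
    have : 4 / (τ - T) ≤ 8 * (1 / τ) := by
      rw [mul_one_div, div_le_div_iff₀ hσ hτ]; linarith
    linarith
  have a3 : 18 * (64 * ν) + 4 / τ ≤ 42000 * ν ^ 2 := by
    have : 4 / τ = 4 * (1 / τ) := by ring
    linarith
  have a4 : 2 * ν * P + ν ≤ 3 * ν * P := by
    linarith [le_mul_of_one_le_right (by linarith : 0 ≤ ν) hP1]
  have hT2 : T ^ 2 ≤ 1 := pow_le_one₀ hT.le hT1
  calc _ ≤ 24 * (m : ℝ) ^ 2 * 5 * (3 * ν * P) * (82000 * ν ^ 2 * (16 * (64 * ν)) * X)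
        + 2 * (42000 * ν ^ 2 * X) * 1 * (ν ^ 2 * (2 * (m : ℝ) ^ 2 * ν ^ 2 * (P * (512 * ν)))) := by
        gcongr
    _ = 30228480000 * ((m : ℝ) ^ 2 * P * X) * ν ^ 4 + 86016000 * ((m : ℝ) ^ 2 * P * X) * ν ^ 7 := by ring
    _ ≤ 51200000000000 * ((m : ℝ) ^ 2 * P * X) * ν ^ 7 := by
        have h5 : 0 ≤ (m : ℝ) ^ 2 * P * X := mul_nonneg (mul_nonneg (sq_nonneg _) (by linarith)) hX
        have h7 := mul_le_mul_of_nonneg_left (pow_le_pow_right₀ hν (by norm_num : 4 ≤ 7)) h5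
        have h8 := mul_nonneg h5 (pow_nonneg (by linarith : 0 ≤ ν) 7)
        linarith
    _ = _ := by ring

/-- A log-concave subgaussian measure on the ball of radius `8 √n`. -/
structure Setup (μ : Measure (Euc n)) (R : ℝ) : Prop where
  one_le : 1 ≤ n
  rad : R = 8 * √n
  supp : Supp μ R
  lc : IsLC 0 μ
  sub : Sub3 μ

section

variable {μ : Measure (Euc n)} [IsProbabilityMeasure μ] {R : ℝ}

lemma Setup.rad_pos (h : Setup μ R) : 0 < R := by
  rw [h.rad]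
  have : (0 : ℝ) < n := by exact_mod_cast h.one_le
  positivity

lemma Setup.rad_sq (h : Setup μ R) : R ^ 2 = 64 * n := by
  rw [h.rad, mul_pow, Real.sq_sqrt n.cast_nonneg]; norm_num

lemma fisi_of_lsi {L : ℝ} (hS : Supp μ R)
    (h : ∀ {f : Euc n → ℝ} {f' : Euc n → Euc n}, D1 f f' → ent μ (fun x => f x ^ 2) ≤ L * ∫ x, ‖f' x‖ ^ 2 ∂μ) :
    Fisi μ (L / 4) := by
  intro g g' hg
  have hd : D1 (fun x => √(g x)) (fun x => (1 / (2 * √(g x))) • g' x) := by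
    refine ⟨fun x => ?_, (Continuous.div continuous_const (hg.cont.sqrt.const_mul 2) fun x => ?_).smul hg.cont'⟩
    · refine ((hg.deriv x).sqrt (hg.pos x).ne').congr_fderiv ?_
      rw [map_smul]
    · have := hg.pos x; positivity
  have e1 : (fun x => √(g x) ^ 2) = g := funext fun x => Real.sq_sqrt (hg.pos x).le
  have e2 : ∀ x, ‖(1 / (2 * √(g x))) • g' x‖ ^ 2 = 1 / 4 * fis g g' x := fun x => by
    have := hg.pos x
    rw [norm_smul, mul_pow, norm_eq_abs, sq_abs, div_pow, mul_pow, Real.sq_sqrt this.le, fis]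
    field_simp; ring
  have h1 := h hd
  rw [e1, integral_congr_ae (Eventually.of_forall e2), integral_const_mul] at h1
  linarith

lemma fisi_cube (h : Setup μ R) : Fisi μ (640000000 * (n : ℝ) ^ (1 / 3 : ℝ)) := by
  have h1 := fisi_of_lsi (L := 320000000 * 8 * (n : ℝ) ^ (1 / 3 : ℝ)) h.supp
    fun hf => lsi_ball (μ := μ) h.one_le (ρ := 8) (by norm_num) h.rad h.supp h.lc h.sub hf
  refine fun g g' hg => (h1 g g' hg).trans (le_of_eq ?_)
  ring

lemma continuous_step (hS : Supp μ R) (t σ : ℝ) {h : Euc n → ℝ} (hh : Continuous h) {B : ℝ} (hB : ∀ z, |h z| ≤ B) :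
    Continuous (fun θ => ∫ y, ∫ G, h (θ + pt (√σ) y G) ∂(gam n) ∂(fib t μ θ)) ∧
      ∀ θ, |∫ y, ∫ G, h (θ + pt (√σ) y G) ∂(gam n) ∂(fib t μ θ)| ≤ B :=
  ⟨continuous_fib_integral (F := fun θ y => ∫ G, h (θ + pt (√σ) y G) ∂(gam n)) hS
    (continuous_gint (H := fun (p : Euc n × Euc n) G => h (p.1 + pt (√σ) p.2 G))
      (hh.comp (by unfold pt; fun_prop)) fun _ _ => hB _),
    fun θ => abs_av_le hS (g := fun y => ∫ G, h (θ + pt (√σ) y G) ∂(gam n)) (fun _ _ => abs_gint_le fun _ => hB _) θ⟩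

lemma norm_Aop_zero_le (hS : Supp μ R) (hsub : Sub3 μ) (m : ℕ) : strace 0 μ m 0 ≤ n * 4 ^ m := by
  obtain ⟨f, l, he⟩ := (symOp_Aop (t := 0) hS (0 : Euc n)).exists_eigen
  rw [strace, frob_pow he]
  refine (Finset.sum_le_sum fun k _ => ?_).trans (le_of_eq (by simp : ∑ _k : Fin n, (4 : ℝ) ^ m = n * 4 ^ m))
  have h0 := eig_Aop_nonneg hS 0 he k
  have h2 : l k ≤ 2 := by
    have e : aent 0 μ 0 (f k) (f k) = l k := by
      rw [← inner_Aop hS, he, inner_smul_right, real_inner_self_eq_norm_sq, f.orthonormal.1 k]; simp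
    rw [← e]
    refine le_trans ?_ (integral_inner_sq_le hS hsub (f.orthonormal.1 k))
    have h := var_le_center hS (g := fun y => ⟪f k, y⟫) (by fun_prop) 0
    simp only [sub_zero] at h
    refine le_trans (le_of_eq ?_) h
    have hb : ∫ y, ⟪f k, y⟫ ∂μ = ⟪f k, bary 0 μ 0⟫ := by
      have := inner_bary (T := 0) hS 0 (f k)
      rwa [fib_zero] at this
    simp only [aent, cen, fib_zero, hb, inner_sub_right, sq]
  rw [pow_mul]
  exact pow_le_pow_left₀ (sq_nonneg _) (by nlinarith) m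

/-- First stage: the matrix moment at a short time from a defective Poincaré inequality. -/
lemma stage_one (h : Setup μ R) {τ T : ℝ} (hT : 0 < T) (hTτ : 2 * T ≤ τ) (hT1 : T ≤ 1)
    (hτn : 1 / τ ≤ 10000 * (n : ℝ) ^ 2) {i : ℕ} (hodd : Odd (i + 2))
    (hδ : 48 * ((i : ℝ) + 2) ^ 2 * (16 / τ) * (8 / τ * T ^ 2 + T) * (1 + 4 ^ (i + 2)) ≤ 1 / 2) :
    elaw T μ (strace T μ (i + 2)) ≤ 4 ^ (i + 2) * (2 * ((n : ℝ) * 4 ^ (i + 2))
      + 2 * (10 ^ 11 * ((i + 2 : ℕ) : ℝ) ^ 2 * (n : ℝ) ^ 6 * (512 * n) ^ (2 * (i + 2) + 1) * elaw τ μ (xi τ μ))) := by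
  have hR := h.rad_pos
  have hR2 := h.rad_sq
  obtain ⟨hn1, -, hS, hμ, hsub⟩ := h
  have hn : (1 : ℝ) ≤ n := by exact_mod_cast hn1
  have hτ : 0 < τ := by linarith
  set X := elaw τ μ (xi τ μ) with hX
  have hX0 : 0 ≤ X := elaw_xi_nonneg τ
  have hP : Poin (fib 0 μ 0) R (8 / τ) ((18 * R ^ 2 + 4 / τ) * X) := by
    rw [fib_zero]
    have := poin_defect (ν := μ) hS hR hμ (Real.sqrt_pos.2 hτ) (continuous_xi hS τ) (xi_nonneg τ) (xi_le_one τ)
      fun z v hv => by rw [Real.sq_sqrt hτ.le]; exact aent_le_xi hS hR.le hμ hτ le_rfl z v hv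
    rw [Real.sq_sqrt hτ.le] at this
    exact this
  set σ := τ - T with hσdef
  have hσ : 0 < σ := by rw [hσdef]; linarith
  have hTσ : T + σ = τ := by rw [hσdef]; ring
  set I := fun θ => ∫ y, ∫ G, xi τ μ (θ + pt (√σ) y G) ∂(gam n) ∂(fib T μ θ) with hI
  obtain ⟨hIc, hIb⟩ := continuous_step hS T σ (continuous_xi hS τ) (abs_xi_le (μ := μ) τ)
  have hI0 : ∀ θ, 0 ≤ I θ := fun θ => integral_nonneg fun y => integral_nonneg fun G => xi_nonneg τ _
  set c := (18 * R ^ 2 + 4 / σ) * (16 * R ^ 2) with hc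
  have hc0 : 0 ≤ c := by positivity
  have hE : ∀ θ, Poin (fib T μ θ) R (16 / τ) ((18 * R ^ 2 + 4 / σ) * I θ) := fun θ => by
    have := isProb_fib (T := T) hS θ
    have h1 := poin_defect (ν := fib T μ θ) (supp_fib hS θ) hR ((isLC_fib (T := T) hS hμ θ).weaken hT.le)
      (Real.sqrt_pos.2 hσ) (ξ := fun z => xi τ μ (θ + z)) ((continuous_xi hS τ).comp (by fun_prop))
      (fun z => xi_nonneg τ _) (fun z => xi_le_one τ _) fun z v hv => by
        rw [Real.sq_sqrt hσ.le, aent_fib hS, hTσ]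
        exact aent_le_xi hS hR.le hμ hσ (by linarith) _ v hv
    rw [Real.sq_sqrt hσ.le] at h1
    refine h1.mono ?_
    rw [div_le_div_iff₀ hσ hτ]; rw [hσdef]; linarith
  have h1 := moment_step hS hR.le (t := 0) hT.le (0 : Euc n) hodd (V := 16 / τ) (by positivity)
    (by positivity) (by positivity) hP (E := fun θ => c * I θ) (hIc.const_mul c)
    (fun θ => mul_nonneg hc0 (hI0 θ)) (Eb := c * 1) (fun θ => mul_le_mul_of_nonneg_left ((le_abs_self _).trans (hIb θ)) hc0)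
    (fun θ u => by
      rw [zero_add]
      have := sw_sq_le hS θ u (mul_nonneg (by positivity) (hI0 θ)) (hE θ)
      rw [show (18 * R ^ 2 + 4 / σ) * I θ * (16 * R ^ 2) = c * I θ by rw [hc]; ring] at this
      exact this) hδ
  simp only [fib_zero, zero_add] at h1
  have h2 : ∫ x, ∫ G, c * I (pt (√T) x G) ∂(gam n) ∂μ = c * X := by
    have e := elaw_affine (t := T) hS hIc hIb c 0
    simp only [add_zero] at e
    rw [hX, ← hTσ, elaw_comp hS hT.le hσ.le (continuous_xi hS _) (abs_xi_le (μ := μ) _), hTσ]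
    exact e
  rw [h2] at h1
  refine h1.trans (mul_le_mul_of_nonneg_left (add_le_add
    (mul_le_mul_of_nonneg_left (norm_Aop_zero_le hS hsub _) (by norm_num)) (mul_le_mul_of_nonneg_left ?_ (by norm_num)))
    (by positivity))
  rw [show ((i : ℝ) + 2) = ((i + 2 : ℕ) : ℝ) by push_cast; ring, hc, hR2,
    show 8 * (64 * (n : ℝ)) = 512 * n by ring]
  exact err_arith hn hT hTτ hT1 hτn hX0 (emax_le hR2 i) (by rw [emax]; positivity)

lemma step_lin (h : Setup μ R) {s η : ℝ} (hs : 0 < s) (hη : 0 ≤ η) {i : ℕ} (hodd : Odd (i + 2))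
    (hsmall : 48 * ((i : ℝ) + 2) ^ 2 * (1 + 4 ^ (i + 2)) * η ≤ s / 2) :
    elaw (s + η) μ (strace (s + η) μ (i + 2)) ≤ 2 * 4 ^ (i + 2) * elaw s μ (strace s μ (i + 2)) := by
  have hR := h.rad_pos
  obtain ⟨-, -, hS, hμ, -⟩ := h
  have hb : ∀ t θ, |strace t μ (i + 2) θ| ≤ n * (4 * R ^ 2) ^ (2 * (i + 2)) := fun t θ => by
    rw [abs_of_nonneg (strace_nonneg _ _ _)]; exact strace_le hS _ _ _
  obtain ⟨hc, hcb⟩ := continuous_step hS s η (continuous_strace hS (s + η) (i + 2)) (hb (s + η))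
  rw [elaw_comp hS hs.le hη (continuous_strace hS _ _) (hb _)]
  have hpt : ∀ θ, ∫ y, ∫ G, strace (s + η) μ (i + 2) (θ + pt (√η) y G) ∂(gam n) ∂(fib s μ θ)
      ≤ 2 * 4 ^ (i + 2) * strace s μ (i + 2) θ + 0 := fun θ => by
    have := isProb_fib (T := s) hS θ
    have hP := poin_slc hs (isLC_fib (T := s) hS hμ θ) (supp_fib hS θ) hR.le
    have h1 := moment_step hS hR.le hη θ hodd (V := 1 / (s + η)) (by positivity) le_rfl (by positivity) hP
      (E := fun _ => 0) continuous_const (fun _ => le_rfl) (Eb := 0) (fun _ => le_rfl)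
      (fun z u => by
        have := isProb_fib (T := s + η) hS z
        have := sw_sq_le (t := s + η) hS z u (le_refl 0)
          (poin_slc (by linarith) (isLC_fib (T := s + η) hS hμ z) (supp_fib hS z) hR.le)
        simpa using this)
      (by
        have e : 48 * ((i : ℝ) + 2) ^ 2 * (1 / (s + η)) * (1 / s * η ^ 2 + η) * (1 + 4 ^ (i + 2))
            = 48 * ((i : ℝ) + 2) ^ 2 * (1 + 4 ^ (i + 2)) * η / s := by field_simp; ring
        rw [e, div_le_iff₀ hs]; linarith)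
    simp only [integral_zero, mul_zero, zero_mul, add_zero] at h1
    linarith
  refine (elaw_mono hS (h₂ := fun θ => 2 * 4 ^ (i + 2) * strace s μ (i + 2) θ + 0) hc
    (((continuous_strace hS s _).const_mul _).add continuous_const) hcb
    (B₂ := 2 * 4 ^ (i + 2) * (n * (4 * R ^ 2) ^ (2 * (i + 2)))) (fun θ => ?_) hpt).trans (le_of_eq ?_)
  · rw [add_zero, abs_mul, abs_of_nonneg (by positivity)]
    exact mul_le_mul_of_nonneg_left (hb s θ) (by positivity)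
  · rw [elaw_affine hS (continuous_strace hS s _) (hb s), add_zero]

lemma step_iter (h : Setup μ R) {s η : ℝ} (hs : 0 < s) (hη : 0 ≤ η) {i : ℕ} (hodd : Odd (i + 2))
    (hsmall : 48 * ((i : ℝ) + 2) ^ 2 * (1 + 4 ^ (i + 2)) * η ≤ s / 2) (k : ℕ) :
    elaw (s + k * η) μ (strace (s + k * η) μ (i + 2))
      ≤ (2 * 4 ^ (i + 2)) ^ k * elaw s μ (strace s μ (i + 2)) := by
  induction k with
  | zero => simp
  | succ k ih =>
    have h0 : 0 ≤ (k : ℝ) * η := by positivity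
    have h1 := step_lin h (s := s + k * η) (by linarith) hη hodd (by linarith)
    rw [show s + k * η + η = s + ((k + 1 : ℕ) : ℝ) * η by push_cast; ring] at h1
    refine h1.trans ((mul_le_mul_of_nonneg_left ih (by positivity)).trans (le_of_eq ?_))
    rw [pow_succ]; ring

lemma xi_base (h : Setup μ R) {τ : ℝ} (hτn : τ ≤ 1 / (5000 * (n : ℝ) ^ 2)) (z : Euc n) : xi τ μ z = 0 := by
  have hn : (1 : ℝ) ≤ n := by exact_mod_cast h.one_le
  have h1 : (phi τ μ 21 z ^ 2)⁻¹ ≤ 257 * (n : ℝ) ^ 2 := by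
    rw [← phi_inv_sq τ (by norm_num)]
    have hb := strace_le (μ := μ) h.supp τ 21 z
    rw [h.rad_sq] at hb
    have h2 : (1 : ℝ) + n * (4 * (64 * n)) ^ (2 * 21) ≤ (257 * (n : ℝ) ^ 2) ^ 42 := by
      have h3 : (n : ℝ) * n ^ 42 ≤ (n : ℝ) ^ 84 := by
        rw [← pow_succ']; exact pow_le_pow_right₀ hn (by norm_num)
      have h4 : (1 : ℝ) ≤ (n : ℝ) ^ 84 := one_le_pow₀ hn
      calc (1 : ℝ) + n * (4 * (64 * n)) ^ (2 * 21) = 1 + 256 ^ 42 * ((n : ℝ) * n ^ 42) := by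
            rw [← mul_assoc (4 : ℝ), mul_pow]; norm_num; ring
        _ ≤ 1 * (n : ℝ) ^ 84 + 256 ^ 42 * (n : ℝ) ^ 84 := by gcongr; linarith
        _ = (1 + 256 ^ 42) * (n : ℝ) ^ 84 := by ring
        _ ≤ 257 ^ 42 * (n : ℝ) ^ 84 := mul_le_mul_of_nonneg_right (by norm_num) (by positivity)
        _ = _ := by rw [mul_pow, ← pow_mul]
    have h5 : 1 + strace τ μ 21 z ≤ (257 * (n : ℝ) ^ 2) ^ 42 := by linarith
    refine (rpow_le_rpow (by linarith [strace_nonneg (μ := μ) τ 21 z]) h5 (by norm_num)).trans (le_of_eq ?_)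
    rw [← rpow_natCast, ← rpow_mul (by positivity)]
    norm_num
  rw [xi, max_eq_left]
  refine (min_le_right _ _).trans ?_
  rcases le_or_gt τ 0 with hτ | hτ
  · have : 0 ≤ (phi τ μ 21 z ^ 2)⁻¹ := by positivity
    nlinarith
  rw [le_div_iff₀ (by positivity)] at hτn
  nlinarith [mul_le_mul_of_nonneg_left h1 (by positivity : 0 ≤ 16 * τ)]

end

/-- The fibre covariance at times up to `n^(-1/5)` is of typical size, with stretched exponential probability. -/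
lemma xi_small : ∀ᶠ n : ℕ in atTop, ∀ (μ : Measure (Euc n)) (R : ℝ), IsProbabilityMeasure μ → Setup μ R →
    ∀ τ : ℝ, 0 < τ → τ ≤ (n : ℝ) ^ (-(1 / 5) : ℝ) → elaw τ μ (xi τ μ) ≤ exp (-(n : ℝ) ^ (1 / 25 : ℝ)) := by
  obtain ⟨N, hN⟩ := exists_nat_ge (4 * (48 * 441 * (1 + 4 ^ 21)) * 10 ^ 19 : ℝ)
  have hN0 : (0 : ℝ) < N := lt_of_lt_of_le (by norm_num) hN
  obtain ⟨Γ, hΓ⟩ : ∃ Γ : ℝ, Γ = (2 * 4 ^ 21) ^ N * (4 ^ 21 * (2 * 4 ^ 21 + 2)) := ⟨_, rfl⟩
  have hΓ0 : 0 ≤ Γ := by rw [hΓ]; exact mul_nonneg (pow_nonneg (by norm_num) _) (by norm_num)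
  set a := (1 + Γ) ^ (-(1 / 84) : ℝ) with ha
  have ha0 : 0 < a := rpow_pos_of_pos (by linarith) _
  set W := (5625 : ℝ) * (640000000 + 1) with hW
  filter_upwards [err_small, eventually_ge_atTop 1,
    rpow_ev (by norm_num : (0 : ℝ) < 1 / 10 - 1 / 84) (8 / a),
    rpow_ev (by norm_num : (0 : ℝ) < 1 / 15 - 1 / 42 - 1 / 25) (16 * W / a ^ 2)]
    with n herr hn1 hA hB μ R _ h τ hτ0 hτ
  have hn : (1 : ℝ) ≤ n := by exact_mod_cast hn1
  have hn0 : (0 : ℝ) < n := by linarith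
  suffices H : ∀ k : ℕ, ∀ τ, 0 < τ → τ ≤ (n : ℝ) ^ (-(1 / 5) : ℝ) → τ ≤ 2 ^ k / (5000 * (n : ℝ) ^ 2) →
      elaw τ μ (xi τ μ) ≤ exp (-(n : ℝ) ^ (1 / 25 : ℝ)) by
    obtain ⟨k, hk⟩ := pow_unbounded_of_one_lt (5000 * (n : ℝ) ^ 2) (by norm_num : (1 : ℝ) < 2)
    refine H k τ hτ0 hτ (hτ.trans ?_)
    rw [le_div_iff₀ (by positivity)]
    refine le_trans ?_ hk.le
    exact mul_le_of_le_one_left (by positivity) (rpow_le_one_of_one_le_of_nonpos hn (by norm_num))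
  intro k
  induction k with
  | zero =>
    intro τ _ _ hτb
    rw [pow_zero] at hτb
    have e : xi τ μ = fun _ => 0 := funext (xi_base h hτb)
    rw [e, elaw_const]
    exact (exp_pos _).le
  | succ k ih =>
    intro τ₂ hτ₂ hτ5 hτb
    rcases le_or_gt τ₂ (2 ^ k / (5000 * (n : ℝ) ^ 2)) with hle | hgt
    · exact ih τ₂ hτ₂ hτ5 hle
    set τ := τ₂ / 2 with hτdef
    have hτ0 : 0 < τ := by positivity
    have hτ2 : τ₂ = 2 * τ := by rw [hτdef]; ring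
    have hτk : τ ≤ 2 ^ k / (5000 * (n : ℝ) ^ 2) := by
      rw [pow_succ] at hτb; rw [hτdef, div_le_iff₀ (by norm_num : (0:ℝ) < 2)]
      exact hτb.trans (le_of_eq (by ring))
    have hX := ih τ hτ0 (by linarith) hτk
    have hτn : 1 / τ ≤ 10000 * (n : ℝ) ^ 2 := by
      have h1 : 1 / (10000 * (n : ℝ) ^ 2) ≤ τ := by
        have h2 : 1 / (5000 * (n : ℝ) ^ 2) ≤ 2 ^ k / (5000 * (n : ℝ) ^ 2) := by
          gcongr; exact one_le_pow₀ (by norm_num)
        rw [hτdef, show 1 / (10000 * (n : ℝ) ^ 2) = (1 / (5000 * (n : ℝ) ^ 2)) / 2 by ring]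
        linarith
      rw [one_div_le hτ0 (by positivity)]; exact h1
    have hτ1 : τ₂ ≤ 1 := hτ5.trans (rpow_le_one_of_one_le_of_nonpos hn (by norm_num))
    set T := τ / 10 ^ 19 with hT
    have hT0 : 0 < T := by positivity
    have hTτ : 2 * T ≤ τ := by rw [hT]; linarith
    have hS1 := stage_one h hT0 hTτ (by linarith) hτn (i := 19) ⟨10, by norm_num⟩ (by
      rw [hT]; field_simp; norm_num)
    have hE21 : (((19 + 2 : ℕ)) : ℝ) ≤ 25 * (n : ℝ) ^ (1 / 100 : ℝ) := by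
      have := one_le_rpow hn (by norm_num : (0 : ℝ) ≤ 1 / 100)
      push_cast; linarith
    have he := (mul_le_mul_of_nonneg_left hX (by positivity)).trans (herr (19 + 2) hE21)
    have hS2 : elaw T μ (strace T μ 21) ≤ 4 ^ 21 * (2 * 4 ^ 21 + 2) * n := by
      refine le_trans hS1 (le_trans (mul_le_mul_of_nonneg_left
        (add_le_add le_rfl (mul_le_mul_of_nonneg_left he (by norm_num))) (by positivity)) ?_)
      norm_num; linarith
    set η := (τ₂ - T) / N with hη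
    have hη0 : 0 ≤ η := by rw [hη]; exact div_nonneg (by linarith) hN0.le
    have hS3 := step_iter h hT0 hη0 (i := 19) ⟨10, by norm_num⟩ (by
      have h1 : η * N = τ₂ - T := div_mul_cancel₀ _ hN0.ne'
      have h2 := mul_le_mul_of_nonneg_left hN hη0
      rw [hT] at h1 ⊢
      norm_num at h2 ⊢
      linarith) N
    have hTe : T + N * η = τ₂ := by rw [hη, mul_div_cancel₀ _ hN0.ne']; ring
    rw [hTe] at hS3
    have hS4 : elaw τ₂ μ (strace τ₂ μ 21) ≤ Γ * n := by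
      refine hS3.trans ?_
      rw [hΓ, mul_assoc]
      exact mul_le_mul_of_nonneg_left hS2 (pow_nonneg (by norm_num) _)
    have hmean := mean_phi_ge h.supp τ₂ (m := 21) (Q := (1 + Γ) * n) (by linarith)
    rw [mul_rpow (by linarith) hn0.le, show -(1 / (4 * ((21 : ℕ) : ℝ))) = (-(1 / 84) : ℝ) by norm_num, ← ha] at hmean
    set u := (n : ℝ) ^ (1 / 15 : ℝ) with hu
    set v := (n : ℝ) ^ (-(1 / 84) : ℝ) with hv
    have hu0 : 0 < u := by positivity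
    have hv0 : 0 < v := by positivity
    set M := a * v with hM
    have hW0 : 0 < W := by positivity
    set l := M * u / (4 * W) with hl
    have hl0 : 0 ≤ l := by positivity
    have hxi := elaw_xi_le h.supp h.lc (K := 640000000 * (n : ℝ) ^ (1 / 3 : ℝ)) (by positivity) (fisi_cube h)
      hτ₂.le hl0
    refine hxi.trans (exp_le_exp.2 ?_)
    have h5 : (n : ℝ) ^ (1 / 3 : ℝ) * τ₂ ^ 2 ≤ u⁻¹ := by
      have h51 : τ₂ ^ 2 ≤ ((n : ℝ) ^ (-(1 / 5) : ℝ)) ^ 2 := pow_le_pow_left₀ hτ₂.le hτ5 2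
      refine (mul_le_mul_of_nonneg_left h51 (by positivity)).trans (le_of_eq ?_)
      rw [hu, ← rpow_natCast, ← rpow_mul hn0.le, ← rpow_add hn0, ← rpow_neg hn0.le]
      norm_num
    have h6 : τ₂ ≤ u⁻¹ := by
      refine hτ5.trans ?_
      rw [hu, ← rpow_neg hn0.le]
      exact rpow_le_rpow_of_exponent_le hn (by norm_num)
    have h7 : 4 * √τ₂ ≤ M / 2 := by
      have h71 : √τ₂ ≤ (n : ℝ) ^ (-(1 / 10) : ℝ) := by
        rw [Real.sqrt_le_iff]
        refine ⟨by positivity, hτ5.trans (le_of_eq ?_)⟩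
        rw [← rpow_natCast, ← rpow_mul hn0.le]; norm_num
      have h72 : (n : ℝ) ^ (-(1 / 10) : ℝ) * (n : ℝ) ^ (1 / 10 - 1 / 84 : ℝ) = v := by
        rw [hv, ← rpow_add hn0]; norm_num
      have h73 := mul_le_mul_of_nonneg_left hA (by positivity : 0 ≤ (n : ℝ) ^ (-(1 / 10) : ℝ))
      rw [h72, ← mul_div_assoc, div_le_iff₀ ha0] at h73
      rw [hM]; linarith
    have h8 : (n : ℝ) ^ (1 / 25 : ℝ) ≤ M ^ 2 * u / (16 * W) := by
      have h81 : (n : ℝ) ^ (1 / 25 : ℝ) * (n : ℝ) ^ (1 / 15 - 1 / 42 - 1 / 25 : ℝ) = v ^ 2 * u := by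
        rw [hv, hu, ← rpow_natCast, ← rpow_mul hn0.le, ← rpow_add hn0, ← rpow_add hn0]; norm_num
      have h82 := mul_le_mul_of_nonneg_left hB (by positivity : 0 ≤ (n : ℝ) ^ (1 / 25 : ℝ))
      rw [h81, ← mul_div_assoc, div_le_iff₀ (by positivity)] at h82
      rw [le_div_iff₀ (by positivity), hM]; linarith
    have h9 : 5625 * (640000000 * (n : ℝ) ^ (1 / 3 : ℝ) * τ₂ ^ 2 + τ₂ / 2) * l ^ 2 ≤ W * u⁻¹ * l ^ 2 := by
      refine mul_le_mul_of_nonneg_right ?_ (sq_nonneg l)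
      rw [hW]; linarith [mul_le_mul_of_nonneg_left h5 (by norm_num : (0:ℝ) ≤ 640000000), hτ₂]
    have h10 := mul_le_mul_of_nonneg_left h7 hl0
    have h11 := mul_le_mul_of_nonneg_left hmean hl0
    have e : -(l * M / 2) + W * u⁻¹ * l ^ 2 = -(M ^ 2 * u / (16 * W)) := by
      rw [hl]; field_simp; ring
    linarith

/-- At times `T ≤ n^(-1/4)` the average of `phi` is bounded below for a suitable exponent. -/
lemma mean_phi : ∀ᶠ n : ℕ in atTop, ∀ (μ : Measure (Euc n)) (R : ℝ), IsProbabilityMeasure μ → Setup μ R →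
    ∀ T : ℝ, 0 < T → T ≤ (n : ℝ) ^ (-(1 / 4) : ℝ) → ∃ j : ℕ, exp (-25) / 10 ≤ elaw T μ (phi T μ (j + 1)) := by
  filter_upwards [xi_small, err_small, eventually_ge_atTop 1,
    rpow_ev (by norm_num : (0 : ℝ) < 1 / 100) (2 * (48 * 16 * 9 * 2 * 64 * 16)),
    rpow_ev (by norm_num : (0 : ℝ) < 1 / 20) 2] with n hxi herr hn1 hL hn20 μ R _ h T hT hT4
  have hn : (1 : ℝ) ≤ n := by exact_mod_cast hn1
  have hn0 : (0 : ℝ) < n := by linarith
  set L := (n : ℝ) ^ (1 / 100 : ℝ) with hLdef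
  have hL1 : 1 ≤ L := one_le_rpow hn (by norm_num)
  have hlog : log n ≤ 100 * L := by
    have := log_le_rpow_div hn0.le (by norm_num : (0 : ℝ) < 1 / 100) (x := (n : ℝ))
    linarith [show L / (1 / 100) = 100 * L by ring]
  have hlog0 : 0 ≤ log n := log_nonneg hn
  set k := ⌊log n / 200⌋₊ with hk
  have hk1 : (k : ℝ) ≤ log n / 200 := Nat.floor_le (by positivity)
  have hk2 : log n / 200 < k + 1 := Nat.lt_floor_add_one _
  set i := 2 * k + 1 with hi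
  have hodd : Odd (i + 2) := ⟨k + 1, by omega⟩
  have hmR : ((i + 2 : ℕ) : ℝ) = 2 * k + 3 := by rw [hi]; push_cast; ring
  have hm4 : ((i + 2 : ℕ) : ℝ) ≤ 4 * L := by rw [hmR]; linarith
  set m := i + 2 with hm
  set τ := (n : ℝ) ^ (-(1 / 5) : ℝ) with hτdef
  have hτ : 0 < τ := by positivity
  have hT1 : T ≤ 1 := hT4.trans (rpow_le_one_of_one_le_of_nonpos hn (by norm_num))
  have eT : (n : ℝ) ^ (-(1 / 4) : ℝ) * (n : ℝ) ^ (1 / 20 : ℝ) = τ := by
    rw [hτdef, ← rpow_add hn0]; norm_num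
  have hTτ : 2 * T ≤ τ := by
    rw [← eT, mul_comm 2 T]
    exact mul_le_mul hT4 hn20 (by norm_num) (by positivity)
  have hτn : 1 / τ ≤ 10000 * (n : ℝ) ^ 2 := by
    rw [hτdef, one_div, ← rpow_neg hn0.le, neg_neg]
    have h1 : (n : ℝ) ^ (1 / 5 : ℝ) ≤ (n : ℝ) ^ (2 : ℝ) := rpow_le_rpow_of_exponent_le hn (by norm_num)
    rw [rpow_two] at h1
    nlinarith
  have h4m : (4 : ℝ) ^ m ≤ 64 * L ^ 2 := by
    have e : (4 : ℝ) ^ m = 64 * exp ((k : ℝ) * log 16) := by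
      rw [exp_nat_mul, exp_log (by norm_num), hm, hi, show 2 * k + 1 + 2 = 2 * k + 3 by ring, pow_add, pow_mul]
      norm_num; ring
    have h16 : log 16 ≤ (4 : ℝ) := by
      rw [show (16 : ℝ) = 2 ^ 4 by norm_num, log_pow]
      have := log_two_lt_d9
      push_cast; linarith
    rw [e]
    refine mul_le_mul_of_nonneg_left ?_ (by norm_num)
    have h1 : exp ((k : ℝ) * log 16) ≤ exp (log n * (1 / 50)) :=
      exp_le_exp.2 ((mul_le_mul_of_nonneg_left h16 k.cast_nonneg).trans (by linarith))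
    refine h1.trans (le_of_eq ?_)
    rw [← rpow_def_of_pos hn0, hLdef, ← rpow_natCast _ 2, ← rpow_mul hn0.le]
    norm_num
  have hδ : 48 * ((i : ℝ) + 2) ^ 2 * (16 / τ) * (8 / τ * T ^ 2 + T) * (1 + 4 ^ (i + 2)) ≤ 1 / 2 := by
    have e1 : ((i : ℝ) + 2) = ((i + 2 : ℕ) : ℝ) := by push_cast; ring
    rw [e1, ← hm]
    have h1 : (m : ℝ) ^ 2 ≤ 16 * L ^ 2 := by
      refine (pow_le_pow_left₀ m.cast_nonneg hm4 2).trans (le_of_eq ?_); ring
    have h2 : 8 / τ * T ^ 2 + T ≤ 9 * T := by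
      have : T / τ ≤ 1 := by rw [div_le_one hτ]; linarith
      have e : 8 / τ * T ^ 2 = 8 * T * (T / τ) := by ring
      nlinarith
    have h3 : 1 + (4 : ℝ) ^ m ≤ 2 * (64 * L ^ 2) := by linarith [one_le_pow₀ (by norm_num : (1:ℝ) ≤ 4) (n := m)]
    have h4 : T / τ ≤ (L ^ 5)⁻¹ := by
      rw [div_le_iff₀ hτ, ← eT]
      refine hT4.trans (le_of_eq ?_)
      rw [hLdef, ← rpow_natCast _ 5, ← rpow_mul hn0.le, show (1 / 100 : ℝ) * ((5 : ℕ) : ℝ) = 1 / 20 by norm_num]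
      field_simp
    calc 48 * (m : ℝ) ^ 2 * (16 / τ) * (8 / τ * T ^ 2 + T) * (1 + 4 ^ m)
        ≤ 48 * (16 * L ^ 2) * (16 / τ) * (9 * T) * (2 * (64 * L ^ 2)) := by gcongr
      _ = 48 * 16 * 9 * 2 * 64 * 16 * L ^ 4 * (T / τ) := by ring
      _ ≤ 48 * 16 * 9 * 2 * 64 * 16 * L ^ 4 * (L ^ 5)⁻¹ := mul_le_mul_of_nonneg_left h4 (by positivity)
      _ = 48 * 16 * 9 * 2 * 64 * 16 / L := by field_simp
      _ ≤ 1 / 2 := by rw [div_le_iff₀ (by linarith)]; linarith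
  have hS1 := stage_one h hT hTτ hT1 hτn hodd hδ
  rw [← hm] at hS1
  have he := (mul_le_mul_of_nonneg_left (hxi μ R inferInstance h τ hτ le_rfl) (by positivity)).trans
    (herr m (by linarith))
  have h4m1 : (1 : ℝ) ≤ 4 ^ m := one_le_pow₀ (by norm_num)
  have hn4 : 1 ≤ (n : ℝ) * 4 ^ m := one_le_mul_of_one_le_of_one_le hn h4m1
  have e16 : (16 : ℝ) ^ m = 4 ^ m * 4 ^ m := by rw [← mul_pow]; norm_num
  have hS2 : elaw T μ (strace T μ m) ≤ 4 * (16 ^ m * n) := by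
    refine hS1.trans ((mul_le_mul_of_nonneg_left
      (add_le_add le_rfl (mul_le_mul_of_nonneg_left he (by norm_num))) (by positivity)).trans ?_)
    rw [e16]
    nlinarith [mul_le_mul_of_nonneg_left hn4 (by positivity : (0:ℝ) ≤ 4 ^ m)]
  have h16n : 1 ≤ (16 : ℝ) ^ m * n := one_le_mul_of_one_le_of_one_le (one_le_pow₀ (by norm_num)) hn
  refine ⟨i + 1, le_trans ?_ (mean_phi_ge h.supp T (m := m) (Q := 5 * (16 ^ m * n)) (by linarith))⟩
  set p := 1 / (4 * (m : ℝ)) with hp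
  have hm0 : (0 : ℝ) < m := by rw [hm]; push_cast; positivity
  have hp0 : 0 ≤ p := by positivity
  rw [mul_rpow (by norm_num) (by positivity), mul_rpow (by positivity) hn0.le]
  have t1 : (1 / 5 : ℝ) ≤ 5 ^ (-p) := by
    have hp1 : p ≤ 1 := by rw [hp, div_le_one (by positivity)]; rw [hmR]; linarith [(k.cast_nonneg : (0:ℝ) ≤ k)]
    rw [show (1 / 5 : ℝ) = 5 ^ (-1 : ℝ) by rw [rpow_neg_one]; norm_num]
    exact rpow_le_rpow_of_exponent_le (by norm_num) (by linarith)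
  have t2 : ((16 : ℝ) ^ m) ^ (-p) = 1 / 2 := by
    rw [← rpow_natCast, ← rpow_mul (by norm_num), hp, show (m : ℝ) * -(1 / (4 * (m : ℝ))) = -(1 / 4) by field_simp,
      show (16 : ℝ) = 2 ^ (4 : ℝ) by norm_num, ← rpow_mul (by norm_num)]
    norm_num [rpow_neg_one]
  have t3 : exp (-25) ≤ (n : ℝ) ^ (-p) := by
    rw [rpow_def_of_pos hn0, exp_le_exp]
    have : log n * p ≤ 25 := by
      rw [hp, mul_one_div, div_le_iff₀ (by positivity), hmR]; linarith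
    linarith
  rw [t2]
  calc exp (-25) / 10 = 1 / 5 * (1 / 2 * exp (-25)) := by ring
    _ ≤ 5 ^ (-p) * (1 / 2 * (n : ℝ) ^ (-p)) := by gcongr

end Vale.Agent.P245
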