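import Vale.Agent.P245.Contract

open MeasureTheory Real Filter Set
open scoped Topology ENNReal RealInnerProductSpace

namespace Vale.Agent.P245

variable {n : ℕ}

/-- A continuously differentiable function with its gradient. -/
structure D1 (f : Euc n → ℝ) (f' : Euc n → Euc n) : Prop where
  deriv : ∀ x, HasFDerivAt f (innerSL ℝ (f' x)) x
  cont' : Continuous f'

lemma D1.cont {f : Euc n → ℝ} {f' : Euc n → Euc n} (h : D1 f f') : Continuous f :=
  continuous_iff_continuousAt.2 fun x => (h.deriv x).continuousAt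

lemma D1.affine {f : Euc n → ℝ} {f' : Euc n → Euc n} (h : D1 f f') (a t : ℝ) :
    D1 (fun x => a + t * f x) (fun x => t • f' x) :=
  ⟨fun x => by
    have := ((h.deriv x).const_mul t).const_add a
    convert! this using 1
    simp, h.cont'.const_smul t⟩

lemma pos1_sq_add {f : Euc n → ℝ} {f' : Euc n → Euc n} (h : D1 f f') {δ : ℝ} (hδ : 0 < δ) :
    Pos1 (fun x => f x ^ 2 + δ) (fun x => (2 * f x) • f' x) :=
  ⟨fun x => by positivity, fun x => by
    have h2 := (((h.deriv x).mul (h.deriv x)).add_const δ)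
    convert! h2 using 1
    · funext y; simp [sq]
    · simp only [map_smul]; module,
    (h.cont.const_mul 2).smul h.cont'⟩

section

variable {μ : Measure (Euc n)} [IsProbabilityMeasure μ] {R s : ℝ}

lemma ent_le_zero_bound (hS : Supp μ R) (hR : 0 ≤ R) (hμ : IsLC 0 μ) {lam' : ℝ} (hlam : 0 < lam')
    {g : Euc n → ℝ} {g' : Euc n → Euc n} (h : Pos1 g g') :
    ent μ g ≤ 1 / (2 * lam') * ∫ x, fis g g' x ∂μ + lam' * ∫ x, g x * ‖x‖ ^ 2 ∂μ
      + lam' * (∫ x, g x ∂μ) * ∫ x, ‖x‖ ^ 2 ∂μ := by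
  have h1 := ent_exp_le_zero hμ hS hR hlam (fun x => log (g x)) (fun x => (g x)⁻¹ • g' x)
    (fun x => by simpa using! (h.deriv x).log (h.pos x).ne')
    ((h.cont.inv₀ fun x => (h.pos x).ne').smul h.cont')
  have e : (fun x => exp (log (g x))) = g := funext fun x => exp_log (h.pos x)
  simp only [exp_log (h.pos _)] at h1
  have e2 : ∀ x, g x * ‖(g x)⁻¹ • g' x‖ ^ 2 = fis g g' x := fun x => by
    have := h.pos x
    simp only [fis, norm_smul, norm_inv, norm_eq_abs, abs_of_pos this, mul_pow]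
    field_simp
  rwa [integral_congr_ae (Eventually.of_forall e2)] at h1

lemma fis_integral_half (hS : Supp μ R) (hR : 0 ≤ R) (hμ : IsLC 0 μ) (hs : 0 < s)
    (hesd : ∀ v x : Euc n, ‖v‖ = 1 → ‖x‖ ≤ R → ∀ t : ℝ, 0 ≤ t → esd s μ (t • v) x ≤ 1 / 72 * t ^ 2 / s ^ 2)
    {g : Euc n → ℝ} {g' : Euc n → Euc n} (h : Pos1 g g') :
    ∫ x, fis (qop s μ g) (qgrad s μ g) x ∂μ ≤ 1 / 2 * ∫ x, fis g g' x ∂μ := by
  rw [← integral_qop (s := s) hS hR h.cont_fis, ← integral_const_mul]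
  exact integral_mono_ae (hS.integrable (pos1_qop hS hR h).cont_fis)
    ((hS.integrable (continuous_qop hS hR h.cont_fis)).const_mul _)
    (hS.mono fun x hx => fis_qop_le hS hR hμ hs hesd h x hx)

lemma ent_iterate (hS : Supp μ R) (hR : 0 ≤ R) (hμ : IsLC 0 μ) (hs : 0 < s)
    (hesd : ∀ v x : Euc n, ‖v‖ = 1 → ‖x‖ ≤ R → ∀ t : ℝ, 0 ≤ t → esd s μ (t • v) x ≤ 1 / 72 * t ^ 2 / s ^ 2)
    {lam' : ℝ} (hlam : 0 < lam') (k : ℕ) : ∀ {g : Euc n → ℝ} {g' : Euc n → Euc n}, Pos1 g g' →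
    ent μ g ≤ (2 / s ^ 2 + (1 / 2) ^ k * (1 / (2 * lam'))) * ∫ x, fis g g' x ∂μ
      + 2 * lam' * R ^ 2 * ∫ x, g x ∂μ := by
  induction k with
  | zero =>
    intro g g' h
    have h1 := ent_le_zero_bound hS hR hμ hlam h
    have h2 : ∫ x, g x * ‖x‖ ^ 2 ∂μ ≤ (∫ x, g x ∂μ) * R ^ 2 := by
      rw [← integral_mul_const]
      exact integral_mono_ae (hS.integrable (h.cont.mul (by fun_prop))) ((hS.integrable h.cont).mul_const _)
        (hS.mono fun x hx => mul_le_mul_of_nonneg_left (pow_le_pow_left₀ (norm_nonneg _) hx 2) (h.pos x).le)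
    have h3 : ∫ x, ‖x‖ ^ 2 ∂μ ≤ R ^ 2 := by
      have := integral_mono_ae (hS.integrable (by fun_prop : Continuous fun x : Euc n => ‖x‖ ^ 2))
        (integrable_const (R ^ 2)) (hS.mono fun x hx => pow_le_pow_left₀ (norm_nonneg _) hx 2)
      simpa using this
    have hm : 0 ≤ ∫ x, g x ∂μ := integral_nonneg fun x => (h.pos x).le
    have hI : 0 ≤ ∫ x, fis g g' x ∂μ := integral_nonneg (fis_nonneg h)
    have := mul_le_mul_of_nonneg_left h2 hlam.le
    have := mul_le_mul_of_nonneg_left h3 (mul_nonneg hlam.le hm)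
    have : 0 ≤ 2 / s ^ 2 * ∫ x, fis g g' x ∂μ := mul_nonneg (by positivity) hI
    rw [pow_zero, one_mul]
    linarith
  | succ k ih =>
    intro g g' h
    have h1 := ent_step hS hR hμ hs h
    have h2 := ih (pos1_qop (s := s) hS hR h)
    have h3 := fis_integral_half hS hR hμ hs hesd h
    rw [integral_qop hS hR h.cont] at h2
    have h4 := mul_le_mul_of_nonneg_left h3 (by positivity : 0 ≤ 2 / s ^ 2 + (1 / 2) ^ k * (1 / (2 * lam')))
    have e : 1 / s ^ 2 + (2 / s ^ 2 + (1 / 2) ^ k * (1 / (2 * lam'))) * (1 / 2)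
        = 2 / s ^ 2 + (1 / 2) ^ (k + 1) * (1 / (2 * lam')) := by ring
    rw [← e]
    linarith

/-- Log-Sobolev inequality on a ball, Fisher information form. -/
lemma lsi_fis (hS : Supp μ R) (hR : 0 ≤ R) (hμ : IsLC 0 μ) (hs : 0 < s)
    (hesd : ∀ v x : Euc n, ‖v‖ = 1 → ‖x‖ ≤ R → ∀ t : ℝ, 0 ≤ t → esd s μ (t • v) x ≤ 1 / 72 * t ^ 2 / s ^ 2)
    {g : Euc n → ℝ} {g' : Euc n → Euc n} (h : Pos1 g g') :
    ent μ g ≤ 2 / s ^ 2 * ∫ x, fis g g' x ∂μ := by
  set I := ∫ x, fis g g' x ∂μ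
  set m := ∫ x, g x ∂μ
  refine le_of_forall_pos_le_add fun ε hε => ?_
  have hm : 0 ≤ m := integral_nonneg fun x => (h.pos x).le
  set lam' := ε / (4 * R ^ 2 * m + 1) with hl
  have hlam : 0 < lam' := by positivity
  have hsmall : 2 * lam' * R ^ 2 * m ≤ ε / 2 := by
    rw [hl]; field_simp; nlinarith
  have hlim : Tendsto (fun k : ℕ => (1 / 2 : ℝ) ^ k * (1 / (2 * lam')) * I) atTop (𝓝 0) := by
    simpa using ((tendsto_pow_atTop_nhds_zero_of_lt_one (by norm_num) (by norm_num : (1/2:ℝ) < 1)).mul_const (1 / (2 * lam'))).mul_const I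
  obtain ⟨k, hk⟩ := (hlim.eventually (eventually_le_nhds (by linarith : (0:ℝ) < ε / 2))).exists
  have := ent_iterate hS hR hμ hs hesd hlam k h
  linarith

lemma continuous_ent_add (hS : Supp μ R) {h : Euc n → ℝ} (hc : Continuous h) :
    Continuous fun δ : ℝ => ent μ (fun x => h x + δ) := by
  have h1 : ∀ F : ℝ → Euc n → ℝ, Continuous (Function.uncurry F) → Continuous fun δ => ∫ x, F δ x ∂μ := by
    intro F hF
    refine continuous_iff_continuousAt.2 fun δ₀ => ?_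
    obtain ⟨C, hC⟩ := ((isCompact_closedBall δ₀ 1).prod (isCompact_closedBall (0 : Euc n) R)).exists_bound_of_continuousOn
      hF.continuousOn
    refine continuousAt_of_dominated
      (Eventually.of_forall fun δ => (hF.comp (Continuous.prodMk_right δ)).aestronglyMeasurable) ?_
      (integrable_const C) (Eventually.of_forall fun x => (hF.comp (Continuous.prodMk_left x)).continuousAt)
    filter_upwards [Metric.closedBall_mem_nhds δ₀ one_pos] with δ hδ
    exact hS.mono fun x hx => hC (δ, x) ⟨hδ, by simpa using hx⟩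
  have hm : Continuous fun δ => ∫ x, (h x + δ) ∂μ := h1 _ ((hc.comp continuous_snd).add continuous_fst)
  exact (h1 (fun δ x => (h x + δ) * log (h x + δ))
    (Real.continuous_mul_log.comp ((hc.comp continuous_snd).add continuous_fst))).sub
    (Real.continuous_mul_log.comp hm)

lemma ent_le_of_perturb (hS : Supp μ R) {h : Euc n → ℝ} (hc : Continuous h) {A B : ℝ}
    (hb : ∀ δ > 0, ent μ (fun x => h x + δ) ≤ A + B * δ) : ent μ h ≤ A := by
  have h1 : Tendsto (fun δ : ℝ => ent μ (fun x => h x + δ) - B * δ) (𝓝[>] 0) (𝓝 (ent μ h - B * 0)) := by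
    have hcg : Continuous fun δ : ℝ => ent μ (fun x => h x + δ) - B * δ :=
      (continuous_ent_add (μ := μ) hS hc).sub ((continuous_const (y := B)).mul continuous_id)
    have := hcg.tendsto (0 : ℝ)
    simp only [add_zero] at this
    exact this.mono_left nhdsWithin_le_nhds
  have := le_of_tendsto h1 (eventually_nhdsWithin_of_forall fun δ hδ => by linarith [hb δ hδ] : ∀ᶠ δ in 𝓝[>] (0:ℝ), _ ≤ A)
  linarith

lemma fis_sq_le {f : Euc n → ℝ} {f' : Euc n → Euc n} {δ : ℝ} (hδ : 0 < δ) (x : Euc n) :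
    fis (fun x => f x ^ 2 + δ) (fun x => (2 * f x) • f' x) x ≤ 4 * ‖f' x‖ ^ 2 := by
  simp only [fis, norm_smul, norm_eq_abs, mul_pow, sq_abs]
  rw [div_le_iff₀ (by positivity)]
  nlinarith [sq_nonneg ‖f' x‖]

/-- Choice of parameters: log-Sobolev constant of order `n^(1/3)` on a ball of radius `ρ √n`. -/
lemma lsi_ball (hn : 1 ≤ n) {ρ : ℝ} (hρ : 1 ≤ ρ) (hR : R = ρ * √n) (hS : Supp μ R) (hμ : IsLC 0 μ)
    (hsub : Sub3 μ) {f : Euc n → ℝ} {f' : Euc n → Euc n} (h : D1 f f') :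
    ent μ (fun x => f x ^ 2) ≤ 320000000 * ρ * (n : ℝ) ^ (1 / 3 : ℝ) * ∫ x, ‖f' x‖ ^ 2 ∂μ := by
  set N := (n : ℝ) ^ (1 / 3 : ℝ) with hN
  have hn' : (1 : ℝ) ≤ n := by exact_mod_cast hn
  have hN1 : 1 ≤ N := one_le_rpow hn' (by norm_num)
  have hN3 : N ^ 3 = n := by
    rw [hN, ← rpow_natCast, ← rpow_mul (by linarith)]; norm_num
  have hR0 : 0 ≤ R := by rw [hR]; positivity
  set T := 1 / (40000000 * ρ * N) with hT
  have hT0 : 0 < T := by positivity
  set s := √T with hs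
  have hs0 : 0 < s := Real.sqrt_pos.2 hT0
  have hsT : s ^ 2 = T := Real.sq_sqrt hT0.le
  have hρN : 1 ≤ ρ * N := one_le_mul_of_one_le_of_one_le hρ hN1
  have hsmall : 216 * s ^ 2 ≤ 1 := by
    rw [hsT, hT, mul_one_div, div_le_one (by positivity)]; nlinarith
  have hB : s * √(7 + 4 * s ^ 4 * R ^ 2 + 28 * s ^ 4 * n) ≤ 1 / 1000 := by
    rw [hs, ← Real.sqrt_mul hT0.le, Real.sqrt_le_iff]
    refine ⟨by norm_num, ?_⟩
    rw [← hs, show s ^ 4 = T ^ 2 by rw [← hsT]; ring, hR, mul_pow, Real.sq_sqrt (by linarith)]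
    have e : T ^ 3 * n = 1 / (40000000 ^ 3 * ρ ^ 3) := by
      rw [hT, ← hN3]; field_simp
    have h7 : T ≤ 1 / 40000000 := by
      rw [hT]; exact one_div_le_one_div_of_le (by norm_num) (by nlinarith)
    have h8 : (4 * ρ ^ 2 + 28) * (T ^ 3 * n) ≤ 32 / 40000000 ^ 3 := by
      rw [e, mul_one_div, div_le_div_iff₀ (by positivity) (by norm_num)]
      have h9 : ρ ^ 2 ≤ ρ ^ 3 := pow_le_pow_right₀ hρ (by norm_num)
      have h10 : 1 ≤ ρ ^ 3 := one_le_pow₀ hρ
      nlinarith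
    nlinarith
  have hesd : ∀ v x : Euc n, ‖v‖ = 1 → ‖x‖ ≤ R → ∀ t : ℝ, 0 ≤ t → esd s μ (t • v) x ≤ 1 / 72 * t ^ 2 / s ^ 2 :=
    fun v x hv hx t ht => esd_le hS hμ hsub hs0 hsmall hB v x hv hx ht
  refine ent_le_of_perturb (h := fun x => f x ^ 2) hS (h.cont.pow 2) (B := 0) fun δ hδ => ?_
  have hp := pos1_sq_add h hδ
  have h1 := lsi_fis hS hR0 hμ hs0 hesd hp
  have h2 : ∫ x, fis (fun x => f x ^ 2 + δ) (fun x => (2 * f x) • f' x) x ∂μ ≤ 4 * ∫ x, ‖f' x‖ ^ 2 ∂μ := by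
    rw [← integral_const_mul]
    exact integral_mono (hS.integrable hp.cont_fis) ((hS.integrable (h.cont'.norm.pow 2)).const_mul _)
      fun x => fis_sq_le hδ x
  have h3 : 2 / s ^ 2 * (4 * ∫ x, ‖f' x‖ ^ 2 ∂μ) = 320000000 * ρ * N * ∫ x, ‖f' x‖ ^ 2 ∂μ := by
    rw [hsT, hT]; field_simp; ring
  have h4 := mul_le_mul_of_nonneg_left h2 (by positivity : 0 ≤ 2 / s ^ 2)
  simp only [zero_mul, add_zero]
  linarith

/-- A log-Sobolev inequality implies a Poincaré inequality. -/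
lemma poincare_of_lsi (hS : Supp μ R) {K : ℝ}
    (hlsi : ∀ {f : Euc n → ℝ} {f' : Euc n → Euc n}, D1 f f' → ent μ (fun x => f x ^ 2) ≤ K * ∫ x, ‖f' x‖ ^ 2 ∂μ)
    {v : Euc n → ℝ} {v' : Euc n → Euc n} (h : D1 v v') (hmean : ∫ x, v x ∂μ = 0) :
    ∫ x, v x ^ 2 ∂μ ≤ K / 2 * ∫ x, ‖v' x‖ ^ 2 ∂μ := by
  obtain ⟨B, hB⟩ := (isCompact_closedBall (0 : Euc n) R).exists_bound_of_continuousOn h.cont.continuousOn
  have hc := h.cont
  set D := ∫ x, ‖v' x‖ ^ 2 ∂μ with hD
  set q := ∫ x, v x ^ 2 ∂μ with hq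
  have key : ∀ t : ℝ, t ≠ 0 → ∫ x, (2 * v x + t * (v x ^ 2 - q)) ^ 2 ∂μ ≤ 2 * (1 + |t| * B) ^ 2 * K * D := by
    intro t ht
    have h1 := hlsi (h.affine 1 t)
    have h2 : ∫ x, ‖t • v' x‖ ^ 2 ∂μ = t ^ 2 * D := by
      rw [hD, ← integral_const_mul]
      exact integral_congr_ae (Eventually.of_forall fun x => by simp [norm_smul, mul_pow])
    rw [h2] at h1
    have hmean' : ∫ x, (1 + t * v x) ^ 2 ∂μ = 1 + t ^ 2 * q := by
      have e : ∀ x, (1 + t * v x) ^ 2 = 1 + (2 * t) * v x + t ^ 2 * v x ^ 2 := fun x => by ring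
      rw [integral_congr_ae (Eventually.of_forall e), integral_add (hS.integrable (by fun_prop)) (hS.integrable (by fun_prop)),
        integral_add (integrable_const _) (hS.integrable (by fun_prop)), integral_const, probReal_univ, one_smul,
        integral_const_mul, integral_const_mul, hmean]
      ring
    have h3 := var_le_ent (μ := μ) (r := fun x => (1 + t * v x) ^ 2) (M := (1 + |t| * B) ^ 2)
      (fun x => sq_nonneg _) (hS.mono fun x hx => by
        rw [← sq_abs]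
        refine pow_le_pow_left₀ (abs_nonneg _) ((abs_add_le _ _).trans ?_) 2
        rw [abs_one, abs_mul]
        exact add_le_add le_rfl (mul_le_mul_of_nonneg_left (hB x (by simpa using hx)) (abs_nonneg t)))
      (hS.integrable (by fun_prop)) (hS.integrable (Real.continuous_mul_log.comp (by fun_prop)))
      (hS.integrable (by fun_prop))
    rw [hmean'] at h3
    have e : ∀ x, ((1 + t * v x) ^ 2 - (1 + t ^ 2 * q)) ^ 2 = t ^ 2 * (2 * v x + t * (v x ^ 2 - q)) ^ 2 := fun x => by ring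
    rw [integral_congr_ae (Eventually.of_forall e), integral_const_mul] at h3
    refine le_of_mul_le_mul_left (h3.trans ?_) (by positivity : 0 < t ^ 2)
    refine (mul_le_mul_of_nonneg_left h1 (by positivity)).trans (le_of_eq ?_)
    ring
  have hlim : Tendsto (fun t : ℝ => (∫ x, (2 * v x + t * (v x ^ 2 - q)) ^ 2 ∂μ) - 2 * (1 + |t| * B) ^ 2 * K * D)
      (𝓝[≠] 0) (𝓝 (4 * q - 2 * K * D)) := by
    have hcont : Continuous fun t : ℝ => (∫ x, (2 * v x + t * (v x ^ 2 - q)) ^ 2 ∂μ) := by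
      have e : (fun t : ℝ => ∫ x, (2 * v x + t * (v x ^ 2 - q)) ^ 2 ∂μ)
          = fun t => 4 * q + (4 * t) * (∫ x, v x * (v x ^ 2 - q) ∂μ) + t ^ 2 * ∫ x, (v x ^ 2 - q) ^ 2 ∂μ := by
        funext t
        have e : ∀ x, (2 * v x + t * (v x ^ 2 - q)) ^ 2
            = 4 * v x ^ 2 + (4 * t) * (v x * (v x ^ 2 - q)) + t ^ 2 * (v x ^ 2 - q) ^ 2 := fun x => by ring
        rw [integral_congr_ae (Eventually.of_forall e), integral_add (hS.integrable (by fun_prop)) (hS.integrable (by fun_prop)),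
          integral_add (hS.integrable (by fun_prop)) (hS.integrable (by fun_prop)), integral_const_mul, integral_const_mul, integral_const_mul, hq]
      rw [e]; fun_prop
    have h0 : (∫ x, (2 * v x + (0:ℝ) * (v x ^ 2 - q)) ^ 2 ∂μ) = 4 * q := by
      rw [hq, ← integral_const_mul]
      exact integral_congr_ae (Eventually.of_forall fun x => by ring)
    have hcg : Continuous fun t : ℝ => (∫ x, (2 * v x + t * (v x ^ 2 - q)) ^ 2 ∂μ) - 2 * (1 + |t| * B) ^ 2 * K * D :=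
      hcont.sub (by fun_prop)
    have := hcg.tendsto (0 : ℝ)
    rw [h0, abs_zero, zero_mul, add_zero, one_pow, mul_one] at this
    exact this.mono_left nhdsWithin_le_nhds
  have := le_of_tendsto hlim (eventually_nhdsWithin_of_forall fun t ht => sub_nonpos.2 (key t ht))
  linarith

end

end Vale.Agent.P245
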