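import Vale.Agent.P245.Fiber

open MeasureTheory Real Filter Set
open scoped Topology ENNReal RealInnerProductSpace

namespace Vale.Agent.P245

variable {n : ℕ}

/-- Parameter of the fiber reached from `x` with Gaussian increment `G`. -/
noncomputable def pt (s : ℝ) (x G : Euc n) : Euc n := s ^ 2 • x + s • G

@[fun_prop]
lemma continuous_pt (s : ℝ) (x : Euc n) : Continuous (pt s x) := by unfold pt; fun_prop

/-- The proximal kernel applied to `g`. -/
noncomputable def qop (s : ℝ) (μ : Measure (Euc n)) (g : Euc n → ℝ) (x : Euc n) : ℝ :=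
  ∫ G, av (s ^ 2) μ g (pt s x G) ∂(gam n)

/-- Gradient of the proximal kernel applied to `g`. -/
noncomputable def qgrad (s : ℝ) (μ : Measure (Euc n)) (g : Euc n → ℝ) (x : Euc n) : Euc n :=
  s ^ 2 • ∫ G, cov (s ^ 2) μ g (pt s x G) ∂(gam n)

/-- A positive continuously differentiable function with its gradient. -/
structure Pos1 (g : Euc n → ℝ) (g' : Euc n → Euc n) : Prop where
  pos : ∀ x, 0 < g x
  deriv : ∀ x, HasFDerivAt g (innerSL ℝ (g' x)) x
  cont' : Continuous g'

lemma Pos1.cont {g : Euc n → ℝ} {g' : Euc n → Euc n} (h : Pos1 g g') : Continuous g :=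
  continuous_iff_continuousAt.2 fun x => (h.deriv x).continuousAt

/-- Fisher information density. -/
noncomputable def fis (g : Euc n → ℝ) (g' : Euc n → Euc n) (x : Euc n) : ℝ := ‖g' x‖ ^ 2 / g x

lemma Pos1.cont_fis {g : Euc n → ℝ} {g' : Euc n → Euc n} (h : Pos1 g g') : Continuous (fis g g') :=
  ((h.cont'.norm).pow 2).div h.cont fun x => (h.pos x).ne'

lemma fis_nonneg {g : Euc n → ℝ} {g' : Euc n → Euc n} (h : Pos1 g g') (x : Euc n) : 0 ≤ fis g g' x :=
  div_nonneg (sq_nonneg _) (h.pos x).le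

lemma exp_le_add_exp_sq (y : ℝ) : exp y ≤ y + exp (y ^ 2) := by
  rcases le_or_gt |y| 1 with h | h
  · have h1 := abs_le.1 (Real.abs_exp_sub_one_sub_id_le h)
    linarith [add_one_le_exp (y ^ 2)]
  rcases lt_or_ge 0 y with h0 | h0
  · rw [abs_of_pos h0] at h
    linarith [exp_le_exp.2 (show y ≤ y ^ 2 by nlinarith)]
  · rw [abs_of_nonpos h0] at h
    have := add_one_le_exp (y ^ 2)
    have := exp_le_one_iff.2 h0
    nlinarith

section

variable {μ : Measure (Euc n)} [IsProbabilityMeasure μ] {R s : ℝ}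

lemma exists_bound (hR : 0 ≤ R) {V : Type*} [NormedAddCommGroup V] {f : Euc n → V} (hf : Continuous f) :
    ∃ B, 0 ≤ B ∧ ∀ x, ‖x‖ ≤ R → ‖f x‖ ≤ B := by
  obtain ⟨B, hB⟩ := (isCompact_closedBall (0 : Euc n) R).exists_bound_of_continuousOn hf.continuousOn
  exact ⟨B, (norm_nonneg _).trans (hB 0 (by simpa using hR)), fun x hx => hB x (by simpa using hx)⟩

lemma integrable_av (hS : Supp μ R) (hR : 0 ≤ R) {g : Euc n → ℝ} (hg : Continuous g) (x : Euc n) :
    Integrable (fun G => av (s ^ 2) μ g (pt s x G)) (gam n) := by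
  obtain ⟨B, -, hB⟩ := exists_bound hR hg
  exact Integrable.of_bound ((continuous_av hS hg).comp (continuous_pt s x)).aestronglyMeasurable B
    (Eventually.of_forall fun G => abs_av_le hS hB _)

lemma continuous_qop (hS : Supp μ R) (hR : 0 ≤ R) {g : Euc n → ℝ} (hg : Continuous g) :
    Continuous (qop s μ g) := by
  obtain ⟨B, -, hB⟩ := exists_bound hR hg
  refine continuous_of_dominated
    (fun x => ((continuous_av hS hg).comp (continuous_pt s x)).aestronglyMeasurable)
    (fun x => Eventually.of_forall fun G => abs_av_le hS hB _) (integrable_const B)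
    (Eventually.of_forall fun G => ((continuous_av hS hg).comp (by unfold pt; fun_prop)))

lemma integrable_cov (hS : Supp μ R) (hR : 0 ≤ R) {g : Euc n → ℝ} (hg : Continuous g) (x : Euc n) :
    Integrable (fun G => cov (s ^ 2) μ g (pt s x G)) (gam n) := by
  obtain ⟨B, -, hB⟩ := exists_bound hR hg
  exact Integrable.of_bound ((continuous_cov hS hg).comp (continuous_pt s x)).aestronglyMeasurable (2 * B * R)
    (Eventually.of_forall fun G => norm_cov_le hS hR hB _)

lemma continuous_qgrad (hS : Supp μ R) (hR : 0 ≤ R) {g : Euc n → ℝ} (hg : Continuous g) :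
    Continuous (qgrad s μ g) := by
  obtain ⟨B, -, hB⟩ := exists_bound hR hg
  have h : Continuous fun x => ∫ G, cov (s ^ 2) μ g (pt s x G) ∂(gam n) :=
    continuous_of_dominated (bound := fun _ => 2 * B * R)
      (fun x => ((continuous_cov hS hg).comp (continuous_pt s x)).aestronglyMeasurable)
      (fun x => Eventually.of_forall fun G => norm_cov_le hS hR hB _) (integrable_const (2 * B * R))
      (Eventually.of_forall fun G => ((continuous_cov hS hg).comp (by unfold pt; fun_prop)))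
  exact h.const_smul (s ^ 2)

lemma hasFDerivAt_qop (hS : Supp μ R) (hR : 0 ≤ R) {g : Euc n → ℝ} (hg : Continuous g) (x : Euc n) :
    HasFDerivAt (qop s μ g) (innerSL ℝ (qgrad s μ g x)) x := by
  obtain ⟨B, hB0, hB⟩ := exists_bound hR hg
  have hd : ∀ G y, HasFDerivAt (fun y => av (s ^ 2) μ g (pt s y G))
      (innerSL ℝ (s ^ 2 • cov (s ^ 2) μ g (pt s y G))) y := fun G y => by
    have h1 : HasFDerivAt (fun y => pt s y G) (s ^ 2 • ContinuousLinearMap.id ℝ (Euc n)) y :=
      ((hasFDerivAt_id y).const_smul (s ^ 2)).add_const _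
    convert! (hasFDerivAt_av (T := s ^ 2) hS hg (pt s y G)).comp y h1 using 1
    ext v; simp
  have := hasFDerivAt_integral_of_dominated_of_fderiv_le (μ := gam n)
    (F := fun y G => av (s ^ 2) μ g (pt s y G))
    (F' := fun y G => innerSL ℝ (s ^ 2 • cov (s ^ 2) μ g (pt s y G)))
    (bound := fun _ => s ^ 2 * (2 * B * R)) (s := Metric.ball x 1) (Metric.ball_mem_nhds x one_pos)
    (Eventually.of_forall fun y => ((continuous_av hS hg).comp (continuous_pt s y)).aestronglyMeasurable)
    (integrable_av hS hR hg x)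
    ((innerSL ℝ).continuous.comp (((continuous_cov hS hg).comp (continuous_pt s x)).const_smul (s ^ 2))).aestronglyMeasurable
    (Eventually.of_forall fun G y _ => by
      rw [innerSL_apply_norm, norm_smul, norm_eq_abs, abs_of_nonneg (sq_nonneg s)]
      exact mul_le_mul_of_nonneg_left (norm_cov_le hS hR hB _) (sq_nonneg s))
    (integrable_const _) (Eventually.of_forall fun G y _ => hd G y)
  rw [ContinuousLinearMap.integral_comp_comm (innerSL ℝ)
    (φ := fun G => s ^ 2 • cov (s ^ 2) μ g (pt s x G)) ((integrable_cov hS hR hg x).smul (s ^ 2)),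
    integral_smul] at this
  exact this

lemma qop_pos (hS : Supp μ R) (hR : 0 ≤ R) {g : Euc n → ℝ} (hg : Continuous g) (hpos : ∀ x, 0 < g x)
    (x : Euc n) : 0 < qop s μ g x := by
  rw [qop, integral_pos_iff_support_of_nonneg (fun G => (av_pos hS hg hpos _).le) (integrable_av hS hR hg x)]
  have : Function.support (fun G => av (s ^ 2) μ g (pt s x G)) = univ :=
    eq_univ_of_forall fun G => (av_pos hS hg hpos _).ne'
  simp [this]

lemma pos1_qop (hS : Supp μ R) (hR : 0 ≤ R) {g : Euc n → ℝ} {g' : Euc n → Euc n} (h : Pos1 g g') :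
    Pos1 (qop s μ g) (qgrad s μ g) :=
  ⟨qop_pos hS hR h.cont h.pos, hasFDerivAt_qop hS hR h.cont, continuous_qgrad hS hR h.cont⟩

/-- Stationarity of `μ` for the proximal kernel. -/
lemma integral_qop (hS : Supp μ R) (hR : 0 ≤ R) {g : Euc n → ℝ} (hg : Continuous g) :
    ∫ x, qop s μ g x ∂μ = ∫ x, g x ∂μ := by
  obtain ⟨B, hB0, hB⟩ := exists_bound hR hg
  have e1 : ∀ x, qop s μ g x = ∫ G, wt (s ^ 2) (s • G) x * av (s ^ 2) μ g (s • G) ∂(gam n) := fun x => by
    have h := integral_gam_shift (fun G => av (s ^ 2) μ g (s • G)) (s • x)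
    simp only [smul_eq_mul] at h
    rw [qop]
    refine (integral_congr_ae (Eventually.of_forall fun G => ?_)).trans (h.trans ?_)
    · simp only [pt, smul_add, smul_smul, sq, add_comm]
    · refine integral_congr_ae (Eventually.of_forall fun G => ?_)
      simp only [wt, real_inner_smul_left, norm_smul, norm_eq_abs, mul_pow, sq_abs, real_inner_comm G x]
      ring_nf
  have hexp : ∀ x G : Euc n, ‖x‖ ≤ R → wt (s ^ 2) (s • G) x ≤ exp (|s| * R * ‖G‖) := fun x G hx => by
    rw [wt, exp_le_exp, real_inner_smul_left]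
    have h1 : s * ⟪G, x⟫ ≤ |s| * |⟪G, x⟫| := (le_abs_self _).trans_eq (abs_mul _ _)
    have h2 := abs_real_inner_le_norm G x
    have h3 : |s| * |⟪G, x⟫| ≤ |s| * R * ‖G‖ := by
      rw [mul_assoc]; exact mul_le_mul_of_nonneg_left (h2.trans (by rw [mul_comm R]; gcongr)) (abs_nonneg _)
    nlinarith [sq_nonneg s, mul_nonneg (sq_nonneg s) (sq_nonneg ‖x‖)]
  have hwpos : ∀ x G : Euc n, 0 ≤ wt (s ^ 2) (s • G) x := fun x G => (exp_pos _).le
  have hcw : Continuous (fun p : Euc n × Euc n => wt (s ^ 2) (s • p.2) p.1) :=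
    (continuous_wt (s ^ 2)).comp ((continuous_snd.const_smul s).prodMk continuous_fst)
  have hi1 : Integrable (Function.uncurry fun x G => wt (s ^ 2) (s • G) x * av (s ^ 2) μ g (s • G)) (μ.prod (gam n)) :=
    integrable_prod_gam hS (hcw.mul ((continuous_av hS hg).comp (continuous_snd.const_smul s))) (A := B) (c := |s| * R)
      fun x G hx => by
        rw [abs_mul, abs_of_nonneg (hwpos x G), mul_comm B]
        exact mul_le_mul (hexp x G hx) (abs_av_le hS hB _) (abs_nonneg _) (exp_pos _).le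
  have hi2 : Integrable (Function.uncurry fun x G => wt (s ^ 2) (s • G) x * g x) (μ.prod (gam n)) :=
    integrable_prod_gam hS (hcw.mul (hg.comp continuous_fst)) (A := B) (c := |s| * R)
      fun x G hx => by
        rw [abs_mul, abs_of_nonneg (hwpos x G), mul_comm B]
        exact mul_le_mul (hexp x G hx) (hB x hx) (abs_nonneg _) (exp_pos _).le
  rw [integral_congr_ae (Eventually.of_forall e1), integral_integral_swap hi1]
  have e2 : ∀ G, ∫ x, wt (s ^ 2) (s • G) x * av (s ^ 2) μ g (s • G) ∂μ = ∫ x, wt (s ^ 2) (s • G) x * g x ∂μ := fun G => by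
    rw [integral_mul_const, av_eq]
    exact mul_div_cancel₀ _ (zf_pos hS (s • G)).ne'
  rw [integral_congr_ae (Eventually.of_forall e2), ← integral_integral_swap hi2]
  refine integral_congr_ae (Eventually.of_forall fun x => ?_)
  simp only [integral_mul_const]
  have h := integral_gam_shift (fun _ => (1 : ℝ)) (s • x)
  simp only [smul_eq_mul, mul_one, integral_const, probReal_univ] at h
  have e : ∫ G, wt (s ^ 2) (s • G) x ∂(gam n) = 1 := by
    rw [h]
    refine integral_congr_ae (Eventually.of_forall fun G => ?_)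
    simp only [wt, real_inner_smul_left, norm_smul, norm_eq_abs, mul_pow, sq_abs, real_inner_comm G x]
    ring_nf
  rw [e, one_mul]

lemma mul_inner_cov_le (hS : Supp μ R) (hμ : IsLC 0 μ) {T : ℝ} (hT : 0 < T) {g : Euc n → ℝ} (hg : Continuous g)
    (hg0 : ∀ x, 0 ≤ g x) (θ v : Euc n) :
    ⟪v, cov T μ g θ⟫ ≤ ent (fib T μ θ) g + av T μ g θ * (‖v‖ ^ 2 / (2 * T)) := by
  have := isProb_fib (T := T) hS θ
  have hsf := supp_fib (T := T) hS θ
  have hlog : Continuous fun x => g x * log (g x) := Real.continuous_mul_log.comp hg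
  have h := integral_mul_le_ent (μ := fib T μ θ) (φ := fun x => ⟪v, x⟫ - ⟪v, bary T μ θ⟫) hg0
    (hsf.integrable hg) (hsf.integrable hlog) (hsf.integrable (by fun_prop)) (hsf.integrable (by fun_prop))
  have e1 : ∫ x, g x * (⟪v, x⟫ - ⟪v, bary T μ θ⟫) ∂(fib T μ θ) = ⟪v, cov T μ g θ⟫ := by
    have e : ∀ x, g x * (⟪v, x⟫ - ⟪v, bary T μ θ⟫) = ⟪v, g x • x⟫ - g x * ⟪v, bary T μ θ⟫ := fun x => by
      rw [inner_smul_right]; ring
    rw [integral_congr_ae (Eventually.of_forall e),
      integral_sub (hsf.integrable (by fun_prop)) (hsf.integrable (by fun_prop)), integral_mul_const,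
      integral_inner (f := fun x => g x • x) (hsf.integrable (by fun_prop)), cov, inner_sub_right, inner_smul_right]
    rfl
  have e2 : log (∫ x, exp (⟪v, x⟫ - ⟪v, bary T μ θ⟫) ∂(fib T μ θ)) ≤ ‖v‖ ^ 2 / (2 * T) := by
    simp only [exp_sub]
    rw [integral_div, exp_lam_shift hS, ← exp_sub, log_exp]
    have := lam_upper hS hμ hT θ v
    rw [real_inner_comm] at this
    linarith
  rw [e1] at h
  exact h.trans (add_le_add le_rfl (mul_le_mul_of_nonneg_left e2 (integral_nonneg hg0)))

lemma norm_cov_sq_le (hS : Supp μ R) (hμ : IsLC 0 μ) {T : ℝ} (hT : 0 < T) {g : Euc n → ℝ} (hg : Continuous g)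
    (hpos : ∀ x, 0 < g x) (θ : Euc n) :
    ‖cov T μ g θ‖ ^ 2 ≤ 2 * av T μ g θ * ent (fib T μ θ) g / T := by
  have hm := av_pos (T := T) hS hg hpos θ
  have h := mul_inner_cov_le hS hμ hT hg (fun x => (hpos x).le) θ ((T / av T μ g θ) • cov T μ g θ)
  rw [real_inner_smul_left, real_inner_self_eq_norm_sq, norm_smul, norm_eq_abs, mul_pow, sq_abs] at h
  set c := ‖cov T μ g θ‖
  set m := av T μ g θ
  have e : m * ((T / m) ^ 2 * c ^ 2 / (2 * T)) = T / m * c ^ 2 / 2 := by field_simp
  rw [e] at h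
  rw [le_div_iff₀ hT]
  have h2 : T / m * c ^ 2 ≤ 2 * ent (fib T μ θ) g := by linarith
  rw [div_mul_eq_mul_div, div_le_iff₀ hm] at h2
  linarith

lemma ent_fib_le (hS : Supp μ R) (hR : 0 ≤ R) (hμ : IsLC 0 μ) {T : ℝ} (hT : 0 < T) {g : Euc n → ℝ}
    {g' : Euc n → Euc n} (h : Pos1 g g') (θ : Euc n) :
    ent (fib T μ θ) g ≤ (1 / (2 * T)) * av T μ (fis g g') θ := by
  have := isProb_fib (T := T) hS θ
  have h1 := ent_exp_le_slc_supp hT (isLC_fib (T := T) hS hμ θ) (supp_fib hS θ) hR (fun x => log (g x))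
    (fun x => (g x)⁻¹ • g' x) (fun x => by simpa using! (h.deriv x).log (h.pos x).ne')
    ((h.cont.inv₀ fun x => (h.pos x).ne').smul h.cont')
  have e : (fun x => exp (log (g x))) = g := funext fun x => exp_log (h.pos x)
  rw [e] at h1
  refine h1.trans (le_of_eq ?_)
  rw [av]
  congr 1
  refine integral_congr_ae (Eventually.of_forall fun x => ?_)
  have := h.pos x
  simp only [fis, norm_smul, norm_inv, norm_eq_abs, abs_of_pos this, exp_log this, mul_pow]
  field_simp

lemma log_av_taylor (hS : Supp μ R) {T : ℝ} {g : Euc n → ℝ} (hg : Continuous g) (hpos : ∀ x, 0 < g x)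
    (θ δ : Euc n) :
    log (av T μ g (θ + δ)) ≤ log (av T μ g θ) + ⟪(av T μ g θ)⁻¹ • cov T μ g θ, δ⟫ + 4 * R ^ 2 * ‖δ‖ ^ 2 := by
  have hsf := supp_fib (T := T) hS θ
  have := isProb_fib (T := T) hS θ
  have hm := av_pos (T := T) hS hg hpos θ
  set b := (av T μ g θ)⁻¹ • ∫ x, g x • x ∂(fib T μ θ) with hb
  have hbR : ‖b‖ ≤ R := by
    rw [hb, norm_smul, norm_inv, norm_eq_abs, abs_of_pos hm, inv_mul_le_iff₀ hm]
    have h := norm_integral_le_of_norm_le (hsf.integrable (hg.mul_const R)) (f := fun x => g x • x)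
      (hsf.mono fun x hx => by
        rw [norm_smul, norm_eq_abs, abs_of_pos (hpos x)]
        exact mul_le_mul_of_nonneg_left hx (hpos x).le)
    rw [integral_mul_const] at h
    exact h
  have hkey : ∫ x, g x * exp ⟪δ, x⟫ ∂(fib T μ θ) ≤ exp (⟪δ, b⟫ + 4 * R ^ 2 * ‖δ‖ ^ 2) * av T μ g θ := by
    have hpt : ∀ᵐ x ∂(fib T μ θ), g x * exp ⟪δ, x⟫ ≤
        exp ⟪δ, b⟫ * (g x * ⟪δ, x⟫ - g x * ⟪δ, b⟫ + g x * exp (4 * R ^ 2 * ‖δ‖ ^ 2)) := by
      filter_upwards [hsf] with x hx
      set y := ⟪δ, x⟫ - ⟪δ, b⟫ with hy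
      have h1 : exp ⟪δ, x⟫ = exp ⟪δ, b⟫ * exp y := by rw [← exp_add, hy]; ring_nf
      have h2 : y ^ 2 ≤ 4 * R ^ 2 * ‖δ‖ ^ 2 := by
        have h3 : |y| ≤ ‖δ‖ * (2 * R) := by
          rw [hy, ← inner_sub_right]
          refine (abs_real_inner_le_norm _ _).trans (mul_le_mul_of_nonneg_left ?_ (norm_nonneg _))
          exact (norm_sub_le _ _).trans (by linarith)
        have := pow_le_pow_left₀ (abs_nonneg y) h3 2
        rw [sq_abs] at this
        linarith
      have h4 : exp y ≤ y + exp (4 * R ^ 2 * ‖δ‖ ^ 2) :=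
        (exp_le_add_exp_sq y).trans (add_le_add le_rfl (exp_le_exp.2 h2))
      rw [h1]
      have h5 := mul_le_mul_of_nonneg_left h4 (mul_nonneg (exp_pos ⟪δ, b⟫).le (hpos x).le)
      nlinarith
    refine (integral_mono_ae (hsf.integrable (by fun_prop)) (hsf.integrable (by fun_prop)) hpt).trans (le_of_eq ?_)
    rw [integral_const_mul, integral_add (f := fun x => g x * ⟪δ, x⟫ - g x * ⟪δ, b⟫)
        (hsf.integrable (by fun_prop)) (hsf.integrable (by fun_prop)),
      integral_sub (hsf.integrable (by fun_prop)) (hsf.integrable (by fun_prop)), integral_mul_const, integral_mul_const]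
    have e : ∫ x, g x * ⟪δ, x⟫ ∂(fib T μ θ) = av T μ g θ * ⟪δ, b⟫ := by
      rw [hb, inner_smul_right, ← integral_inner (f := fun x => g x • x) (hsf.integrable (by fun_prop)),
        mul_inv_cancel_left₀ hm.ne']
      exact integral_congr_ae (Eventually.of_forall fun x => by simp [inner_smul_right])
    rw [e, exp_add]
    simp only [av]
    ring
  have hshift : av T μ g (θ + δ) = (∫ x, g x * exp ⟪δ, x⟫ ∂(fib T μ θ)) / exp (lam T μ (θ + δ) - lam T μ θ) := by
    rw [av_eq, integral_fib, lam, lam, exp_sub, exp_log (zf_pos hS _), exp_log (zf_pos hS _), smul_eq_mul]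
    have : zf T μ θ ≠ 0 := (zf_pos hS θ).ne'
    have e : ∀ x, wt T θ x • (g x * exp ⟪δ, x⟫) = wt T (θ + δ) x * g x := fun x => by
      simp only [wt, smul_eq_mul, mul_comm (g x), ← mul_assoc, ← exp_add, inner_add_left]
      ring_nf
    rw [integral_congr_ae (Eventually.of_forall e)]
    field_simp
  have hpos' := av_pos (T := T) hS hg hpos (θ + δ)
  have hnum : 0 < ∫ x, g x * exp ⟪δ, x⟫ ∂(fib T μ θ) := by
    rw [hshift] at hpos'
    exact (div_pos_iff_of_pos_right (exp_pos _)).1 hpos'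
  rw [hshift, log_div hnum.ne' (exp_ne_zero _), log_exp]
  have h1 := log_le_log hnum hkey
  rw [log_mul (exp_ne_zero _) hm.ne', log_exp] at h1
  have h2 := lam_lower (T := T) hS θ δ
  have e3 : ⟪(av T μ g θ)⁻¹ • cov T μ g θ, δ⟫ = ⟪δ, b⟫ - ⟪bary T μ θ, δ⟫ := by
    rw [real_inner_comm b δ, ← inner_sub_left, cov, smul_sub, smul_smul, inv_mul_cancel₀ hm.ne', one_smul]
  linarith

lemma av_bounds (hS : Supp μ R) (hR : 0 ≤ R) {T : ℝ} {g : Euc n → ℝ} (hg : Continuous g) (hpos : ∀ x, 0 < g x) :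
    ∃ a B, 0 < a ∧ ∀ θ, a ≤ av T μ g θ ∧ av T μ g θ ≤ B := by
  obtain ⟨x₀, -, hmin⟩ := (isCompact_closedBall (0 : Euc n) R).exists_isMinOn ⟨0, by simpa using hR⟩ hg.continuousOn
  obtain ⟨B, -, hB⟩ := exists_bound hR hg
  refine ⟨g x₀, B, hpos x₀, fun θ => ⟨?_, (le_abs_self _).trans (abs_av_le hS hB θ)⟩⟩
  have := isProb_fib (T := T) hS θ
  have h := integral_mono_ae (integrable_const (g x₀)) ((supp_fib hS θ).integrable hg)
    ((supp_fib (T := T) hS θ).mono fun x hx => hmin (by simpa using hx))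
  simpa [av] using h

lemma ent_gam_av_le (hS : Supp μ R) (hR : 0 ≤ R) (hμ : IsLC 0 μ) (hs : 0 < s) {g : Euc n → ℝ}
    {g' : Euc n → Euc n} (h : Pos1 g g') (x : Euc n) :
    ent (gam n) (fun G => av (s ^ 2) μ g (pt s x G))
      ≤ (1 / (2 * s ^ 2)) * qop s μ (fis g g') x := by
  obtain ⟨a, B, ha, hab⟩ := av_bounds (T := s ^ 2) hS hR h.cont h.pos
  obtain ⟨B', -, hB'⟩ := exists_bound hR h.cont
  have hT : 0 < s ^ 2 := by positivity
  have havp : ∀ θ, 0 < av (s ^ 2) μ g θ := fun θ => ha.trans_le (hab θ).1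
  have h1 := ent_exp_le_slc one_pos isLC_gam expInt_gam (fun G => log (av (s ^ 2) μ g (pt s x G)))
    (fun G => s • ((av (s ^ 2) μ g (pt s x G))⁻¹ • cov (s ^ 2) μ g (pt s x G)))
    (A := |log a| + |log B|) (G := s * (2 * B' * R) / a) (M := 4 * R ^ 2 * s ^ 2)
    (((continuous_av hS h.cont).comp (continuous_pt s x)).log fun G => (havp _).ne')
    ((((continuous_av hS h.cont).comp (continuous_pt s x)).inv₀ fun G => (havp _).ne').smul
      ((continuous_cov hS h.cont).comp (continuous_pt s x)) |>.const_smul s)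
    (fun G => by
      simp only [norm_smul, norm_inv, norm_eq_abs, abs_of_pos hs, abs_of_pos (havp _)]
      rw [mul_div_assoc]
      refine mul_le_mul_of_nonneg_left ?_ hs.le
      rw [← div_eq_inv_mul]
      exact div_le_div₀ ((norm_nonneg _).trans (norm_cov_le (T := s ^ 2) hS hR hB' (pt s x G)))
        (norm_cov_le hS hR hB' _) ha (hab _).1)
    (fun G => by
      have hl1 := log_le_log ha (hab (pt s x G)).1
      have hl2 := log_le_log (havp (pt s x G)) (hab (pt s x G)).2
      have hnn : 0 ≤ s * (2 * B' * R) / a * ‖G‖ := by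
        have := (norm_nonneg _).trans (norm_cov_le (T := s ^ 2) hS hR hB' (pt s x G))
        positivity
      rw [abs_le]
      constructor <;> linarith [neg_abs_le (log a), le_abs_self (log B), abs_nonneg (log a), abs_nonneg (log B)])
    (by positivity)
    (fun z δ => by
      have := log_av_taylor (T := s ^ 2) hS h.cont h.pos (pt s x z) (s • δ)
      have e : pt s x (z + δ) = pt s x z + s • δ := by simp only [pt]; module
      rw [e]
      rw [inner_smul_right, norm_smul, norm_eq_abs, abs_of_pos hs, mul_pow] at this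
      rw [real_inner_smul_left]
      linarith)
  simp only [exp_log (havp _)] at h1
  refine h1.trans ?_
  have hpt : ∀ G, av (s ^ 2) μ g (pt s x G) * ‖s • ((av (s ^ 2) μ g (pt s x G))⁻¹ • cov (s ^ 2) μ g (pt s x G))‖ ^ 2
      ≤ (1 / s ^ 2) * av (s ^ 2) μ (fis g g') (pt s x G) := fun G => by
    set m := av (s ^ 2) μ g (pt s x G) with hm
    have hm0 : 0 < m := havp _
    have h2 := norm_cov_sq_le hS hμ hT h.cont h.pos (pt s x G)
    have h3 := ent_fib_le hS hR hμ hT h (pt s x G)
    simp only [norm_smul, norm_inv, norm_eq_abs, abs_of_pos hs, abs_of_pos hm0, mul_pow]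
    rw [← hm, le_div_iff₀ hT] at h2
    have e : m * (s ^ 2 * ((m⁻¹) ^ 2 * ‖cov (s ^ 2) μ g (pt s x G)‖ ^ 2)) = ‖cov (s ^ 2) μ g (pt s x G)‖ ^ 2 * s ^ 2 / m := by
      field_simp
    rw [e, div_le_iff₀ hm0]
    have e2 : 1 / (2 * s ^ 2) * av (s ^ 2) μ (fis g g') (pt s x G) = (1 / s ^ 2 * av (s ^ 2) μ (fis g g') (pt s x G)) / 2 := by ring
    rw [e2] at h3
    nlinarith [mul_le_mul_of_nonneg_left h3 hm0.le]
  obtain ⟨Bf, -, hBf⟩ := exists_bound hR h.cont_fis
  have hi := (integrable_av (s := s) hS hR h.cont_fis x).const_mul (1 / s ^ 2)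
  refine (mul_le_mul_of_nonneg_left (integral_mono_of_nonneg (Eventually.of_forall fun G =>
    mul_nonneg (havp _).le (sq_nonneg _)) hi (Eventually.of_forall hpt)) (by norm_num)).trans (le_of_eq ?_)
  rw [integral_const_mul, qop]
  ring

/-- One step of the entropy decomposition along the proximal kernel. -/
lemma ent_step (hS : Supp μ R) (hR : 0 ≤ R) (hμ : IsLC 0 μ) (hs : 0 < s) {g : Euc n → ℝ}
    {g' : Euc n → Euc n} (h : Pos1 g g') :
    ent μ g ≤ (1 / s ^ 2) * ∫ x, fis g g' x ∂μ + ent μ (qop s μ g) := by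
  have hT : 0 < s ^ 2 := by positivity
  have hlog : Continuous fun x => g x * log (g x) := Real.continuous_mul_log.comp h.cont
  have hpt : ∀ x, qop s μ (fun y => g y * log (g y)) x - qop s μ g x * log (qop s μ g x)
      ≤ (1 / s ^ 2) * qop s μ (fis g g') x := fun x => by
    have h1 := ent_gam_av_le hS hR hμ hs h x
    obtain ⟨B, -, hB⟩ := exists_bound hR h.cont
    have hcav := (continuous_av (T := s ^ 2) hS h.cont).comp (continuous_pt s x)
    have hilog : Integrable (fun G => av (s ^ 2) μ g (pt s x G) * log (av (s ^ 2) μ g (pt s x G))) (gam n) := by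
      obtain ⟨C, hC⟩ := (isCompact_Icc (a := -B) (b := B)).exists_bound_of_continuousOn
        Real.continuous_mul_log.continuousOn
      exact Integrable.of_bound (Real.continuous_mul_log.comp hcav).aestronglyMeasurable C
        (Eventually.of_forall fun G => hC _ (abs_le.1 (abs_av_le hS hB _)))
    have hi := integrable_av (s := s) hS hR hlog x
    have h2 : ∫ G, (av (s ^ 2) μ (fun y => g y * log (g y)) (pt s x G)
        - av (s ^ 2) μ g (pt s x G) * log (av (s ^ 2) μ g (pt s x G))) ∂(gam n)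
        ≤ ∫ G, 1 / (2 * s ^ 2) * av (s ^ 2) μ (fis g g') (pt s x G) ∂(gam n) :=
      integral_mono (hi.sub hilog) ((integrable_av hS hR h.cont_fis x).const_mul _)
        fun G => ent_fib_le hS hR hμ hT h (pt s x G)
    rw [integral_sub hi hilog, integral_const_mul] at h2
    rw [ent] at h1
    simp only [qop] at h1 ⊢
    have e : 1 / s ^ 2 * ∫ G, av (s ^ 2) μ (fis g g') (pt s x G) ∂(gam n)
        = 2 * (1 / (2 * s ^ 2) * ∫ G, av (s ^ 2) μ (fis g g') (pt s x G) ∂(gam n)) := by ring
    linarith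
  have c1 := continuous_qop (s := s) hS hR hlog
  have c2 : Continuous fun x => qop s μ g x * log (qop s μ g x) :=
    Real.continuous_mul_log.comp (continuous_qop (s := s) hS hR h.cont)
  have h3 := integral_mono ((hS.integrable c1).sub (hS.integrable c2))
    ((hS.integrable (continuous_qop hS hR h.cont_fis)).const_mul _) hpt
  simp only [Pi.sub_apply] at h3
  rw [integral_sub (hS.integrable c1) (hS.integrable c2), integral_qop hS hR hlog, integral_const_mul,
    integral_qop hS hR h.cont_fis] at h3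
  simp only [ent, integral_qop hS hR h.cont]
  linarith

end

end Vale.Agent.P245
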