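import Vale.Agent.P245.PL
import Vale.Agent.P245.Ent

open MeasureTheory Real Filter Set
open scoped Topology ENNReal RealInnerProductSpace

namespace Vale.Agent.P245

/-- Euclidean space of dimension `n`. -/
abbrev Euc (n : ℕ) := EuclideanSpace ℝ (Fin n)

variable {n : ℕ}

/-- A measure with a `κ`-uniformly log-concave Lebesgue density. -/
def IsLC (κ : ℝ) (μ : Measure (Euc n)) : Prop :=
  ∃ p : Euc n → ℝ, Measurable p ∧ (∀ x, 0 ≤ p x) ∧
    (∀ x y : Euc n, ∀ a b : ℝ, 0 < a → 0 < b → a + b = 1 →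
      p x ^ a * p y ^ b * exp (κ * (a * b) / 2 * ‖x - y‖ ^ 2) ≤ p (a • x + b • y)) ∧
    μ = volume.withDensity (fun x => ENNReal.ofReal (p x))

/-- Every exponential moment of the norm is finite. -/
def ExpInt (μ : Measure (Euc n)) : Prop :=
  ∀ c : ℝ, Integrable (fun x => exp (c * ‖x‖)) μ

/-- The measure is carried by the closed ball of radius `R`. -/
def Supp (μ : Measure (Euc n)) (R : ℝ) : Prop := ∀ᵐ x ∂μ, ‖x‖ ≤ R

lemma Supp.integrable {μ : Measure (Euc n)} [IsFiniteMeasure μ] {R : ℝ} (h : Supp μ R)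
    {F : Type*} [NormedAddCommGroup F] {f : Euc n → F} (hf : Continuous f) : Integrable f μ := by
  obtain ⟨C, hC⟩ := (isCompact_closedBall (0 : Euc n) R).exists_bound_of_continuousOn hf.continuousOn
  exact Integrable.of_bound hf.aestronglyMeasurable C
    (h.mono fun x hx => hC x (by simpa using hx))

lemma Supp.expInt {μ : Measure (Euc n)} [IsFiniteMeasure μ] {R : ℝ} (h : Supp μ R) : ExpInt μ :=
  fun _ => h.integrable (by fun_prop)

lemma ExpInt.of_growth {μ : Measure (Euc n)} (h : ExpInt μ) {F : Type*} [NormedAddCommGroup F]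
    {f : Euc n → F} (hf : Continuous f) {A c : ℝ} (hb : ∀ x, ‖f x‖ ≤ A * exp (c * ‖x‖)) :
    Integrable f μ :=
  ((h c).const_mul A).mono' hf.aestronglyMeasurable (Eventually.of_forall hb)

lemma lintegral_pl {κ : ℝ} {μ : Measure (Euc n)} (hμ : IsLC κ μ) {a b : ℝ} (ha : 0 < a) (hb : 0 < b)
    (hab : a + b = 1) (F G H : Euc n → ℝ≥0∞) (hF : Measurable F) (hG : Measurable G) (hH : Measurable H)
    (hFGH : ∀ x y, F x ^ a * G y ^ b ≤
      H (a • x + b • y) * ENNReal.ofReal (exp (κ * (a * b) / 2 * ‖x - y‖ ^ 2))) :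
    (∫⁻ x, F x ∂μ) ^ a * (∫⁻ x, G x ∂μ) ^ b ≤ ∫⁻ x, H x ∂μ := by
  obtain ⟨p, hp, hp0, hineq, rfl⟩ := hμ
  rw [lintegral_withDensity_eq_lintegral_mul _ (by fun_prop) hF,
    lintegral_withDensity_eq_lintegral_mul _ (by fun_prop) hG,
    lintegral_withDensity_eq_lintegral_mul _ (by fun_prop) hH]
  refine pl_euclidean ha hb hab _ _ _ (by fun_prop) (by fun_prop) (by fun_prop) fun x y => ?_
  simp only [Pi.mul_apply]
  rw [ENNReal.mul_rpow_of_nonneg _ _ ha.le, ENNReal.mul_rpow_of_nonneg _ _ hb.le]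
  calc ENNReal.ofReal (p x) ^ a * F x ^ a * (ENNReal.ofReal (p y) ^ b * G y ^ b)
      = ENNReal.ofReal (p x) ^ a * ENNReal.ofReal (p y) ^ b * (F x ^ a * G y ^ b) := by ring
    _ ≤ ENNReal.ofReal (p x) ^ a * ENNReal.ofReal (p y) ^ b *
          (H (a • x + b • y) * ENNReal.ofReal (exp (κ * (a * b) / 2 * ‖x - y‖ ^ 2))) := by
        exact mul_le_mul' le_rfl (hFGH x y)
    _ = ENNReal.ofReal (p x ^ a * p y ^ b * exp (κ * (a * b) / 2 * ‖x - y‖ ^ 2)) * H (a • x + b • y) := by
        rw [ENNReal.ofReal_mul (by have := hp0 x; have := hp0 y; positivity),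
          ENNReal.ofReal_mul (Real.rpow_nonneg (hp0 x) _),
          ENNReal.ofReal_rpow_of_nonneg (hp0 x) ha.le, ENNReal.ofReal_rpow_of_nonneg (hp0 y) hb.le]
        ring
    _ ≤ _ := by gcongr; exact hineq x y a b ha hb hab

lemma abs_exp_sub_one_le' (y : ℝ) : |exp y - 1| ≤ |y| * exp |y| := by
  rcases le_total 0 y with h | h
  · rw [abs_of_nonneg h, abs_of_nonneg (by linarith [one_le_exp h])]
    have := add_one_le_exp (-y)
    have e : exp y * exp (-y) = 1 := by rw [← exp_add]; simp
    nlinarith [exp_pos y]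
  · rw [abs_of_nonpos h, abs_of_nonpos (by linarith [exp_le_one_iff.2 h])]
    have := add_one_le_exp y
    nlinarith [one_le_exp (neg_nonneg.2 h), mul_nonneg (neg_nonneg.2 h) (sub_nonneg.2 (one_le_exp (neg_nonneg.2 h)))]

/-- First order form of the Prekopa-Leindler inequality. -/
lemma pl_deriv {κ : ℝ} {μ : Measure (Euc n)} (hμ : IsLC κ μ) [IsProbabilityMeasure μ]
    {S : Set (Euc n)} (hS : MeasurableSet S) (hSae : ∀ᵐ x ∂μ, x ∈ S)
    {u w R : Euc n → ℝ} (hu : Continuous u) (hw : Continuous w) (hR : Continuous R)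
    (hiu : Integrable (fun x => exp (u x)) μ) (hiw : Integrable (fun x => exp (w x)) μ)
    (hiuu : Integrable (fun x => exp (u x) * u x) μ)
    (hiuR : Integrable (fun x => exp (u x) * R x) μ)
    (hiX : Integrable (fun x => exp (u x) * (|R x - u x| * exp |R x - u x|)) μ)
    (hkey : ∀ η > 0, ∃ ε₀ > 0, ∀ ε : ℝ, 0 < ε → ε < ε₀ → ε < 1 → ∀ x ∈ S, ∀ y ∈ S,
      (1 - ε) * u x + ε * w y - κ * ((1 - ε) * ε) / 2 * ‖x - y‖ ^ 2 ≤
        (1 - ε) * u ((1 - ε) • x + ε • y) + ε * R ((1 - ε) • x + ε • y) + ε * η) :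
    (∫ x, exp (u x) * u x ∂μ) - (∫ x, exp (u x) ∂μ) * log (∫ x, exp (u x) ∂μ)
      + (∫ x, exp (u x) ∂μ) * log (∫ x, exp (w x) ∂μ) ≤ ∫ x, exp (u x) * R x ∂μ := by
  set m := ∫ x, exp (u x) ∂μ with hm
  set Z := ∫ x, exp (w x) ∂μ with hZ
  have hm0 : 0 < m := integral_exp_pos hiu
  have hZ0 : 0 < Z := integral_exp_pos hiw
  set X := fun x => R x - u x with hX
  have hiuX : Integrable (fun x => exp (u x) * X x) μ := by
    refine (hiuR.sub hiuu).congr (Eventually.of_forall fun x => ?_)
    simp [hX, mul_sub]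
  have step : ∀ η > 0, ∀ᶠ ε in 𝓝[>] (0 : ℝ),
      log Z - log m ≤ η + (∫ x, exp (u x) * ((exp (ε * X x) - 1) / ε) ∂μ) / m := by
    intro η hη
    obtain ⟨ε₀, hε₀, h⟩ := hkey η hη
    filter_upwards [Ioo_mem_nhdsGT hε₀, Ioo_mem_nhdsGT (zero_lt_one : (0:ℝ) < 1)] with ε hε hε'
    obtain ⟨he0, he1⟩ := hε'
    have hiH : Integrable (fun x => exp (u x + ε * X x + ε * η)) μ := by
      refine ((hiu.add hiX).const_mul (exp (ε * η))).mono' (by fun_prop)
        (Eventually.of_forall fun x => ?_)
      simp only [norm_eq_abs, Pi.add_apply]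
      rw [abs_exp, exp_add, exp_add]
      have h1 := abs_le.1 (abs_exp_sub_one_le' (ε * X x))
      have h2 : |ε * X x| ≤ |X x| := by
        rw [abs_mul, abs_of_pos he0]; exact mul_le_of_le_one_left (abs_nonneg _) he1.le
      have h3 : exp (ε * X x) ≤ 1 + |X x| * exp |X x| := by
        have := mul_le_mul h2 (exp_le_exp.2 h2) (exp_pos _).le (abs_nonneg _)
        linarith [h1.2]
      calc exp (u x) * exp (ε * X x) * exp (ε * η)
          ≤ exp (u x) * (1 + |X x| * exp |X x|) * exp (ε * η) := by gcongr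
        _ = _ := by simp only [hX]; ring
    have hpl := lintegral_pl hμ (a := 1 - ε) (b := ε) (by linarith) he0 (by ring)
      (S.indicator fun x => ENNReal.ofReal (exp (u x))) (S.indicator fun x => ENNReal.ofReal (exp (w x)))
      (fun x => ENNReal.ofReal (exp (u x + ε * X x + ε * η)))
      ((by fun_prop : Measurable _).indicator hS) ((by fun_prop : Measurable _).indicator hS) (by fun_prop)
      (fun x y => ?_)
    · have e1 : ∫⁻ x, S.indicator (fun x => ENNReal.ofReal (exp (u x))) x ∂μ = ENNReal.ofReal m := by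
        rw [lintegral_congr_ae (hSae.mono fun x hx => Set.indicator_of_mem hx _),
          ← ofReal_integral_eq_lintegral_ofReal hiu (Eventually.of_forall fun x => (exp_pos _).le)]
      have e2 : ∫⁻ x, S.indicator (fun x => ENNReal.ofReal (exp (w x))) x ∂μ = ENNReal.ofReal Z := by
        rw [lintegral_congr_ae (hSae.mono fun x hx => Set.indicator_of_mem hx _),
          ← ofReal_integral_eq_lintegral_ofReal hiw (Eventually.of_forall fun x => (exp_pos _).le)]
      rw [e1, e2, ← ofReal_integral_eq_lintegral_ofReal hiH (Eventually.of_forall fun x => (exp_pos _).le),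
        ENNReal.ofReal_rpow_of_pos hm0, ENNReal.ofReal_rpow_of_pos hZ0,
        ← ENNReal.ofReal_mul (by positivity), ENNReal.ofReal_le_ofReal_iff (integral_nonneg fun x => (exp_pos _).le)] at hpl
      have hiA : Integrable (fun x => exp (u x) * ((exp (ε * X x) - 1) / ε)) μ := by
        refine hiX.mono' (by fun_prop) (Eventually.of_forall fun x => ?_)
        rw [norm_mul, norm_div, norm_eq_abs, norm_eq_abs, norm_eq_abs, abs_exp, abs_of_pos he0]
        refine mul_le_mul_of_nonneg_left ?_ (exp_pos _).le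
        rw [div_le_iff₀ he0]
        refine (abs_exp_sub_one_le' _).trans ?_
        rw [abs_mul, abs_of_pos he0]
        have : exp (ε * |X x|) ≤ exp |X x| :=
          exp_le_exp.2 (mul_le_of_le_one_left (abs_nonneg _) he1.le)
        calc ε * |X x| * exp (ε * |X x|) ≤ ε * |X x| * exp |X x| := by gcongr
          _ = _ := by simp only [hX]; ring
      have e3 : ∫ x, exp (u x + ε * X x + ε * η) ∂μ
          = exp (ε * η) * (m + ε * ∫ x, exp (u x) * ((exp (ε * X x) - 1) / ε) ∂μ) := by
        rw [hm, ← integral_const_mul ε, ← integral_add hiu (hiA.const_mul ε), ← integral_const_mul]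
        refine integral_congr_ae (Eventually.of_forall fun x => ?_)
        simp only [exp_add]
        field_simp
        ring
      rw [e3] at hpl
      set I := ∫ x, exp (u x) * ((exp (ε * X x) - 1) / ε) ∂μ with hI
      have hlhs : 0 < m ^ (1 - ε) * Z ^ ε := by positivity
      have hpos : 0 < m + ε * I := by
        have := hlhs.trans_le hpl
        exact (mul_pos_iff_of_pos_left (exp_pos _)).1 this
      have hlog := log_le_log hlhs hpl
      rw [log_mul (by positivity) (by positivity), log_rpow hm0, log_rpow hZ0,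
        log_mul (exp_ne_zero _) hpos.ne', log_exp] at hlog
      have h4 : log (m + ε * I) - log m ≤ ε * I / m := by
        rw [← log_div hpos.ne' hm0.ne']
        refine (log_le_sub_one_of_pos (by positivity)).trans (le_of_eq ?_)
        field_simp
        ring
      have : ε * (log Z - log m) ≤ ε * (η + I / m) := by
        rw [mul_add ε η, ← mul_div_assoc]
        linarith
      exact le_of_mul_le_mul_left this he0
    · by_cases hx : x ∈ S
      swap
      · simp [hx, ENNReal.zero_rpow_of_pos (sub_pos.2 he1)]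
      by_cases hy : y ∈ S
      swap
      · simp [hy, ENNReal.zero_rpow_of_pos he0]
      rw [Set.indicator_of_mem hx, Set.indicator_of_mem hy, ENNReal.ofReal_rpow_of_pos (exp_pos _),
        ENNReal.ofReal_rpow_of_pos (exp_pos _), ← ENNReal.ofReal_mul (by positivity),
        ← ENNReal.ofReal_mul (exp_pos _).le]
      refine ENNReal.ofReal_le_ofReal ?_
      rw [← exp_mul, ← exp_mul, ← exp_add, ← exp_add, exp_le_exp]
      have := h ε he0 hε.2 he1 x hx y hy
      simp only [hX]
      linarith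
  have hlim : Tendsto (fun ε : ℝ => ∫ x, exp (u x) * ((exp (ε * X x) - 1) / ε) ∂μ) (𝓝[>] 0)
      (𝓝 (∫ x, exp (u x) * X x ∂μ)) := by
    refine tendsto_integral_filter_of_dominated_convergence
      (fun x => exp (u x) * (|X x| * exp |X x|)) (Eventually.of_forall fun ε => by fun_prop) ?_ hiX ?_
    · filter_upwards [Ioo_mem_nhdsGT (zero_lt_one : (0:ℝ) < 1)] with ε hε
      refine Eventually.of_forall fun x => ?_
      rw [norm_mul, norm_div, norm_eq_abs, norm_eq_abs, norm_eq_abs, abs_exp, abs_of_pos hε.1]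
      refine mul_le_mul_of_nonneg_left ?_ (exp_pos _).le
      rw [div_le_iff₀ hε.1]
      refine (abs_exp_sub_one_le' _).trans ?_
      rw [abs_mul, abs_of_pos hε.1]
      have : exp (ε * |X x|) ≤ exp |X x| :=
        exp_le_exp.2 (mul_le_of_le_one_left (abs_nonneg _) hε.2.le)
      calc ε * |X x| * exp (ε * |X x|) ≤ ε * |X x| * exp |X x| :=
            mul_le_mul_of_nonneg_left this (mul_nonneg hε.1.le (abs_nonneg _))
        _ = _ := by ring
    · refine Eventually.of_forall fun x => Tendsto.const_mul _ ?_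
      have hd : HasDerivAt (fun t : ℝ => exp (t * X x)) (X x) 0 := by
        simpa using ((hasDerivAt_id (0 : ℝ)).mul_const (X x)).exp
      have := hd.tendsto_slope_zero_right
      simpa [div_eq_inv_mul] using this
  have hfin : ∀ η > 0, log Z - log m ≤ η + (∫ x, exp (u x) * X x ∂μ) / m := fun η hη =>
    ge_of_tendsto (tendsto_const_nhds.add (hlim.div_const m)) (step η hη)
  have h5 : log Z - log m ≤ (∫ x, exp (u x) * X x ∂μ) / m :=
    le_of_forall_pos_le_add fun η hη => by linarith [hfin η hη]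
  rw [le_div_iff₀ hm0] at h5
  have h6 : ∫ x, exp (u x) * X x ∂μ = (∫ x, exp (u x) * R x ∂μ) - ∫ x, exp (u x) * u x ∂μ := by
    rw [← integral_sub hiuR hiuu]
    exact integral_congr_ae (Eventually.of_forall fun x => by simp [hX, mul_sub])
  linarith

end Vale.Agent.P245
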