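import Vale.Agent.P245.LC

open MeasureTheory Real Filter Set
open scoped Topology ENNReal RealInnerProductSpace

namespace Vale.Agent.P245

variable {n : ℕ}

lemma quad_max {E : Type*} [NormedAddCommGroup E] [InnerProductSpace ℝ E] (g d : E) {k : ℝ}
    (hk : 0 < k) : ⟪g, d⟫ - k / 2 * ‖d‖ ^ 2 ≤ ‖g‖ ^ 2 / (2 * k) := by
  have h := real_inner_le_norm g d
  have h2 : ‖g‖ * ‖d‖ - k / 2 * ‖d‖ ^ 2 ≤ ‖g‖ ^ 2 / (2 * k) := by
    rw [le_div_iff₀ (by positivity)]
    nlinarith [sq_nonneg (‖g‖ - k * ‖d‖)]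
  linarith

lemma comb_left (ε : ℝ) (x y : Euc n) : x = ((1 - ε) • x + ε • y) + ε • (x - y) := by module

/-- Log-Sobolev inequality for a uniformly log-concave measure, smooth exponent with bounded gradient. -/
lemma ent_exp_le_slc {κ : ℝ} (hκ : 0 < κ) {μ : Measure (Euc n)} (hμ : IsLC κ μ) [IsProbabilityMeasure μ]
    (hE : ExpInt μ) (u : Euc n → ℝ) (u' : Euc n → Euc n) {A G M : ℝ} (hu : Continuous u)
    (hu' : Continuous u') (hG : ∀ x, ‖u' x‖ ≤ G) (hA : ∀ x, |u x| ≤ A + G * ‖x‖) (hM : 0 ≤ M)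
    (hT : ∀ z h, u (z + h) ≤ u z + ⟪u' z, h⟫ + M * ‖h‖ ^ 2) :
    ent μ (fun x => exp (u x)) ≤ (1 / (2 * κ)) * ∫ x, exp (u x) * ‖u' x‖ ^ 2 ∂μ := by
  have hG0 : 0 ≤ G := (norm_nonneg _).trans (hG 0)
  set B := G ^ 2 / (2 * κ) + A with hB
  have hiu : Integrable (fun x => exp (u x)) μ :=
    hE.of_growth (by fun_prop) (A := exp A) (c := G) fun x => by
      rw [norm_eq_abs, abs_exp, ← exp_add]; exact exp_le_exp.2 ((le_abs_self _).trans (hA x))
  have hRb : ∀ x, |‖u' x‖ ^ 2 / (2 * κ)| ≤ G ^ 2 / (2 * κ) := fun x => by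
    rw [abs_of_nonneg (by positivity)]
    have := hG x
    gcongr
  have key := pl_deriv hμ (S := univ) MeasurableSet.univ (Eventually.of_forall fun _ => mem_univ _)
    (u := u) (w := fun _ => 0) (R := fun x => ‖u' x‖ ^ 2 / (2 * κ)) hu continuous_const (by fun_prop)
    hiu (integrable_const _) ?_ ?_ ?_ ?_
  · have e : ∫ x, exp (u x) * (‖u' x‖ ^ 2 / (2 * κ)) ∂μ = (1 / (2 * κ)) * ∫ x, exp (u x) * ‖u' x‖ ^ 2 ∂μ := by
      rw [← integral_const_mul]
      exact integral_congr_ae (Eventually.of_forall fun x => by ring)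
    simp only [exp_zero, integral_const, probReal_univ, one_smul, log_one, mul_zero, add_zero, e] at key
    simpa [ent, log_exp] using key
  · refine hE.of_growth (by fun_prop) (A := exp A * exp A) (c := G + G) fun x => ?_
    rw [norm_eq_abs, abs_mul, abs_exp]
    have h1 := (le_abs_self _).trans (hA x)
    have h2 : |u x| ≤ exp (A + G * ‖x‖) := (hA x).trans ((le_add_of_nonneg_right zero_le_one).trans (add_one_le_exp _))
    refine (mul_le_mul (exp_le_exp.2 h1) h2 (abs_nonneg _) (exp_pos _).le).trans (le_of_eq ?_)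
    rw [← exp_add, ← exp_add, ← exp_add]; ring_nf
  · refine hE.of_growth (by fun_prop) (A := exp A * (G ^ 2 / (2 * κ))) (c := G) fun x => ?_
    rw [norm_eq_abs, abs_mul, abs_exp]
    have h1 := (le_abs_self _).trans (hA x)
    refine (mul_le_mul (exp_le_exp.2 h1) (hRb x) (abs_nonneg _) (exp_pos _).le).trans (le_of_eq ?_)
    rw [exp_add]; ring
  · refine hE.of_growth (by fun_prop) (A := exp (A + 2 * B)) (c := 3 * G) fun x => ?_
    set X := |‖u' x‖ ^ 2 / (2 * κ) - u x| with hX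
    rw [norm_eq_abs, abs_mul, abs_exp, abs_of_nonneg (by positivity)]
    have h1 := (le_abs_self _).trans (hA x)
    have h2 : X ≤ B + G * ‖x‖ := (abs_sub _ _).trans (by linarith [hRb x, hA x])
    have h3 : X * exp X ≤ exp (2 * X) := by
      rw [two_mul, exp_add]
      gcongr
      linarith [add_one_le_exp X]
    refine (mul_le_mul (exp_le_exp.2 h1) (h3.trans (exp_le_exp.2 (by linarith : 2 * X ≤ 2 * (B + G * ‖x‖))))
      (by positivity) (exp_pos _).le).trans (le_of_eq ?_)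
    rw [← exp_add, ← exp_add]; ring_nf
  · intro η hη
    refine ⟨min (κ / (4 * M + 1)) (η * κ ^ 2 / (2 * M * G ^ 2 + 1)), by positivity, fun ε he hlt he1 x _ y _ => ?_⟩
    set z := (1 - ε) • x + ε • y with hz
    set d := x - y with hd
    have hx : x = z + ε • d := comb_left ε x y
    have hTz := hT z (ε • d)
    rw [← hx, inner_smul_right, norm_smul, norm_eq_abs, abs_of_pos he, mul_pow] at hTz
    have e1 : ε * (4 * M + 1) ≤ κ := ((lt_min_iff.1 hlt).1.le.trans_eq rfl).trans' le_rfl |> fun h =>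
      (le_div_iff₀ (by positivity)).1 h
    have e2 : ε * (2 * M * G ^ 2 + 1) ≤ η * κ ^ 2 := (le_div_iff₀ (by positivity)).1 (lt_min_iff.1 hlt).2.le
    set k := κ - 2 * M * ε with hkdef
    have hk2 : κ / 2 ≤ k := by nlinarith
    have hk : 0 < k := by linarith
    have hq := quad_max (u' z) d hk
    have h3 : ‖u' z‖ ^ 2 / (2 * k) ≤ ‖u' z‖ ^ 2 / (2 * κ) + η := by
      rw [div_add' _ _ _ (by positivity), div_le_div_iff₀ (by positivity) (by positivity)]
      have hg2 : ‖u' z‖ ^ 2 ≤ G ^ 2 := by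
        have := hG z
        gcongr
      nlinarith [mul_le_mul_of_nonneg_left hg2 (by positivity : 0 ≤ 4 * M * ε),
        mul_le_mul_of_nonneg_left hk2 (by positivity : 0 ≤ 4 * κ * η)]
    have h4 : (1 - ε) * (u x - u z) - κ * ((1 - ε) * ε) / 2 * ‖d‖ ^ 2
        ≤ (1 - ε) * ε * (⟪u' z, d⟫ - k / 2 * ‖d‖ ^ 2) := by
      have := mul_le_mul_of_nonneg_left hTz (sub_nonneg.2 he1.le)
      rw [hkdef]; nlinarith
    have h5 : (1 - ε) * ε * (⟪u' z, d⟫ - k / 2 * ‖d‖ ^ 2) ≤ (1 - ε) * ε * (‖u' z‖ ^ 2 / (2 * κ) + η) :=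
      mul_le_mul_of_nonneg_left (hq.trans h3) (mul_nonneg (sub_nonneg.2 he1.le) he.le)
    have h6 : (1 - ε) * ε * (‖u' z‖ ^ 2 / (2 * κ) + η) ≤ ε * (‖u' z‖ ^ 2 / (2 * κ) + η) :=
      mul_le_mul_of_nonneg_right (by nlinarith) (by positivity)
    linarith

lemma uniform_taylor {u : Euc n → ℝ} {u' : Euc n → Euc n}
    (hd : ∀ x, HasFDerivAt u (innerSL ℝ (u' x)) x) (hc : Continuous u') (R : ℝ) {η : ℝ} (hη : 0 < η) :
    ∃ δ > 0, ∀ x z : Euc n, ‖x‖ ≤ R → ‖z‖ ≤ R → ‖x - z‖ < δ → u x - u z ≤ ⟪u' z, x - z⟫ + η * ‖x - z‖ := by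
  obtain ⟨δ, hδ, hu⟩ := Metric.uniformContinuousOn_iff_le.1
    ((isCompact_closedBall (0 : Euc n) R).uniformContinuousOn_of_continuous hc.continuousOn) η hη
  refine ⟨δ, hδ, fun x z hx hz hxz => ?_⟩
  set s := Metric.closedBall (0 : Euc n) R ∩ Metric.closedBall z δ with hs
  have hxs : x ∈ s := ⟨by simpa using hx, by simpa [dist_eq_norm] using hxz.le⟩
  have hzs : z ∈ s := ⟨by simpa using hz, Metric.mem_closedBall_self hδ.le⟩
  have := ((convex_closedBall _ _).inter (convex_closedBall _ _)).norm_image_sub_le_of_norm_hasFDerivWithin_le'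
    (𝕜 := ℝ) (f := u) (f' := fun w => innerSL ℝ (u' w)) (φ := innerSL ℝ (u' z)) (C := η) (s := s)
    (fun w _ => (hd w).hasFDerivWithinAt) (fun w hw => ?_) hzs hxs
  · have := (le_abs_self _).trans (this.trans_eq' (norm_eq_abs _).symm)
    simp only [innerSL_apply_apply] at this
    linarith
  · rw [← map_sub, innerSL_apply_norm, ← dist_eq_norm]
    exact hu w hw.1 z hzs.1 hw.2

/-- Log-Sobolev inequality for a uniformly log-concave measure on a bounded set. -/
lemma ent_exp_le_slc_supp {κ R : ℝ} (hκ : 0 < κ) {μ : Measure (Euc n)} (hμ : IsLC κ μ)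
    [IsProbabilityMeasure μ] (hS : Supp μ R) (hR : 0 ≤ R) (u : Euc n → ℝ) (u' : Euc n → Euc n)
    (hd : ∀ x, HasFDerivAt u (innerSL ℝ (u' x)) x) (hu' : Continuous u') :
    ent μ (fun x => exp (u x)) ≤ (1 / (2 * κ)) * ∫ x, exp (u x) * ‖u' x‖ ^ 2 ∂μ := by
  have hu : Continuous u := continuous_iff_continuousAt.2 fun x => (hd x).continuousAt
  have key := pl_deriv hμ (S := Metric.closedBall 0 R) measurableSet_closedBall
    (hS.mono fun x hx => by simpa using hx)
    (u := u) (w := fun _ => 0) (R := fun x => ‖u' x‖ ^ 2 / (2 * κ)) hu continuous_const (by fun_prop)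
    (hS.integrable (by fun_prop)) (integrable_const _) (hS.integrable (by fun_prop))
    (hS.integrable (by fun_prop)) (hS.integrable (by fun_prop)) ?_
  · have e : ∫ x, exp (u x) * (‖u' x‖ ^ 2 / (2 * κ)) ∂μ = (1 / (2 * κ)) * ∫ x, exp (u x) * ‖u' x‖ ^ 2 ∂μ := by
      rw [← integral_const_mul]
      exact integral_congr_ae (Eventually.of_forall fun x => by ring)
    simp only [exp_zero, integral_const, probReal_univ, one_smul, log_one, mul_zero, add_zero, e] at key
    simpa [ent, log_exp] using key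
  · intro η hη
    have hη' : 0 < η / (2 * R + 1) := by positivity
    obtain ⟨δ, hδ, ht⟩ := uniform_taylor hd hu' R hη'
    refine ⟨δ / (2 * R + 1), by positivity, fun ε he hlt he1 x hx y hy => ?_⟩
    rw [mem_closedBall_zero_iff] at hx hy
    set z := (1 - ε) • x + ε • y with hz
    set d := x - y with hdd
    have hxz : x - z = ε • d := by rw [hz, hdd]; module
    have hzR : ‖z‖ ≤ R := by
      rw [hz]
      refine (norm_add_le _ _).trans ?_
      rw [norm_smul, norm_smul, norm_eq_abs, norm_eq_abs, abs_of_pos he, abs_of_pos (sub_pos.2 he1)]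
      nlinarith [mul_le_mul_of_nonneg_left hx (sub_nonneg.2 he1.le), mul_le_mul_of_nonneg_left hy he.le]
    have hdn : ‖d‖ ≤ 2 * R + 1 := (norm_sub_le _ _).trans (by linarith)
    have hsmall : ‖x - z‖ < δ := by
      rw [hxz, norm_smul, norm_eq_abs, abs_of_pos he]
      calc ε * ‖d‖ ≤ ε * (2 * R + 1) := by gcongr
        _ < δ := (lt_div_iff₀ (by positivity)).1 hlt
    have h1 := ht x z hx hzR hsmall
    rw [hxz, inner_smul_right, norm_smul, norm_eq_abs, abs_of_pos he] at h1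
    have h2 : η / (2 * R + 1) * ‖d‖ ≤ η := by
      rw [div_mul_eq_mul_div, div_le_iff₀ (by positivity)]; gcongr
    have hq := quad_max (u' z) d hκ
    have h4 := mul_le_mul_of_nonneg_left h1 (sub_nonneg.2 he1.le)
    have h5 : (1 - ε) * ε * (⟪u' z, d⟫ - κ / 2 * ‖d‖ ^ 2 + η / (2 * R + 1) * ‖d‖)
        ≤ (1 - ε) * ε * (‖u' z‖ ^ 2 / (2 * κ) + η) :=
      mul_le_mul_of_nonneg_left (by linarith) (mul_nonneg (sub_nonneg.2 he1.le) he.le)
    have h6 : (1 - ε) * ε * (‖u' z‖ ^ 2 / (2 * κ) + η) ≤ ε * (‖u' z‖ ^ 2 / (2 * κ) + η) :=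
      mul_le_mul_of_nonneg_right (by nlinarith) (by positivity)
    nlinarith

/-- Linear functionals of a uniformly log-concave measure are subgaussian. -/
lemma log_integral_exp_inner_le {κ : ℝ} (hκ : 0 < κ) {μ : Measure (Euc n)} (hμ : IsLC κ μ)
    [IsProbabilityMeasure μ] (hE : ExpInt μ) (v : Euc n) :
    log (∫ x, exp ⟪v, x⟫ ∂μ) ≤ (∫ x, ⟪v, x⟫ ∂μ) + ‖v‖ ^ 2 / (2 * κ) := by
  have hinner : ∀ x : Euc n, |⟪v, x⟫| ≤ ‖v‖ * ‖x‖ := fun x => abs_real_inner_le_norm v x
  have hexpabs : ∀ x : Euc n, |⟪v, x⟫| ≤ exp (‖v‖ * ‖x‖) := fun x =>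
    (hinner x).trans ((le_add_of_nonneg_right zero_le_one).trans (add_one_le_exp _))
  have hiv : Integrable (fun x => ⟪v, x⟫) μ :=
    hE.of_growth (by fun_prop) (A := 1) (c := ‖v‖) fun x => by simpa using hexpabs x
  set B := ‖v‖ ^ 2 / (2 * κ) with hB
  have hB0 : 0 ≤ B := by positivity
  have key := pl_deriv hμ (S := univ) MeasurableSet.univ (Eventually.of_forall fun _ => mem_univ _)
    (u := fun _ => 0) (w := fun x => ⟪v, x⟫) (R := fun x => ⟪v, x⟫ + B) continuous_const (by fun_prop) (by fun_prop)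
    (integrable_const _)
    (hE.of_growth (by fun_prop) (A := 1) (c := ‖v‖) fun x => by
      simpa using (le_abs_self _).trans (hinner x))
    (integrable_const _) (by simpa using hiv.add (integrable_const B)) ?_ ?_
  · simp only [exp_zero, one_mul, mul_zero, integral_const, probReal_univ, one_smul, log_one, sub_zero,
      smul_eq_mul, zero_add] at key
    rw [integral_add hiv (integrable_const B), integral_const, probReal_univ, one_smul] at key
    linarith
  · refine hE.of_growth (by fun_prop) (A := exp (2 * B)) (c := 2 * ‖v‖) fun x => ?_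
    simp only [exp_zero, one_mul, sub_zero, norm_eq_abs, abs_mul, abs_abs, abs_exp]
    set X := |⟪v, x⟫ + B| with hX
    have h2 : X ≤ B + ‖v‖ * ‖x‖ := (abs_add_le _ _).trans (by rw [abs_of_nonneg hB0]; linarith [hinner x])
    have h3 : X * exp X ≤ exp (2 * X) := by
      rw [two_mul, exp_add]
      gcongr
      linarith [add_one_le_exp X]
    refine h3.trans ((exp_le_exp.2 (by linarith : 2 * X ≤ 2 * B + 2 * ‖v‖ * ‖x‖)).trans (le_of_eq ?_))
    rw [exp_add]
  · intro η hη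
    refine ⟨1, one_pos, fun ε he _ he1 x _ y _ => ?_⟩
    set z := (1 - ε) • x + ε • y with hz
    set d := x - y with hd
    have hy : y = z - (1 - ε) • d := by rw [hz, hd]; module
    have hq := quad_max (-v) d hκ
    rw [inner_neg_left, norm_neg] at hq
    have e : ⟪v, y⟫ = ⟪v, z⟫ - (1 - ε) * ⟪v, d⟫ := by rw [hy, inner_sub_right, inner_smul_right]
    have h5 := mul_le_mul_of_nonneg_left hq (mul_nonneg he.le (sub_nonneg.2 he1.le))
    have h6 : ε * (1 - ε) * B ≤ ε * B := mul_le_mul_of_nonneg_right (by nlinarith) hB0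
    simp only [mul_zero, zero_add, e]
    nlinarith [mul_pos he hη]

/-- Entropy bound from log-concavity alone. -/
lemma ent_exp_le_zero {R lam : ℝ} {μ : Measure (Euc n)} (hμ : IsLC 0 μ)
    [IsProbabilityMeasure μ] (hS : Supp μ R) (hR : 0 ≤ R) (hlam : 0 < lam) (u : Euc n → ℝ) (u' : Euc n → Euc n)
    (hd : ∀ x, HasFDerivAt u (innerSL ℝ (u' x)) x) (hu' : Continuous u') :
    ent μ (fun x => exp (u x)) ≤ (1 / (2 * lam)) * ∫ x, exp (u x) * ‖u' x‖ ^ 2 ∂μ
      + lam * ∫ x, exp (u x) * ‖x‖ ^ 2 ∂μ + lam * (∫ x, exp (u x) ∂μ) * ∫ x, ‖x‖ ^ 2 ∂μ := by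
  have hu : Continuous u := continuous_iff_continuousAt.2 fun x => (hd x).continuousAt
  have key := pl_deriv hμ (S := Metric.closedBall 0 R) measurableSet_closedBall
    (hS.mono fun x hx => by simpa using hx)
    (u := u) (w := fun y => -(lam * ‖y‖ ^ 2)) (R := fun x => ‖u' x‖ ^ 2 / (2 * lam) + lam * ‖x‖ ^ 2)
    hu (by fun_prop) (by fun_prop)
    (hS.integrable (by fun_prop)) (hS.integrable (by fun_prop)) (hS.integrable (by fun_prop))
    (hS.integrable (by fun_prop)) (hS.integrable (by fun_prop)) ?_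
  · have e : ∫ x, exp (u x) * (‖u' x‖ ^ 2 / (2 * lam) + lam * ‖x‖ ^ 2) ∂μ
        = (1 / (2 * lam)) * ∫ x, exp (u x) * ‖u' x‖ ^ 2 ∂μ + lam * ∫ x, exp (u x) * ‖x‖ ^ 2 ∂μ := by
      rw [← integral_const_mul, ← integral_const_mul, ← integral_add (hS.integrable (by fun_prop)) (hS.integrable (by fun_prop))]
      exact integral_congr_ae (Eventually.of_forall fun x => by ring)
    rw [e] at key
    have hj := integral_le_log_integral_exp (μ := μ) (φ := fun y => -(lam * ‖y‖ ^ 2))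
      (hS.integrable (by fun_prop)) (hS.integrable (by fun_prop))
    rw [integral_neg, integral_const_mul] at hj
    have hm : 0 ≤ ∫ x, exp (u x) ∂μ := integral_nonneg fun x => (exp_pos _).le
    simp only [ent, log_exp]
    nlinarith
  · intro η hη
    have hη' : 0 < η / (2 * R + 1) := by positivity
    obtain ⟨δ, hδ, ht⟩ := uniform_taylor hd hu' R hη'
    refine ⟨δ / (2 * R + 1), by positivity, fun ε he hlt he1 x hx y hy => ?_⟩
    rw [mem_closedBall_zero_iff] at hx hy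
    set z := (1 - ε) • x + ε • y with hz
    set d := x - y with hdd
    have hxz : x - z = ε • d := by rw [hz, hdd]; module
    have hdz : (1 - ε) • d = z - y := by rw [hz, hdd]; module
    have hzR : ‖z‖ ≤ R := by
      rw [hz]
      refine (norm_add_le _ _).trans ?_
      rw [norm_smul, norm_smul, norm_eq_abs, norm_eq_abs, abs_of_pos he, abs_of_pos (sub_pos.2 he1)]
      nlinarith [mul_le_mul_of_nonneg_left hx (sub_nonneg.2 he1.le), mul_le_mul_of_nonneg_left hy he.le]
    have hdn : ‖d‖ ≤ 2 * R + 1 := (norm_sub_le _ _).trans (by linarith)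
    have hsmall : ‖x - z‖ < δ := by
      rw [hxz, norm_smul, norm_eq_abs, abs_of_pos he]
      calc ε * ‖d‖ ≤ ε * (2 * R + 1) := by gcongr
        _ < δ := (lt_div_iff₀ (by positivity)).1 hlt
    have h1 := ht x z hx hzR hsmall
    rw [hxz, inner_smul_right, norm_smul, norm_eq_abs, abs_of_pos he] at h1
    have h2 : (1 - ε) * (η / (2 * R + 1) * ‖d‖) ≤ η := by
      have h0 : η / (2 * R + 1) * ‖d‖ ≤ η := by
        rw [div_mul_eq_mul_div, div_le_iff₀ (by positivity)]; gcongr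
      have : 0 ≤ η / (2 * R + 1) * ‖d‖ := by positivity
      nlinarith
    have h4 := mul_le_mul_of_nonneg_left h1 (sub_nonneg.2 he1.le)
    have e : (1 - ε) * ⟪u' z, d⟫ = ⟪u' z, z - y⟫ := by rw [← hdz, inner_smul_right]
    rw [inner_sub_right (u' z) z y] at e
    have n1 := real_inner_le_norm (u' z) z
    have n2 := (neg_le_abs _).trans (abs_real_inner_le_norm (u' z) y)
    have hA : ‖u' z‖ * ‖z‖ + ‖u' z‖ * ‖y‖ - lam * ‖y‖ ^ 2 ≤ ‖u' z‖ ^ 2 / (2 * lam) + lam * ‖z‖ ^ 2 := by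
      rw [div_add' _ _ _ (by positivity), le_div_iff₀ (by positivity)]
      nlinarith [sq_nonneg (‖u' z‖ - 2 * lam * ‖z‖), sq_nonneg (‖u' z‖ - 2 * lam * ‖y‖)]
    have h5 := mul_le_mul_of_nonneg_left
      (by linarith : (1 - ε) * ⟪u' z, d⟫ + (1 - ε) * (η / (2 * R + 1) * ‖d‖) - lam * ‖y‖ ^ 2
        ≤ ‖u' z‖ ^ 2 / (2 * lam) + lam * ‖z‖ ^ 2 + η) he.le
    nlinarith

end Vale.Agent.P245
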