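import Vale.Agent.P245.Poincare

open MeasureTheory Real Filter Set
open scoped Topology RealInnerProductSpace

namespace Vale.Agent.P245

variable {n : ℕ}

/-- Expectation under the law of the localisation parameter at time `t`. -/
noncomputable def elaw (t : ℝ) (μ : Measure (Euc n)) (h : Euc n → ℝ) : ℝ :=
  ∫ x, ∫ G, h (pt (√t) x G) ∂(gam n) ∂μ

lemma continuous_gint {X : Type*} [TopologicalSpace X] [FirstCountableTopology X] {H : X → Euc n → ℝ}
    (hH : Continuous (Function.uncurry H)) {B : ℝ} (hB : ∀ p G, |H p G| ≤ B) :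
    Continuous fun p => ∫ G, H p G ∂(gam n) :=
  continuous_of_dominated (bound := fun _ => B)
    (fun p => (hH.comp (Continuous.prodMk_right p)).aestronglyMeasurable)
    (fun p => Eventually.of_forall fun G => hB p G) (integrable_const B)
    (Eventually.of_forall fun G => hH.comp (Continuous.prodMk_left G))

lemma abs_gint_le {H : Euc n → ℝ} {B : ℝ} (hB : ∀ G, |H G| ≤ B) : |∫ G, H G ∂(gam n)| ≤ B := by
  have h := norm_integral_le_of_norm_le_const (μ := gam n) (f := H) (C := B) (Eventually.of_forall hB)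
  simpa using h

lemma integrable_gam_bdd {H : Euc n → ℝ} (hH : Continuous H) {B : ℝ} (hB : ∀ G, |H G| ≤ B) :
    Integrable H (gam n) :=
  Integrable.of_bound hH.aestronglyMeasurable B (Eventually.of_forall hB)

section

variable {μ : Measure (Euc n)} [IsProbabilityMeasure μ] {R : ℝ}

lemma elaw_mono (hS : Supp μ R) {t : ℝ} {h₁ h₂ : Euc n → ℝ} {B₁ B₂ : ℝ} (h1 : Continuous h₁) (h2 : Continuous h₂)
    (hB₁ : ∀ z, |h₁ z| ≤ B₁) (hB₂ : ∀ z, |h₂ z| ≤ B₂) (hle : ∀ z, h₁ z ≤ h₂ z) :
    elaw t μ h₁ ≤ elaw t μ h₂ := by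
  have hp : Continuous fun p : Euc n × Euc n => pt (√t) p.1 p.2 := by unfold pt; fun_prop
  refine integral_mono (hS.integrable (continuous_gint (H := fun x G => h₁ (pt (√t) x G)) (h1.comp hp) fun _ _ => hB₁ _))
    (hS.integrable (continuous_gint (H := fun x G => h₂ (pt (√t) x G)) (h2.comp hp) fun _ _ => hB₂ _)) fun x => ?_
  exact integral_mono (integrable_gam_bdd (h1.comp (continuous_pt _ x)) fun _ => hB₁ _)
    (integrable_gam_bdd (h2.comp (continuous_pt _ x)) fun _ => hB₂ _) fun G => hle _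

lemma elaw_const (t c : ℝ) : elaw t μ (fun _ => c) = c := by simp [elaw]

lemma elaw_affine (hS : Supp μ R) {t : ℝ} {h : Euc n → ℝ} {B : ℝ} (hh : Continuous h) (hB : ∀ z, |h z| ≤ B) (a c : ℝ) :
    elaw t μ (fun z => a * h z + c) = a * elaw t μ h + c := by
  have hp : Continuous fun p : Euc n × Euc n => pt (√t) p.1 p.2 := by unfold pt; fun_prop
  have e : ∀ x, ∫ G, (a * h (pt (√t) x G) + c) ∂(gam n) = a * (∫ G, h (pt (√t) x G) ∂(gam n)) + c := fun x => by
    rw [integral_add ((integrable_gam_bdd (H := fun G => h (pt (√t) x G)) (hh.comp (continuous_pt _ x)) fun _ => hB _).const_mul a)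
      (integrable_const _), integral_const_mul, integral_const, probReal_univ, one_smul]
  simp only [elaw, e]
  rw [integral_add ((hS.integrable (continuous_gint (H := fun x G => h (pt (√t) x G)) (hh.comp hp) fun _ _ => hB _)).const_mul a)
    (integrable_const _), integral_const_mul, integral_const, probReal_univ, one_smul]

/-- The joint law of the parameter and the point equals that of the parameter and a point of its fibre. -/
lemma elaw_fib (hS : Supp μ R) (s : ℝ) {H : Euc n → Euc n → ℝ} (hH : Continuous (Function.uncurry H))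
    {B : ℝ} (hB : ∀ z y, |H z y| ≤ B) :
    ∫ x, ∫ G, H (pt s x G) x ∂(gam n) ∂μ = ∫ x, ∫ G, av (s ^ 2) μ (H (pt s x G)) (pt s x G) ∂(gam n) ∂μ := by
  set A := fun z => av (s ^ 2) μ (H z) z with hA
  have hB0 : 0 ≤ B := (abs_nonneg _).trans (hB 0 0)
  have hAc : Continuous A := continuous_fib_integral (F := fun z x => H z x) hS hH
  have hAb : ∀ z, |A z| ≤ B := fun z => abs_av_le hS (fun y _ => hB z y) z
  have e1 : ∀ (φ : Euc n → ℝ) (x : Euc n),
      ∫ G, φ (pt s x G) ∂(gam n) = ∫ G, wt (s ^ 2) (s • G) x * φ (s • G) ∂(gam n) := fun φ x => by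
    have h := integral_gam_shift (fun G => φ (s • G)) (s • x)
    simp only [smul_eq_mul] at h
    refine (integral_congr_ae (Eventually.of_forall fun G => ?_)).trans (h.trans ?_)
    · simp only [pt, smul_add, smul_smul, sq, add_comm]
    · refine integral_congr_ae (Eventually.of_forall fun G => ?_)
      simp only [wt, real_inner_smul_left, norm_smul, norm_eq_abs, mul_pow, sq_abs, real_inner_comm G x]
      ring_nf
  have hexp : ∀ x G : Euc n, ‖x‖ ≤ R → wt (s ^ 2) (s • G) x ≤ exp (|s| * R * ‖G‖) := fun x G hx => by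
    rw [wt, exp_le_exp, real_inner_smul_left]
    have h2 := (abs_real_inner_le_norm G x).trans (mul_le_mul_of_nonneg_left hx (norm_nonneg _))
    have h1 : s * ⟪G, x⟫ ≤ |s| * |⟪G, x⟫| := (le_abs_self _).trans_eq (abs_mul _ _)
    have h3 := mul_le_mul_of_nonneg_left h2 (abs_nonneg s)
    nlinarith [mul_nonneg (sq_nonneg s) (sq_nonneg ‖x‖)]
  have hcw : Continuous (fun p : Euc n × Euc n => wt (s ^ 2) (s • p.2) p.1) :=
    (continuous_wt (s ^ 2)).comp ((continuous_snd.const_smul s).prodMk continuous_fst)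
  have hint : ∀ F : Euc n → Euc n → ℝ, Continuous (Function.uncurry F) → (∀ x G, |F x G| ≤ B) →
      Integrable (Function.uncurry fun x G => wt (s ^ 2) (s • G) x * F x G) (μ.prod (gam n)) := fun F hF hFb =>
    integrable_prod_gam hS (hcw.mul hF) (A := B) (c := |s| * R) fun x G hx => by
      rw [abs_mul, abs_of_pos (show 0 < wt (s ^ 2) (s • G) x from exp_pos _), mul_comm B]
      exact mul_le_mul (hexp x G hx) (hFb x G) (abs_nonneg _) (exp_pos _).le
  have hi1 := hint (fun x G => H (s • G) x) (hH.comp ((continuous_snd.const_smul s).prodMk continuous_fst)) fun x G => hB _ _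
  have hi2 := hint (fun _ G => A (s • G)) (hAc.comp (continuous_snd.const_smul s)) fun x G => hAb _
  have e2 : ∀ x, ∫ G, H (pt s x G) x ∂(gam n) = ∫ G, wt (s ^ 2) (s • G) x * H (s • G) x ∂(gam n) :=
    fun x => e1 (fun z => H z x) x
  rw [integral_congr_ae (Eventually.of_forall e2), integral_integral_swap hi1]
  change _ = ∫ x, ∫ G, A (pt s x G) ∂(gam n) ∂μ
  rw [integral_congr_ae (Eventually.of_forall (e1 A)), integral_integral_swap hi2]
  refine integral_congr_ae (Eventually.of_forall fun G => ?_)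
  simp only [hA]
  rw [integral_mul_const, av_eq]
  exact (mul_div_cancel₀ _ (zf_pos hS (s • G)).ne').symm

lemma fib_fib (hS : Supp μ R) (t σ : ℝ) (θ z : Euc n) : fib σ (fib t μ θ) z = fib (t + σ) μ (θ + z) := by
  rw [fib, fib, fib, tilted_tilted (hS.integrable (by fun_prop))]
  congr 1
  funext x
  simp only [Pi.add_apply, inner_add_left]
  ring

lemma fib_zero : fib 0 μ (0 : Euc n) = μ := by simp [fib]

lemma aent_fib (hS : Supp μ R) (t σ : ℝ) (θ z u v : Euc n) :
    aent σ (fib t μ θ) z u v = aent (t + σ) μ (θ + z) u v := by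
  simp only [aent, cen, bary, fib_fib hS]

lemma charFun_gam (w : Euc n) : charFun (gam n) w = Complex.exp (-((‖w‖ : ℂ) ^ 2) / 2) := by
  rw [charFun_apply, integral_gam]
  set Z := ∫ y : Euc n, exp (-(‖y‖ ^ 2 / 2)) with hZ
  have hZ' : Z = (π / (1 / 2)) ^ ((Module.finrank ℝ (Euc n) : ℝ) / 2) := by
    rw [hZ, ← GaussianFourier.integral_rexp_neg_mul_sq_norm (by norm_num : (0:ℝ) < 1 / 2)]
    exact integral_congr_ae (Eventually.of_forall fun y => by ring_nf)
  have e : ∀ x : Euc n, (exp (-(‖x‖ ^ 2 / 2)) / Z) • Complex.exp (⟪x, w⟫ * Complex.I)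
      = (Z : ℂ)⁻¹ * Complex.exp (-(1 / 2 : ℂ) * (‖x‖ : ℂ) ^ 2 + Complex.I * (⟪w, x⟫ : ℂ)) := fun x => by
    rw [Complex.real_smul, Complex.ofReal_div, Complex.ofReal_exp, Complex.exp_add, real_inner_comm w x]
    push_cast
    ring_nf
  rw [integral_congr_ae (Eventually.of_forall e), integral_const_mul,
    GaussianFourier.integral_cexp_neg_mul_sq_norm_add (by norm_num) Complex.I w, hZ', ← mul_assoc]
  have hb : ((π : ℂ) / (1 / 2)) ^ ((Module.finrank ℝ (Euc n) : ℂ) / 2)
      = (((π / (1 / 2)) ^ ((Module.finrank ℝ (Euc n) : ℝ) / 2) : ℝ) : ℂ) := by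
    rw [Complex.ofReal_cpow (by positivity)]; push_cast; ring_nf
  rw [hb, inv_mul_cancel₀ (by
    have : (0:ℝ) < (π / (1 / 2)) ^ ((Module.finrank ℝ (Euc n) : ℝ) / 2) := by positivity
    exact_mod_cast this.ne'), one_mul]
  congr 1
  rw [Complex.I_sq]; ring

lemma gam_add (a b : ℝ) {h : Euc n → ℝ} (hh : Continuous h) {B : ℝ} (hB : ∀ z, |h z| ≤ B) :
    ∫ G, ∫ G', h (a • G + b • G') ∂(gam n) ∂(gam n) = ∫ G, h (√(a ^ 2 + b ^ 2) • G) ∂(gam n) := by
  set c := √(a ^ 2 + b ^ 2) with hc
  have hm : ∀ r : ℝ, Measurable fun x : Euc n => r • x := fun r => by fun_prop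
  have hp : ∀ r : ℝ, IsProbabilityMeasure ((gam n).map fun x => r • x) := fun r =>
    Measure.isProbabilityMeasure_map (hm r).aemeasurable
  have := hp a
  have := hp b
  have := hp c
  have hcf : ((gam n).map fun x => a • x) ∗ ((gam n).map fun x => b • x) = (gam n).map fun x => c • x := by
    refine Measure.ext_of_charFun (funext fun w => ?_)
    rw [charFun_conv, charFun_map_smul, charFun_map_smul, charFun_map_smul, charFun_gam, charFun_gam, charFun_gam,
      ← Complex.exp_add]
    congr 1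
    simp only [norm_smul, norm_eq_abs, Complex.ofReal_mul, mul_pow, ← Complex.ofReal_pow, sq_abs, hc,
      Real.sq_sqrt (by positivity : 0 ≤ a ^ 2 + b ^ 2)]
    push_cast; ring
  have e := integral_conv (μ := (gam n).map fun x => a • x) (ν := (gam n).map fun x => b • x) (f := h)
    (Integrable.of_bound hh.aestronglyMeasurable B (Eventually.of_forall hB))
  rw [hcf, integral_map (hm c).aemeasurable hh.aestronglyMeasurable] at e
  rw [e, integral_map (hm a).aemeasurable]
  · exact integral_congr_ae (Eventually.of_forall fun G => (integral_map (f := fun y => h (a • G + y)) (hm b).aemeasurable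
      (hh.comp (by fun_prop)).aestronglyMeasurable).symm)
  · exact (continuous_of_dominated (F := fun x y => h (x + y)) (μ := (gam n).map fun x => b • x) (bound := fun _ => B)
      (fun x => (hh.comp (continuous_const.add continuous_id)).aestronglyMeasurable)
      (fun x => Eventually.of_forall fun y => hB _) (integrable_const B)
      (Eventually.of_forall fun y => hh.comp (continuous_id.add continuous_const))).aestronglyMeasurable

/-- Composition of two time steps. -/
lemma elaw_comp (hS : Supp μ R) {t σ : ℝ} (ht : 0 ≤ t) (hσ : 0 ≤ σ) {h : Euc n → ℝ} (hh : Continuous h)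
    {B : ℝ} (hB : ∀ z, |h z| ≤ B) :
    elaw (t + σ) μ h
      = elaw t μ (fun θ => ∫ y, ∫ G', h (θ + pt (√σ) y G') ∂(gam n) ∂(fib t μ θ)) := by
  set H := fun θ y => ∫ G', h (θ + pt (√σ) y G') ∂(gam n) with hH
  have hHc : Continuous (Function.uncurry H) :=
    continuous_gint (H := fun (p : Euc n × Euc n) G' => h (p.1 + pt (√σ) p.2 G'))
      (hh.comp (by unfold pt; fun_prop)) fun _ _ => hB _
  have h1 := elaw_fib hS (√t) hHc (fun z y => abs_gint_le fun G => hB _)
  rw [Real.sq_sqrt ht] at h1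
  simp only [elaw]
  refine Eq.trans ?_ h1
  refine integral_congr_ae (Eventually.of_forall fun x => ?_)
  simp only [hH]
  have e : ∀ G G' : Euc n, pt (√t) x G + pt (√σ) x G' = (t + σ) • x + (√t • G + √σ • G') := fun G G' => by
    simp only [pt, Real.sq_sqrt ht, Real.sq_sqrt hσ]; module
  simp only [e]
  rw [gam_add (√t) (√σ) (h := fun z => h ((t + σ) • x + z)) (hh.comp (by fun_prop)) (fun z => hB _),
    Real.sq_sqrt ht, Real.sq_sqrt hσ]
  refine integral_congr_ae (Eventually.of_forall fun G => ?_)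
  simp only [pt, Real.sq_sqrt (add_nonneg ht hσ)]

lemma elaw_zero (h : Euc n → ℝ) : elaw 0 μ h = h 0 := by simp [elaw, pt]

lemma mean_aent_le (hS : Supp μ R) (hR : 0 ≤ R) (t σ : ℝ) (hσ : 0 ≤ σ) (θ v : Euc n) :
    ∫ x, ∫ G, aent (t + σ) μ (θ + pt (√σ) x G) v v ∂(gam n) ∂(fib t μ θ) ≤ aent t μ θ v v := by
  have := isProb_fib (T := t) hS θ
  have hsf := supp_fib (T := t) hS θ
  set g := fun x : Euc n => ⟪v, x - bary t μ θ⟫ ^ 2 with hg
  have hgc : Continuous g := by fun_prop
  have hq := integral_qop (s := √σ) hsf hR hgc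
  have hr : ∫ x, g x ∂(fib t μ θ) = aent t μ θ v v := by simp only [hg, aent, cen, sq]
  rw [← hr, ← hq]
  have hpc : Continuous fun p : Euc n × Euc n => θ + pt (√σ) p.1 p.2 := by unfold pt; fun_prop
  refine integral_mono (hsf.integrable (continuous_gint
    (H := fun x G => aent (t + σ) μ (θ + pt (√σ) x G) v v) ((continuous_aent hS v v).comp hpc)
    fun x G => abs_aent_le hS _ v v)) (hsf.integrable (continuous_qop hsf hR hgc)) fun x => ?_
  refine integral_mono (integrable_gam_bdd (H := fun G => aent (t + σ) μ (θ + pt (√σ) x G) v v)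
      ((continuous_aent (t := t + σ) hS v v).comp (continuous_const.add (continuous_pt (√σ) x))) fun G => abs_aent_le hS _ v v)
    (integrable_av (s := √σ) hsf hR hgc x) fun G => ?_
  simp only [av, Real.sq_sqrt hσ]
  rw [fib_fib hS]
  set z := θ + pt (√σ) x G
  have := isProb_fib (T := t + σ) hS z
  have hsf' := supp_fib (T := t + σ) hS z
  have h := var_le_center hsf' (g := fun y => ⟪v, y⟫) (by fun_prop) ⟪v, bary t μ θ⟫
  rw [inner_bary hS] at h
  refine le_trans (le_of_eq ?_) (h.trans (le_of_eq ?_))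
  · simp only [aent, cen, inner_sub_right, sq]
  · simp only [hg, inner_sub_right]

end

end Vale.Agent.P245
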