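import Vale.Agent.P245.Core

open MeasureTheory Real Filter Set
open scoped Topology ENNReal RealInnerProductSpace

namespace Vale.Agent.P245

variable {n : ℕ}

lemma isLC_of_concave {ρ : Euc n → ℝ} (hρ0 : ∀ x, 0 ≤ ρ x)
    (hc : ConcaveOn ℝ {x | 0 < ρ x} fun x => log (ρ x)) :
    IsLC 0 (volume.withDensity fun x => ENNReal.ofReal (ρ x)) := by
  set U := interior {x : Euc n | 0 < ρ x} with hU
  have hUo : IsOpen U := isOpen_interior
  have hUS : ∀ x ∈ U, 0 < ρ x := fun x hx => interior_subset (s := {x : Euc n | 0 < ρ x}) hx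
  set p := fun x => U.indicator (fun y => ρ y) x with hp
  have hcont : ContinuousOn ρ U := by
    refine (hc.continuousOn_interior.rexp).congr fun x hx => ?_
    exact (exp_log (hUS x hx)).symm
  have hpm : Measurable p := by
    refine (measurable_of_restrict_of_restrict_compl hUo.measurableSet ?_ ?_)
    · have : U.domRestrict p = U.domRestrict ρ := funext fun x => indicator_of_mem x.2 _
      rw [this]
      exact hcont.restrict.measurable
    · have : (Uᶜ).domRestrict p = fun _ => 0 := funext fun x => indicator_of_notMem x.2 _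
      rw [this]
      exact measurable_const
  refine ⟨p, hpm, fun x => indicator_nonneg (fun y _ => hρ0 y) x, fun x y a b ha hb hab => ?_, ?_⟩
  · have hz0 : 0 ≤ p (a • x + b • y) := indicator_nonneg (fun w _ => hρ0 w) _
    by_cases hx : x ∈ U
    swap
    · simpa [hp, hx, zero_rpow ha.ne'] using hz0
    by_cases hy : y ∈ U
    swap
    · simpa [hp, hy, zero_rpow hb.ne'] using hz0
    have hz : a • x + b • y ∈ U := hc.1.interior hx hy ha.le hb.le hab
    simp only [hp, indicator_of_mem hx, indicator_of_mem hy, indicator_of_mem hz, zero_mul, zero_div, exp_zero, mul_one]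
    have h := hc.2 (interior_subset hx) (interior_subset hy) ha.le hb.le hab
    rw [rpow_def_of_pos (hUS x hx), rpow_def_of_pos (hUS y hy), ← exp_add]
    refine (exp_le_exp.2 (?_ : _ ≤ log (ρ (a • x + b • y)))).trans (le_of_eq (exp_log (hUS _ hz)))
    simp only [smul_eq_mul] at h
    linarith
  · refine withDensity_congr_ae ?_
    filter_upwards [measure_eq_zero_iff_ae_notMem.1 (hc.1.addHaar_frontier (μ := volume))] with x hx
    by_cases hxU : x ∈ U
    · simp [hp, hxU]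
    · have : ¬ 0 < ρ x := fun h => hx ⟨subset_closure h, hxU⟩
      have h0 : ρ x = 0 := le_antisymm (not_lt.1 this) (hρ0 x)
      simp [hp, hxU, h0]

lemma IsLC.map_smul {μ : Measure (Euc n)} (h : IsLC 0 μ) {a : ℝ} (ha : 0 < a) :
    IsLC 0 (μ.map fun x => a⁻¹ • x) := by
  obtain ⟨p, hp, hp0, hineq, hμ⟩ := h
  set c := a ^ n with hc
  have hc0 : 0 < c := pow_pos ha n
  refine ⟨fun y => c * p (a • y), by fun_prop, fun y => mul_nonneg hc0.le (hp0 _), fun x y s t hs ht hst => ?_, ?_⟩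
  · rw [mul_rpow hc0.le (hp0 _), mul_rpow hc0.le (hp0 _)]
    have h1 := hineq (a • x) (a • y) s t hs ht hst
    rw [smul_comm s a x, smul_comm t a y, ← smul_add] at h1
    simp only [zero_mul, zero_div, exp_zero, mul_one] at h1 ⊢
    have hcc : c ^ s * c ^ t = c := by rw [← rpow_add hc0, hst, rpow_one]
    calc c ^ s * p (a • x) ^ s * (c ^ t * p (a • y) ^ t) = (c ^ s * c ^ t) * (p (a • x) ^ s * p (a • y) ^ t) := by ring
      _ ≤ _ := by rw [hcc]; exact mul_le_mul_of_nonneg_left h1 hc0.le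
  · refine Measure.ext fun s hs => ?_
    have hm : Measurable fun x : Euc n => a⁻¹ • x := by fun_prop
    rw [Measure.map_apply hm hs, hμ, withDensity_apply _ (hm hs), withDensity_apply _ hs,
      ← lintegral_indicator hs, ← lintegral_indicator (hm hs)]
    set G := ((fun x : Euc n => a⁻¹ • x) ⁻¹' s).indicator fun x => ENNReal.ofReal (p x) with hG
    have hGm : Measurable G := (by fun_prop : Measurable _).indicator (hm hs)
    have e : ∀ y, s.indicator (fun y => ENNReal.ofReal (c * p (a • y))) y = ENNReal.ofReal c * G (a • y) := fun y => by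
      have hmem : a • y ∈ (fun x : Euc n => a⁻¹ • x) ⁻¹' s ↔ y ∈ s := by simp [smul_smul, inv_mul_cancel₀ ha.ne']
      by_cases hy : y ∈ s
      · rw [indicator_of_mem hy, hG, indicator_of_mem (hmem.2 hy), ENNReal.ofReal_mul hc0.le]
      · rw [indicator_of_notMem hy, hG, indicator_of_notMem (mt hmem.1 hy), mul_zero]
    rw [lintegral_congr e, lintegral_const_mul (f := fun y => G (a • y)) (ENNReal.ofReal c)
      (hGm.comp (measurable_const_smul a)), ← lintegral_map hGm (by fun_prop : Measurable fun y : Euc n => a • y),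
      Measure.map_addHaar_smul _ ha.ne', lintegral_smul_measure, finrank_euclideanSpace_fin, smul_eq_mul, ← mul_assoc,
      abs_of_pos (by positivity : 0 < (a ^ n)⁻¹), ← ENNReal.ofReal_mul hc0.le, hc, mul_inv_cancel₀ hc0.ne', ENNReal.ofReal_one, one_mul]

/-- The bound at unit scale. -/
lemma unit_scale {C p₀ : ℝ} (hn : 1 ≤ n)
    (hcore : ∀ (μ : Measure (Euc n)), IsProbabilityMeasure μ → ∀ R₁ : ℝ, 0 ≤ R₁ → Supp μ R₁ → IsLC 0 μ →
      (∀ v : Euc n, ‖v‖ = 1 → ∫ x, exp (⟪v, x⟫ ^ 2) ∂μ ≤ 11 / 5) →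
      ∀ (f : Euc n → ℝ) (f' : Euc n → Euc n), D1 f f' →
        ent μ (fun x => f x ^ 2) ≤ C * (n : ℝ) ^ p₀ * ∫ x, ‖f' x‖ ^ 2 ∂μ)
    {μ : Measure (Euc n)} [IsProbabilityMeasure μ] (hμ : IsLC 0 μ)
    (hsub : ∀ v : Euc n, ‖v‖ = 1 → ∫⁻ x, ENNReal.ofReal (exp (⟪v, x⟫ ^ 2)) ∂μ ≤ 2)
    {f : Euc n → ℝ} {f' : Euc n → Euc n} (hf : D1 f f') {Rf : ℝ} (hf0 : ∀ x, Rf < ‖x‖ → f x = 0)
    (hf0' : ∀ x, Rf < ‖x‖ → f' x = 0) :
    ent μ (fun x => f x ^ 2) ≤ C * (n : ℝ) ^ p₀ * ∫ x, ‖f' x‖ ^ 2 ∂μ := by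
  set D := ∫ x, ‖f' x‖ ^ 2 ∂μ with hD
  set m := ∫ x, f x ^ 2 ∂μ with hm
  set p := fun k : ℕ => μ.real (Metric.closedBall (0 : Euc n) k) with hp
  have hlim : Tendsto p atTop (𝓝 1) := by
    have h := tendsto_measure_iUnion_atTop (μ := μ) (s := fun k : ℕ => Metric.closedBall (0 : Euc n) k)
      fun i j hij => Metric.closedBall_subset_closedBall (by exact_mod_cast hij)
    rw [Metric.iUnion_closedBall_nat, measure_univ] at h
    exact (ENNReal.tendsto_toReal ENNReal.one_ne_top).comp h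
  have hb : Tendsto (fun k => C * (n : ℝ) ^ p₀ * D + m * -log (p k)) atTop
      (𝓝 (C * (n : ℝ) ^ p₀ * D + m * -log 1)) :=
    (((continuousAt_log one_ne_zero).tendsto.comp hlim).neg.const_mul m).const_add _
  rw [log_one, neg_zero, mul_zero, add_zero] at hb
  refine ge_of_tendsto hb ?_
  filter_upwards [hlim.eventually (eventually_ge_nhds (by norm_num : (10 / 11 : ℝ) < 1)),
    tendsto_natCast_atTop_atTop.eventually (eventually_ge_atTop Rf)] with k hk hkR
  have hpk : 0 < p k := by linarith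
  have hne : μ (Metric.closedBall (0 : Euc n) k) ≠ 0 := fun h => by simp [hp, measureReal_def, h] at hpk
  set ν := onBall μ (k : ℝ) with hν
  have : IsProbabilityMeasure ν := isProb_onBall hne
  have hνsub : ∀ v : Euc n, ‖v‖ = 1 → ∫ x, exp (⟪v, x⟫ ^ 2) ∂ν ≤ 11 / 5 := fun v hv => by
    rw [hν, integral_onBall, smul_eq_mul, inv_mul_le_iff₀ hpk]
    have h1 : ∫ x in Metric.closedBall 0 (k : ℝ), exp (⟪v, x⟫ ^ 2) ∂μ ≤ 2 := by
      rw [integral_eq_lintegral_of_nonneg_ae (Eventually.of_forall fun x => (exp_pos _).le) (by fun_prop)]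
      exact ENNReal.toReal_le_of_le_ofReal (by norm_num)
        (((setLIntegral_le_lintegral _ _).trans (hsub v hv)).trans (by simp))
    change _ ≤ p k * (11 / 5)
    linarith
  have h1 := hcore ν this k (Nat.cast_nonneg k) (supp_onBall μ _) (hμ.onBall hne) hνsub f f' hf
  have h2 := ent_eq_onBall (μ := μ) (r := (k : ℝ)) (g := fun x => f x ^ 2)
    (fun x hx => by simp [hf0 x (lt_of_le_of_lt hkR hx)]) hne
  have h3 := supp_integral_vanish (μ := μ) (r := (k : ℝ)) (F := fun x => ‖f' x‖ ^ 2)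
    (fun x hx => by simp [hf0' x (lt_of_le_of_lt hkR hx)]) hne
  change D = p k * ∫ x, ‖f' x‖ ^ 2 ∂ν at h3
  change ent μ (fun x => f x ^ 2) = p k * ent ν (fun x => f x ^ 2) - m * log (p k) at h2
  have h4 := mul_le_mul_of_nonneg_left h1 hpk.le
  rw [h2, h3]
  linarith

/-- Scaling and removal of the compact support, for any exponent. -/
theorem main_of {p₀ : ℝ} (hcore' : ∃ C : ℝ, 0 < C ∧ ∀ (n : ℕ), 1 ≤ n → ∀ (μ : Measure (Euc n)),
    IsProbabilityMeasure μ → ∀ R₁ : ℝ, 0 ≤ R₁ → Supp μ R₁ → IsLC 0 μ →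
    (∀ v : Euc n, ‖v‖ = 1 → ∫ x, exp (⟪v, x⟫ ^ 2) ∂μ ≤ 11 / 5) →
    ∀ (f : Euc n → ℝ) (f' : Euc n → Euc n), D1 f f' →
      ent μ (fun x => f x ^ 2) ≤ C * (n : ℝ) ^ p₀ * ∫ x, ‖f' x‖ ^ 2 ∂μ) :
    ∃ C : ℝ, 0 < C ∧ ∀ (n : ℕ) (μ : Measure (Euc n)), IsProbabilityMeasure μ →
    ∀ ρ : Euc n → ℝ, (∀ x, 0 ≤ ρ x) → ConcaveOn ℝ {x | 0 < ρ x} (fun x => log (ρ x)) →
    μ = volume.withDensity (fun x => ENNReal.ofReal (ρ x)) →
    ∀ a : ℝ, 0 < a → (∀ θ : Euc n, ‖θ‖ = 1 → ∫⁻ x, ENNReal.ofReal (exp (⟪x, θ⟫ ^ 2 / a ^ 2)) ∂μ ≤ 2) →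
    ∀ f : Euc n → ℝ, ContDiff ℝ 1 f → HasCompactSupport f →
      ent μ (fun x => f x ^ 2) ≤ C * (n : ℝ) ^ p₀ * a ^ 2 * ∫ x, ‖fderiv ℝ f x‖ ^ 2 ∂μ := by
  obtain ⟨C, hC, hcore⟩ := hcore'
  refine ⟨C, hC, fun n μ hprob ρ hρ0 hρc hμ a ha hsub f hf hfc => ?_⟩
  rcases Nat.eq_zero_or_pos n with hn | hn
  · subst hn
    have e : f = fun _ => f 0 := funext fun x => congrArg f (Subsingleton.elim _ _)
    rw [e]
    simp [ent, hasFDerivAt_const]
  have hLC : IsLC 0 μ := hμ ▸ isLC_of_concave hρ0 hρc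
  set μa := μ.map fun x => a⁻¹ • x with hμa
  have hm : Measurable fun x : Euc n => a⁻¹ • x := by fun_prop
  have : IsProbabilityMeasure μa := Measure.isProbabilityMeasure_map hm.aemeasurable
  have hsuba : ∀ v : Euc n, ‖v‖ = 1 → ∫⁻ x, ENNReal.ofReal (exp (⟪v, x⟫ ^ 2)) ∂μa ≤ 2 := fun v hv => by
    rw [hμa, lintegral_map (by fun_prop) hm]
    refine le_trans (le_of_eq (lintegral_congr fun x => ?_)) (hsub v hv)
    rw [inner_smul_right, mul_pow, real_inner_comm x v, inv_pow, ← div_eq_inv_mul]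
  set grad := fun x => (InnerProductSpace.toDual ℝ (Euc n)).symm (fderiv ℝ f x) with hgrad
  have hgn : ∀ x, ‖grad x‖ = ‖fderiv ℝ f x‖ := fun x => by simp [hgrad]
  set g := fun y => f (a • y) with hg
  set g' := fun y => a • grad (a • y) with hg'
  have hgd : D1 g g' := by
    refine ⟨fun y => ?_, ?_⟩
    · have h := ((hf.differentiable one_ne_zero) (a • y)).hasFDerivAt.comp y ((hasFDerivAt_id y).const_smul a)
      convert! h using 1
      ext v
      simp [hg', hgrad, real_inner_smul_left, InnerProductSpace.toDual_symm_apply]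
    · exact ((((InnerProductSpace.toDual ℝ (Euc n)).symm).continuous.comp (hf.continuous_fderiv one_ne_zero)).comp
        (continuous_const_smul a)).const_smul a
  obtain ⟨Rf, hRf⟩ := hfc.isCompact.isBounded.subset_closedBall (0 : Euc n)
  have hout : ∀ y : Euc n, Rf / a < ‖y‖ → a • y ∉ tsupport f := fun y hy hmem => by
    have h := hRf hmem
    rw [mem_closedBall_zero_iff, norm_smul, norm_eq_abs, abs_of_pos ha] at h
    rw [div_lt_iff₀ ha] at hy
    linarith
  have h := unit_scale hn (hcore n hn) (hLC.map_smul ha) hsuba hgd (Rf := Rf / a)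
    (fun y hy => image_eq_zero_of_notMem_tsupport (f := f) (hout y hy))
    (fun y hy => by
      have h0 : fderiv ℝ f (a • y) = 0 := by
        by_contra hne
        exact hout y hy (support_fderiv_subset ℝ hne)
      simp [hg', hgrad, h0])
  have hgc : Continuous g := hgd.cont
  have e1 : ∀ F : Euc n → ℝ, Continuous F → ∫ y, F (a • y) ∂μa = ∫ x, F x ∂μ := fun F hF => by
    rw [hμa, integral_map (f := fun y => F (a • y)) hm.aemeasurable (hF.comp (continuous_const_smul a)).aestronglyMeasurable]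
    exact integral_congr_ae (Eventually.of_forall fun x => by simp [smul_smul, mul_inv_cancel₀ ha.ne'])
  have hfc' : Continuous fun x => f x ^ 2 := hf.continuous.pow 2
  have eent : ent μa (fun y => g y ^ 2) = ent μ (fun x => f x ^ 2) := by
    simp only [ent, hg]
    rw [e1 (fun x => f x ^ 2) hfc', e1 (fun x => f x ^ 2 * log (f x ^ 2)) (Real.continuous_mul_log.comp hfc')]
  have eD : ∫ y, ‖g' y‖ ^ 2 ∂μa = a ^ 2 * ∫ x, ‖fderiv ℝ f x‖ ^ 2 ∂μ := by
    have e : ∀ y, ‖g' y‖ ^ 2 = (fun x => a ^ 2 * ‖fderiv ℝ f x‖ ^ 2) (a • y) := fun y => by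
      simp [hg', norm_smul, hgn, mul_pow]
    rw [integral_congr_ae (Eventually.of_forall e),
      e1 (fun x => a ^ 2 * ‖fderiv ℝ f x‖ ^ 2) ((((hf.continuous_fderiv one_ne_zero)).norm.pow 2).const_mul _), integral_const_mul]
  rw [eent, eD] at h
  rw [mul_assoc _ (a ^ 2)]
  exact h

/-- Log-Sobolev constant of order `n^(1/3) a^2`. -/
theorem main : ∃ C : ℝ, 0 < C ∧ ∀ (n : ℕ) (μ : Measure (Euc n)), IsProbabilityMeasure μ →
    ∀ ρ : Euc n → ℝ, (∀ x, 0 ≤ ρ x) → ConcaveOn ℝ {x | 0 < ρ x} (fun x => log (ρ x)) →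
    μ = volume.withDensity (fun x => ENNReal.ofReal (ρ x)) →
    ∀ a : ℝ, 0 < a → (∀ θ : Euc n, ‖θ‖ = 1 → ∫⁻ x, ENNReal.ofReal (exp (⟪x, θ⟫ ^ 2 / a ^ 2)) ∂μ ≤ 2) →
    ∀ f : Euc n → ℝ, ContDiff ℝ 1 f → HasCompactSupport f →
      ent μ (fun x => f x ^ 2) ≤ C * (n : ℝ) ^ (1 / 3 : ℝ) * a ^ 2 * ∫ x, ‖fderiv ℝ f x‖ ^ 2 ∂μ :=
  main_of core_lsi

end Vale.Agent.P245
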