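import Vale.Agent.P245.LCCor

open MeasureTheory Real Filter Set
open scoped Topology ENNReal RealInnerProductSpace

namespace Vale.Agent.P245

variable {n : ℕ}

lemma isLC_volume : IsLC 0 (volume : Measure (Euc n)) :=
  ⟨fun _ => 1, measurable_const, fun _ => zero_le_one, fun x y a b _ _ _ => by simp, by simp⟩

lemma IsLC.tilted {κ κ' : ℝ} {μ : Measure (Euc n)} (h : IsLC κ μ) {W : Euc n → ℝ} (hW : Continuous W)
    (hint : Integrable (fun x => exp (W x)) μ) [NeZero μ]
    (hcc : ∀ x y : Euc n, ∀ a b : ℝ, 0 < a → 0 < b → a + b = 1 →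
      a * W x + b * W y + κ' * (a * b) / 2 * ‖x - y‖ ^ 2 ≤ W (a • x + b • y)) :
    IsLC (κ + κ') (μ.tilted W) := by
  obtain ⟨p, hp, hp0, hineq, hμ⟩ := h
  have hZ : 0 < ∫ x, exp (W x) ∂μ := integral_exp_pos hint
  set Z := ∫ x, exp (W x) ∂μ with hZdef
  refine ⟨fun x => p x * (exp (W x) / Z), by fun_prop, fun x => by have := hp0 x; positivity,
    fun x y a b ha hb hab => ?_, ?_⟩
  · have hx := hp0 x
    have hy := hp0 y
    have hz := hp0 (a • x + b • y)
    rw [mul_rpow hx (by positivity), mul_rpow hy (by positivity), div_rpow (exp_pos _).le hZ.le,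
      div_rpow (exp_pos _).le hZ.le, ← exp_mul, ← exp_mul]
    have hZab : Z ^ a * Z ^ b = Z := by rw [← rpow_add hZ, hab, rpow_one]
    have h1 := hineq x y a b ha hb hab
    have h2 := exp_le_exp.2 (hcc x y a b ha hb hab)
    rw [exp_add, exp_add] at h2
    calc p x ^ a * (exp (W x * a) / Z ^ a) * (p y ^ b * (exp (W y * b) / Z ^ b))
          * exp ((κ + κ') * (a * b) / 2 * ‖x - y‖ ^ 2)
        = (p x ^ a * p y ^ b * exp (κ * (a * b) / 2 * ‖x - y‖ ^ 2)) *
          (exp (a * W x) * exp (b * W y) * exp (κ' * (a * b) / 2 * ‖x - y‖ ^ 2)) / (Z ^ a * Z ^ b) := by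
          rw [show (κ + κ') * (a * b) / 2 * ‖x - y‖ ^ 2 = κ * (a * b) / 2 * ‖x - y‖ ^ 2
            + κ' * (a * b) / 2 * ‖x - y‖ ^ 2 by ring, exp_add, mul_comm (W x), mul_comm (W y)]
          field_simp
      _ ≤ p (a • x + b • y) * exp (W (a • x + b • y)) / Z := by rw [hZab]; gcongr
      _ = _ := by ring
  · rw [Measure.tilted, ← hZdef, hμ, ← withDensity_mul _ (by fun_prop) (by fun_prop)]
    refine withDensity_congr_ae (Eventually.of_forall fun x => ?_)
    simp [Pi.mul_apply, ENNReal.ofReal_mul (hp0 x)]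

lemma quad_identity (a b : ℝ) (hab : a + b = 1) (x y : Euc n) :
    a * ‖x‖ ^ 2 + b * ‖y‖ ^ 2 - ‖a • x + b • y‖ ^ 2 = a * b * ‖x - y‖ ^ 2 := by
  have h : b = 1 - a := by linarith
  subst h
  rw [norm_add_sq_real, norm_sub_sq_real, norm_smul, norm_smul, inner_smul_left, inner_smul_right]
  simp only [norm_eq_abs, mul_pow, sq_abs, conj_trivial]
  ring

/-- The standard Gaussian measure. -/
noncomputable def gam (n : ℕ) : Measure (Euc n) :=
  (volume : Measure (Euc n)).tilted (fun x => -(‖x‖ ^ 2 / 2))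

lemma integrable_exp_neg_sq {b : ℝ} (hb : 0 < b) :
    Integrable (fun v : Euc n => exp (-b * ‖v‖ ^ 2)) := by
  have h := (GaussianFourier.integrable_cexp_neg_mul_sq_norm_add (V := Euc n) (b := (b : ℂ))
    (by simpa using hb) 0 0).norm
  refine h.congr (Eventually.of_forall fun v => ?_)
  simp [Complex.norm_exp, ← Complex.ofReal_pow]

lemma integrable_gauss : Integrable (fun v : Euc n => exp (-(‖v‖ ^ 2 / 2))) := by
  refine (integrable_exp_neg_sq (b := 1 / 2) (by norm_num)).congr (Eventually.of_forall fun v => ?_)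
  ring_nf

instance : IsProbabilityMeasure (gam n) := isProbabilityMeasure_tilted integrable_gauss

lemma isLC_gam : IsLC 1 (gam n) := by
  have := (isLC_volume (n := n)).tilted (κ' := 1) (by fun_prop) integrable_gauss fun x y a b _ _ hab => by
    have := quad_identity a b hab x y
    linarith
  simpa [gam] using this

lemma integral_gam {F : Type*} [NormedAddCommGroup F] [NormedSpace ℝ F] (h : Euc n → F) :
    ∫ x, h x ∂(gam n) = ∫ x, (exp (-(‖x‖ ^ 2 / 2)) / ∫ y : Euc n, exp (-(‖y‖ ^ 2 / 2))) • h x := by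
  rw [gam, integral_tilted]

lemma integral_gam_shift {F : Type*} [NormedAddCommGroup F] [NormedSpace ℝ F] (h : Euc n → F) (c : Euc n) :
    ∫ x, h (x + c) ∂(gam n) = ∫ x, exp (⟪c, x⟫ - ‖c‖ ^ 2 / 2) • h x ∂(gam n) := by
  rw [integral_gam, integral_gam,
    ← integral_sub_right_eq_self (fun x => (exp (-(‖x‖ ^ 2 / 2)) / ∫ y : Euc n, exp (-(‖y‖ ^ 2 / 2))) • h (x + c)) c]
  refine integral_congr_ae (Eventually.of_forall fun x => ?_)
  simp only [sub_add_cancel, smul_smul, div_mul_eq_mul_div, ← exp_add]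
  congr 3
  rw [norm_sub_sq_real, real_inner_comm]
  ring

lemma integral_gam_exp_inner (c : Euc n) : ∫ x, exp ⟪c, x⟫ ∂(gam n) = exp (‖c‖ ^ 2 / 2) := by
  have h := integral_gam_shift (fun _ => (1 : ℝ)) c
  simp only [integral_const, probReal_univ, one_smul, smul_eq_mul, mul_one, exp_sub] at h
  rw [integral_div] at h
  field_simp at h
  linarith

lemma expInt_gam : ExpInt (gam n) := by
  intro c
  rw [gam, integrable_tilted_iff integrable_gauss]
  refine ((integrable_exp_neg_sq (n := n) (b := 1 / 4) (by norm_num)).const_mul (exp (c ^ 2))).mono'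
    (by fun_prop) (Eventually.of_forall fun x => ?_)
  rw [smul_eq_mul, norm_mul, norm_eq_abs, norm_eq_abs, abs_exp, abs_exp, ← exp_add, ← exp_add, exp_le_exp]
  nlinarith [sq_nonneg (‖x‖ / 2 - c)]

lemma integral_gam_exp_sq_le : ∫ x, exp (‖x‖ ^ 2 / 4) ∂(gam n) ≤ exp (n / 2) := by
  rw [integral_gam]
  have e : ∀ x : Euc n, (exp (-(‖x‖ ^ 2 / 2)) / ∫ y : Euc n, exp (-(‖y‖ ^ 2 / 2))) • exp (‖x‖ ^ 2 / 4)
      = exp (-(1 / 4 : ℝ) * ‖x‖ ^ 2) / ∫ y : Euc n, exp (-(1 / 2 : ℝ) * ‖y‖ ^ 2) := fun x => by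
    rw [smul_eq_mul, div_mul_eq_mul_div, ← exp_add]
    congr 1
    · ring_nf
    · exact integral_congr_ae (Eventually.of_forall fun y => by ring_nf)
  rw [integral_congr_ae (Eventually.of_forall e), integral_div,
    GaussianFourier.integral_rexp_neg_mul_sq_norm (by norm_num), GaussianFourier.integral_rexp_neg_mul_sq_norm (by norm_num),
    ← div_rpow (by positivity) (by positivity), finrank_euclideanSpace_fin]
  have : π / (1 / 4) / (π / (1 / 2)) = 2 := by field_simp; norm_num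
  rw [this, rpow_def_of_pos (by norm_num)]
  refine exp_le_exp.2 ?_
  have h2 := log_le_sub_one_of_pos (show (0 : ℝ) < 2 by norm_num)
  nlinarith [Nat.cast_nonneg (α := ℝ) n]

lemma integrable_prod_gam {μ : Measure (Euc n)} [IsFiniteMeasure μ] {R : ℝ} (hS : Supp μ R)
    {F : Euc n → Euc n → ℝ} (hF : Continuous (Function.uncurry F)) {A c : ℝ}
    (hb : ∀ x G, ‖x‖ ≤ R → |F x G| ≤ A * exp (c * ‖G‖)) :
    Integrable (Function.uncurry F) (μ.prod (gam n)) := by
  have h1 : Integrable (fun z : Euc n × Euc n => A * exp (c * ‖z.2‖)) (μ.prod (gam n)) :=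
    ((integrable_const (1 : ℝ)).mul_prod (expInt_gam c)).congr (Eventually.of_forall fun z => by simp) |>.const_mul A
  refine h1.mono' hF.aestronglyMeasurable ?_
  have h2 : ∀ᵐ z ∂(μ.prod (gam n)), ‖z.1‖ ≤ R := Measure.quasiMeasurePreserving_fst.ae hS
  filter_upwards [h2] with z hz
  exact hb z.1 z.2 hz

/-- Linear subgaussianity at scale one, with constant `3`. -/
def Sub3 (μ : Measure (Euc n)) : Prop :=
  ∀ v : Euc n, ‖v‖ = 1 → ∫ x, exp (⟪v, x⟫ ^ 2) ∂μ ≤ 3

lemma exp_two_ge_three : (3 : ℝ) ≤ exp 2 := by linarith [add_one_le_exp (2 : ℝ)]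

section Moments

variable {μ : Measure (Euc n)} [IsProbabilityMeasure μ] {R : ℝ}

lemma integral_inner_sq_le (hS : Supp μ R) (h : Sub3 μ) {v : Euc n} (hv : ‖v‖ = 1) :
    ∫ x, ⟪v, x⟫ ^ 2 ∂μ ≤ 2 :=
  (integral_le_log_integral_exp (hS.integrable (by fun_prop)) (hS.integrable (by fun_prop))).trans
    ((log_le_log (integral_exp_pos (hS.integrable (by fun_prop))) (h v hv)).trans
      ((log_le_iff_le_exp (by norm_num)).2 exp_two_ge_three))

lemma log_integral_exp_inner_sub (hS : Supp μ R) (h : Sub3 μ) (δ : Euc n) :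
    log (∫ x, exp ⟪δ, x⟫ ∂μ) ≤ 2 + ‖δ‖ ^ 2 / 4 := by
  rcases eq_or_ne δ 0 with rfl | hδ
  · simp
  set v := ‖δ‖⁻¹ • δ with hv
  have hv1 : ‖v‖ = 1 := norm_smul_inv_norm hδ
  have hpt : ∀ x, exp ⟪δ, x⟫ ≤ exp (‖δ‖ ^ 2 / 4) * exp (⟪v, x⟫ ^ 2) := fun x => by
    rw [← exp_add, exp_le_exp]
    have : ⟪δ, x⟫ = ‖δ‖ * ⟪v, x⟫ := by
      rw [hv, real_inner_smul_left, ← mul_assoc, mul_inv_cancel₀ (norm_ne_zero_iff.2 hδ), one_mul]
    nlinarith [sq_nonneg (‖δ‖ / 2 - ⟪v, x⟫)]
  have h1 : ∫ x, exp ⟪δ, x⟫ ∂μ ≤ exp (‖δ‖ ^ 2 / 4) * 3 := by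
    refine (integral_mono (hS.integrable (by fun_prop)) (hS.integrable (by fun_prop)) hpt).trans ?_
    rw [integral_const_mul]
    exact mul_le_mul_of_nonneg_left (h v hv1) (exp_pos _).le
  refine (log_le_log (integral_exp_pos (hS.integrable (by fun_prop))) h1).trans ?_
  rw [log_mul (exp_ne_zero _) (by norm_num), log_exp]
  linarith [(log_le_iff_le_exp (by norm_num : (0:ℝ) < 3)).2 exp_two_ge_three]

lemma abs_integral_inner_le (hS : Supp μ R) (h : Sub3 μ) (δ : Euc n) :
    |∫ x, ⟪δ, x⟫ ∂μ| ≤ 3 / 2 * ‖δ‖ := by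
  rcases eq_or_ne δ 0 with rfl | hδ
  · simp
  set v := ‖δ‖⁻¹ • δ with hv
  have hv1 : ‖v‖ = 1 := norm_smul_inv_norm hδ
  have hpt : ∀ x, |⟪δ, x⟫| ≤ ‖δ‖ * ((1 + ⟪v, x⟫ ^ 2) / 2) := fun x => by
    have : ⟪δ, x⟫ = ‖δ‖ * ⟪v, x⟫ := by
      rw [hv, real_inner_smul_left, ← mul_assoc, mul_inv_cancel₀ (norm_ne_zero_iff.2 hδ), one_mul]
    rw [this, abs_mul, abs_norm]
    refine mul_le_mul_of_nonneg_left ?_ (norm_nonneg _)
    nlinarith [sq_nonneg (|⟪v, x⟫| - 1), sq_abs ⟪v, x⟫]
  refine abs_integral_le_integral_abs.trans ?_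
  refine (integral_mono (hS.integrable (by fun_prop)) (hS.integrable (by fun_prop)) hpt).trans ?_
  rw [integral_const_mul, integral_div, integral_add (integrable_const _) (hS.integrable (by fun_prop)),
    integral_const, probReal_univ, one_smul]
  have := integral_inner_sq_le hS h hv1
  nlinarith [norm_nonneg δ]

lemma integral_norm_sq_le (hS : Supp μ R) (h : Sub3 μ) : ∫ x, ‖x‖ ^ 2 ∂μ ≤ 2 * n := by
  have e : ∀ x : Euc n, ‖x‖ ^ 2 = ∑ i, ⟪EuclideanSpace.single i (1 : ℝ), x⟫ ^ 2 := fun x => by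
    rw [EuclideanSpace.real_norm_sq_eq]
    simp [EuclideanSpace.inner_single_left]
  rw [integral_congr_ae (Eventually.of_forall e), integral_finsetSum _ fun i _ => hS.integrable (by fun_prop)]
  refine (Finset.sum_le_sum fun i _ => integral_inner_sq_le hS h (by simp)).trans ?_
  simp [mul_comm]

lemma integral_exp_norm_sq_le (hS : Supp μ R) (h : Sub3 μ) :
    ∫ x, exp (‖x‖ ^ 2 / 2) ∂μ ≤ 3 * exp (n / 2) := by
  have hi : Integrable (Function.uncurry fun x G : Euc n => exp ⟪x, G⟫) (μ.prod (gam n)) :=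
    integrable_prod_gam hS (by fun_prop) (A := 1) (c := R) fun x G hx => by
      rw [abs_exp, one_mul, exp_le_exp]
      exact (real_inner_le_norm x G).trans (by gcongr)
  have e : ∫ x, exp (‖x‖ ^ 2 / 2) ∂μ = ∫ G, ∫ x, exp ⟪x, G⟫ ∂μ ∂(gam n) := by
    rw [← integral_integral_swap hi]
    exact integral_congr_ae (Eventually.of_forall fun x => (integral_gam_exp_inner x).symm)
  rw [e]
  refine (integral_mono (g := fun G : Euc n => 3 * exp (‖G‖ ^ 2 / 4)) hi.swap.integral_prod_left ?_ fun G => ?_).trans ?_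
  · refine Integrable.const_mul ?_ 3
    rw [gam, integrable_tilted_iff integrable_gauss]
    refine (integrable_exp_neg_sq (n := n) (b := 1 / 4) (by norm_num)).congr (Eventually.of_forall fun x => ?_)
    simp only [smul_eq_mul, ← exp_add]; ring_nf
  · rcases eq_or_ne G 0 with rfl | hG
    · simp
    show ∫ x, exp ⟪x, G⟫ ∂μ ≤ 3 * exp (‖G‖ ^ 2 / 4)
    set v := ‖G‖⁻¹ • G with hv
    have hpt : ∀ x, exp ⟪x, G⟫ ≤ exp (‖G‖ ^ 2 / 4) * exp (⟪v, x⟫ ^ 2) := fun x => by
      rw [← exp_add, exp_le_exp]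
      have : ⟪x, G⟫ = ‖G‖ * ⟪v, x⟫ := by
        rw [hv, real_inner_smul_left, ← mul_assoc, mul_inv_cancel₀ (norm_ne_zero_iff.2 hG), one_mul, real_inner_comm]
      nlinarith [sq_nonneg (‖G‖ / 2 - ⟪v, x⟫)]
    refine (integral_mono (hS.integrable (by fun_prop)) (hS.integrable (by fun_prop)) hpt).trans ?_
    rw [integral_const_mul, mul_comm]
    exact mul_le_mul_of_nonneg_right (h v (norm_smul_inv_norm hG)) (exp_pos _).le
  · rw [integral_const_mul]
    linarith [integral_gam_exp_sq_le (n := n)]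

end Moments

/-- Conditioning a measure on the closed ball of radius `r`. -/
noncomputable def onBall (μ : Measure (Euc n)) (r : ℝ) : Measure (Euc n) :=
  (μ (Metric.closedBall 0 r))⁻¹ • μ.restrict (Metric.closedBall 0 r)

lemma supp_onBall (μ : Measure (Euc n)) (r : ℝ) : Supp (onBall μ r) r :=
  Measure.ae_smul_measure ((ae_restrict_mem measurableSet_closedBall).mono fun x hx => by simpa using hx) _

lemma isProb_onBall {μ : Measure (Euc n)} [IsFiniteMeasure μ] {r : ℝ}
    (h : μ (Metric.closedBall 0 r) ≠ 0) : IsProbabilityMeasure (onBall μ r) :=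
  ⟨by simp [onBall, ENNReal.inv_mul_cancel h (measure_ne_top _ _)]⟩

lemma integral_onBall (μ : Measure (Euc n)) (r : ℝ) {F : Type*} [NormedAddCommGroup F] [NormedSpace ℝ F]
    (f : Euc n → F) : ∫ x, f x ∂(onBall μ r)
      = (μ.real (Metric.closedBall 0 r))⁻¹ • ∫ x in Metric.closedBall 0 r, f x ∂μ := by
  rw [onBall, integral_smul_measure, ENNReal.toReal_inv, measureReal_def]

lemma IsLC.onBall {κ : ℝ} {μ : Measure (Euc n)} [IsFiniteMeasure μ] (h : IsLC κ μ) {r : ℝ}
    (hne : μ (Metric.closedBall 0 r) ≠ 0) : IsLC κ (onBall μ r) := by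
  obtain ⟨p, hp, hp0, hineq, hμ⟩ := h
  set B := Metric.closedBall (0 : Euc n) r with hB
  set c := ((μ B).toReal)⁻¹ with hc
  have hc0 : 0 < c := inv_pos.2 (ENNReal.toReal_pos hne (measure_ne_top _ _))
  refine ⟨B.indicator fun x => c * p x, (by fun_prop : Measurable _).indicator measurableSet_closedBall,
    fun x => Set.indicator_nonneg (fun x _ => mul_nonneg hc0.le (hp0 x)) x, fun x y a b ha hb hab => ?_, ?_⟩
  · by_cases hx : x ∈ B
    swap
    · simp [hx, zero_rpow ha.ne']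
      exact Set.indicator_nonneg (fun x _ => mul_nonneg hc0.le (hp0 x)) _
    by_cases hy : y ∈ B
    swap
    · simp [hy, zero_rpow hb.ne']
      exact Set.indicator_nonneg (fun x _ => mul_nonneg hc0.le (hp0 x)) _
    have hz : a • x + b • y ∈ B := convex_closedBall _ _ hx hy ha.le hb.le hab
    rw [Set.indicator_of_mem hx, Set.indicator_of_mem hy, Set.indicator_of_mem hz,
      mul_rpow hc0.le (hp0 x), mul_rpow hc0.le (hp0 y)]
    have hcab : c ^ a * c ^ b = c := by rw [← rpow_add hc0, hab, rpow_one]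
    calc c ^ a * p x ^ a * (c ^ b * p y ^ b) * exp (κ * (a * b) / 2 * ‖x - y‖ ^ 2)
        = c ^ a * c ^ b * (p x ^ a * p y ^ b * exp (κ * (a * b) / 2 * ‖x - y‖ ^ 2)) := by ring
      _ ≤ _ := by rw [hcab]; exact mul_le_mul_of_nonneg_left (hineq x y a b ha hb hab) hc0.le
  · rw [P245.onBall, ← hB]
    conv_lhs => arg 2; rw [hμ, restrict_withDensity measurableSet_closedBall, ← withDensity_indicator measurableSet_closedBall]
    rw [← withDensity_smul _ ((by fun_prop : Measurable _).indicator measurableSet_closedBall)]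
    refine withDensity_congr_ae (Eventually.of_forall fun x => ?_)
    by_cases hx : x ∈ Metric.closedBall (0 : Euc n) r
    · simp only [hB, Pi.smul_apply, smul_eq_mul, Set.indicator_of_mem hx]
      rw [ENNReal.ofReal_mul hc0.le, hc, ← ENNReal.toReal_inv, ENNReal.ofReal_toReal (ENNReal.inv_ne_top.2 hne)]
    · simp only [hB, Pi.smul_apply, smul_eq_mul, Set.indicator_of_notMem hx, mul_zero, ENNReal.ofReal_zero]

end Vale.Agent.P245
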