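import Vale.Agent.P245.Step

open MeasureTheory Real Filter Set
open scoped Topology RealInnerProductSpace

namespace Vale.Agent.P245

variable {n : ℕ}

section

variable {μ : Measure (Euc n)} [IsProbabilityMeasure μ] {R : ℝ}

/-- Trace of an even power of the covariance operator. -/
noncomputable def strace (t : ℝ) (μ : Measure (Euc n)) (m : ℕ) (θ : Euc n) : ℝ := frob (Aop t μ θ ^ m)

lemma continuous_frob : Continuous (frob (n := n)) :=
  continuous_finsetSum _ fun a _ => ((continuous_id (X := Op n)).clm_apply continuous_const).norm.pow 2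

lemma continuous_strace (hS : Supp μ R) (t : ℝ) (m : ℕ) : Continuous (strace t μ m) :=
  continuous_frob.comp ((continuous_Aop hS).pow m)

lemma strace_nonneg (t : ℝ) (m : ℕ) (θ : Euc n) : 0 ≤ strace t μ m θ := frob_nonneg _

lemma strace_le (hS : Supp μ R) (t : ℝ) (m : ℕ) (θ : Euc n) : strace t μ m θ ≤ n * (4 * R ^ 2) ^ (2 * m) :=
  frob_pow_le (symOp_Aop hS θ) (norm_Aop_le hS t θ) m

lemma aent_sub_pow_le {M : Op n} (hM : SymOp M) (b : OrthonormalBasis (Fin n) ℝ (Euc n)) (m : ℕ) :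
    ∑ k, ⟪b k, M (b k)⟫ ^ (2 * m) ≤ frob (M ^ m) := by
  obtain ⟨f, l, he⟩ := hM.exists_eigen
  exact diag_pow_le he b m

lemma integrable_bdd {X : Type*} [TopologicalSpace X] [MeasurableSpace X] [OpensMeasurableSpace X] {P : Measure X}
    [IsFiniteMeasure P] {φ : X → ℝ} (hφ : Continuous φ) {b : ℝ} (hb : ∀ z, |φ z| ≤ b) : Integrable φ P :=
  Integrable.of_bound hφ.aestronglyMeasurable b (Eventually.of_forall hb)

lemma antisym_var (P : Measure (Euc n × Euc n)) [IsProbabilityMeasure P]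
    {F : Euc n × Euc n → Euc n × Euc n → ℝ} (hF : Continuous (Function.uncurry F)) {B : ℝ} (hB : ∀ z z', |F z z'| ≤ B)
    (hanti : ∀ z z', F z' z = -F z z') :
    ∫ z, ∫ z', F z z' ^ 2 ∂P ∂P ≤ 2 * ∫ z', ((∫ z, F z z' ^ 2 ∂P) - (∫ z, F z z' ∂P) ^ 2) ∂P := by
  have h := prod_var (P := P) (Q := P) (H := F) hF.stronglyMeasurable hB
  have hi : Integrable (Function.uncurry F) (P.prod P) := integrable_bdd hF fun p => hB p.1 p.2
  have hz : ∫ z, ∫ z', F z z' ∂P ∂P = 0 := by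
    have h1 := integral_integral_swap hi
    have h2 : ∫ z', ∫ z, F z z' ∂P ∂P = -∫ z, ∫ z', F z z' ∂P ∂P := by
      rw [← integral_neg]
      refine integral_congr_ae (Eventually.of_forall fun z => ?_)
      simp only
      rw [← integral_neg]
      exact integral_congr_ae (Eventually.of_forall fun z' => hanti z z')
    linarith
  have hsym : ∀ z, (∫ z', F z z' ^ 2 ∂P) - (∫ z', F z z' ∂P) ^ 2
      = (∫ z', F z' z ^ 2 ∂P) - (∫ z', F z' z ∂P) ^ 2 := fun z => by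
    simp only [hanti z, neg_sq, integral_neg]
  rw [hz, integral_congr_ae (Eventually.of_forall hsym)] at h
  linarith

lemma sum_double_integral (P : Measure (Euc n × Euc n)) [IsProbabilityMeasure P]
    {G : Fin n → Fin n → Euc n × Euc n → Euc n × Euc n → ℝ} (hG : ∀ a c, Continuous (Function.uncurry (G a c)))
    {B : ℝ} (hB : ∀ a c z z', |G a c z z'| ≤ B) :
    ∑ a, ∑ c, ∫ z, ∫ z', G a c z z' ∂P ∂P = ∫ p, ∑ a, ∑ c, G a c p.1 p.2 ∂(P.prod P) := by
  have hi : ∀ a c, Integrable (fun p : (Euc n × Euc n) × (Euc n × Euc n) => G a c p.1 p.2) (P.prod P) :=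
    fun a c => integrable_bdd (hG a c) fun p => hB a c p.1 p.2
  rw [integral_finsetSum _ fun a _ => integrable_finsetSum _ fun c _ => hi a c]
  refine Finset.sum_congr rfl fun a _ => ?_
  rw [integral_finsetSum _ fun c _ => hi a c]
  exact Finset.sum_congr rfl fun c _ => integral_integral (hi a c)

lemma trace_by_copy (P : Measure (Euc n × Euc n)) [IsProbabilityMeasure P] {A : Euc n × Euc n → Op n}
    (hAc : Continuous A) (hAs : ∀ z, SymOp (A z)) {M : ℝ} (hAn : ∀ z, ‖A z‖ ≤ M) (m : ℕ) {B₀ : Op n} (hB₀ : SymOp B₀)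
    (hpos : ∀ z u, 0 ≤ ⟪u, A z u⟫) (hmean : ∀ u, ∫ z, ⟪u, A z u⟫ ∂P ≤ ⟪u, B₀ u⟫) (z : Euc n × Euc n) :
    frob (A z ^ m) ≤ 4 ^ m * ((∫ z', frob ((A z - A z') ^ m) ∂P) + frob (B₀ ^ m)) := by
  obtain ⟨b, l, hb⟩ := (hAs z).exists_eigen
  rw [frob_pow hb]
  have hbb : ∀ k (M' : Op n), |⟪b k, M' (b k)⟫| ≤ ‖M'‖ := fun k M' => by
    refine (abs_real_inner_le_norm _ _).trans ?_
    have := M'.le_opNorm (b k)
    rw [b.orthonormal.1 k, mul_one] at this
    rw [b.orthonormal.1 k, one_mul]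
    exact this
  have hcont : ∀ k, Continuous fun z' => ⟪b k, A z' (b k)⟫ := fun k =>
    (continuous_const (y := b k)).inner (𝕜 := ℝ) (hAc.clm_apply (continuous_const (y := b k)))
  have hM2 : ∀ z', ‖A z - A z'‖ ≤ 2 * M := fun z' => (norm_sub_le _ _).trans (by linarith [hAn z, hAn z'])
  set D := fun k z' => ⟪b k, (A z - A z') (b k)⟫ with hD
  have hDc : ∀ k, Continuous (D k) := fun k =>
    (continuous_const (y := b k)).inner (𝕜 := ℝ) ((continuous_const.sub hAc).clm_apply (continuous_const (y := b k)))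
  have hDb : ∀ k z', |D k z' ^ (2 * m)| ≤ (2 * M) ^ (2 * m) := fun k z' => by
    rw [abs_pow]; exact pow_le_pow_left₀ (abs_nonneg _) ((hbb k _).trans (hM2 z')) _
  have hDpc : ∀ k, Continuous fun z' => D k z' ^ (2 * m) := fun k => (hDc k).pow (2 * m)
  have iD : ∀ k, Integrable (fun z' => D k z' ^ (2 * m)) P := fun k => integrable_bdd (hDpc k) (hDb k)
  set β := fun k => ∫ z', ⟪b k, A z' (b k)⟫ ∂P with hβ
  have hl : ∀ k, l k = ⟪b k, A z (b k)⟫ := fun k => by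
    rw [hb, inner_smul_right, real_inner_self_eq_norm_sq, b.orthonormal.1 k]; simp
  have ib := fun k => integrable_bdd (P := P) (hcont k) fun z' => (hbb k (A z')).trans (hAn z')
  have h1 : ∀ k, (l k - β k) ^ (2 * m) ≤ ∫ z', D k z' ^ (2 * m) ∂P := fun k => by
    have e : l k - β k = ∫ z', D k z' ∂P := by
      simp only [hD, sub_apply, inner_sub_right, ← hl]
      rw [integral_sub (integrable_const _) (ib k), integral_const, probReal_univ, one_smul]
    rw [e]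
    exact pow_integral_le (integrable_bdd (hDc k) fun z' => (hbb k _).trans (hM2 z')) m (iD k)
  have h2 : ∑ k, β k ^ (2 * m) ≤ frob (B₀ ^ m) :=
    (Finset.sum_le_sum fun k _ => pow_le_pow_left₀ (integral_nonneg fun z' => hpos z' _) (hmean (b k)) _).trans
      (aent_sub_pow_le hB₀ b m)
  have h3 : ∑ k, ∫ z', D k z' ^ (2 * m) ∂P ≤ ∫ z', frob ((A z - A z') ^ m) ∂P := by
    rw [← integral_finsetSum _ fun k _ => iD k]
    refine integral_mono (integrable_finsetSum _ fun k _ => iD k)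
      (integrable_bdd (continuous_frob.comp ((continuous_const.sub hAc).pow m)) (b := n * (2 * M) ^ (2 * m)) fun z' => ?_)
      fun z' => aent_sub_pow_le ((hAs z).sub (hAs z')) b m
    rw [abs_of_nonneg (frob_nonneg _)]
    exact frob_pow_le ((hAs z).sub (hAs z')) (hM2 z') m
  have h4 : ∑ k, l k ^ (2 * m) ≤ ∑ k, 2 ^ (2 * m) * ((∫ z', D k z' ^ (2 * m) ∂P) + β k ^ (2 * m)) :=
    Finset.sum_le_sum fun k _ => by
      have := add_pow_even_le (l k - β k) (β k) m
      rw [sub_add_cancel] at this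
      exact this.trans (mul_le_mul_of_nonneg_left (add_le_add (h1 k) le_rfl) (by positivity))
  refine h4.trans ?_
  rw [← Finset.mul_sum, Finset.sum_add_distrib, show (2:ℝ) ^ (2 * m) = 4 ^ m by rw [pow_mul]; norm_num]
  exact mul_le_mul_of_nonneg_left (add_le_add h3 h2) (by positivity)

/-- Parameter reached from `θ₀` after a step of length `σ`. -/
noncomputable def stp (σ : ℝ) (θ₀ : Euc n) (z : Euc n × Euc n) : Euc n := θ₀ + pt (√σ) z.1 z.2

lemma continuous_stp (σ : ℝ) (θ₀ : Euc n) : Continuous (stp σ θ₀) := by unfold stp pt; fun_prop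

lemma integral_stp (hS : Supp μ R) {t σ : ℝ} (θ₀ : Euc n) {φ : Euc n → ℝ} (hφ : Continuous φ) {b : ℝ} (hb : ∀ x, |φ x| ≤ b) :
    ∫ z, φ (stp σ θ₀ z) ∂((fib t μ θ₀).prod (gam n)) = ∫ x, ∫ G, φ (θ₀ + pt (√σ) x G) ∂(gam n) ∂(fib t μ θ₀) := by
  have := isProb_fib (T := t) hS θ₀
  exact integral_prod (fun z => φ (stp σ θ₀ z)) (integrable_bdd (hφ.comp (continuous_stp σ θ₀)) fun z => hb _)

lemma abs_le_of_sq {x B : ℝ} (h : x ^ 2 ≤ B) : |x| ≤ B + 1 := by
  nlinarith [sq_abs x, sq_nonneg (|x| - 1), abs_nonneg x]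

lemma single_le_double {f : Fin n → Fin n → ℝ} (h0 : ∀ a c, 0 ≤ f a c) (a c : Fin n) : f a c ≤ ∑ a, ∑ c, f a c :=
  (Finset.single_le_sum (fun c _ => h0 a c) (Finset.mem_univ c)).trans
    (Finset.single_le_sum (f := fun a => ∑ c, f a c) (fun a _ => Finset.sum_nonneg fun c _ => h0 a c) (Finset.mem_univ a))

lemma continuous_ggrad (hS : Supp μ R) (s : ℝ) (m : ℕ) (a c : Fin n) :
    Continuous fun q : Op n × Euc n => ggrad s μ q.1 m a c q.2 := by
  have hA : Continuous fun q : Op n × Euc n => Aop s μ q.2 - q.1 :=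
    ((continuous_Aop hS).comp continuous_snd).sub continuous_fst
  refine continuous_finsetSum _ fun k _ => ((continuous_const (y := stdb n a)).inner (𝕜 := ℝ) ?_).smul (continuous_const (y := stdb n k))
  have : Continuous fun q : Op n × Euc n => dpow (Aop s μ q.2 - q.1) (dA s μ q.2 (stdb n k)) m :=
    continuous_finsetSum _ fun l _ => ((hA.pow _).mul ((continuous_dA hS s _).comp continuous_snd)).mul (hA.pow _)
  exact this.clm_apply continuous_const

lemma continuous_gab (hS : Supp μ R) (s : ℝ) (m : ℕ) (a c : Fin n) :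
    Continuous fun q : Op n × Euc n => gab s μ q.1 m a c q.2 := by
  have hA : Continuous fun q : Op n × Euc n => Aop s μ q.2 - q.1 :=
    ((continuous_Aop hS).comp continuous_snd).sub continuous_fst
  exact (continuous_const (y := stdb n a)).inner (𝕜 := ℝ) ((hA.pow m).clm_apply (continuous_const (y := stdb n c)))

lemma gab_sq_le (hS : Supp μ R) (s : ℝ) {C : Op n} (hC : SymOp C) (hCn : ‖C‖ ≤ 4 * R ^ 2) (m : ℕ) (a c : Fin n)
    (θ : Euc n) : gab s μ C m a c θ ^ 2 ≤ n * (8 * R ^ 2) ^ (2 * m) :=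
  ((single_le_double (fun a c => sq_nonneg (gab s μ C m a c θ)) a c).trans (sum_gab_sq s C m θ).le).trans
    (frob_pow_le ((symOp_Aop hS θ).sub hC) ((norm_sub_le _ _).trans (by linarith [norm_Aop_le hS s θ])) m)

lemma ggrad_sq_le (hS : Supp μ R) (s : ℝ) {C : Op n} (hC : SymOp C) (hCn : ‖C‖ ≤ 4 * R ^ 2) (i : ℕ) (a c : Fin n)
    (θ : Euc n) : ‖ggrad s μ C (i + 2) a c θ‖ ^ 2 ≤ emax n R i :=
  (single_le_double (fun a c => sq_nonneg ‖ggrad s μ C (i + 2) a c θ‖) a c).trans (energy_sup hS s hC hCn i θ)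

lemma gab_antisym (s : ℝ) {m : ℕ} (hm : Odd m) (a c : Fin n) (θ θ' : Euc n) :
    gab s μ (Aop s μ θ) m a c θ' = -gab s μ (Aop s μ θ') m a c θ := by
  have e : (Aop s μ θ' - Aop s μ θ) ^ m = -((Aop s μ θ - Aop s μ θ') ^ m) := by
    rw [← Odd.neg_pow (α := Op n) hm (Aop s μ θ - Aop s μ θ')]
    congr 1
    exact (neg_sub _ _).symm
  rw [gab, gab, e, neg_apply, inner_neg_right]

lemma antisym_var_bound (P : Measure (Euc n × Euc n)) [IsProbabilityMeasure P]
    {F N : Euc n × Euc n → Euc n × Euc n → ℝ} (hF : Continuous (Function.uncurry F)) {B : ℝ} (hB : ∀ z z', |F z z'| ≤ B)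
    (hanti : ∀ z z', F z' z = -F z z') (hN : Continuous (Function.uncurry N)) {B' : ℝ} (hB' : ∀ z' z, |N z' z| ≤ B')
    {c e : ℝ} (hle : ∀ z', (∫ z, F z z' ^ 2 ∂P) - (∫ z, F z z' ∂P) ^ 2 ≤ c * (∫ z, N z' z ∂P) + e) :
    ∫ z, ∫ z', F z z' ^ 2 ∂P ∂P ≤ 2 * (c * ∫ z', ∫ z, N z' z ∂P ∂P) + 2 * e := by
  refine (antisym_var P hF hB hanti).trans ?_
  have hiN : Integrable (fun z' => ∫ z, N z' z ∂P) P :=
    (integrable_bdd (P := P.prod P) hN fun p => hB' p.1 p.2).integral_prod_left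
  have hF2c : Continuous fun p : (Euc n × Euc n) × (Euc n × Euc n) => F p.1 p.2 ^ 2 := hF.pow 2
  have hiF2 : Integrable (fun z' => ∫ z, F z z' ^ 2 ∂P) P :=
    (integrable_bdd (P := P.prod P) hF2c (b := B ^ 2) fun p => by
      rw [abs_pow]; exact pow_le_pow_left₀ (abs_nonneg _) (hB _ _) 2).integral_prod_right
  have hiF1 : Integrable (fun z' => (∫ z, F z z' ∂P) ^ 2) P :=
    Integrable.of_bound ((hF.stronglyMeasurable.integral_prod_left').pow 2).aestronglyMeasurable (B ^ 2)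
      (Eventually.of_forall fun z' => by
        rw [norm_eq_abs, abs_pow]
        refine pow_le_pow_left₀ (abs_nonneg _) ?_ 2
        simpa using norm_integral_le_of_norm_le_const (μ := P) (f := fun z => F z z') (C := B)
          (Eventually.of_forall fun z => hB z z'))
  have h2 := integral_mono (hiF2.sub' hiF1) ((hiN.const_mul _).add (integrable_const _)) hle
  simp only [Pi.add_apply] at h2
  rw [integral_add (hiN.const_mul _) (integrable_const _), integral_const_mul, integral_const, probReal_univ, one_smul] at h2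
  linarith

attribute [local irreducible] gab ggrad Aop

lemma entry_point (hS : Supp μ R) {t σ : ℝ} (hσ : 0 ≤ σ) (θ₀ : Euc n) (i : ℕ) {K e : ℝ}
    (hP : Poin (fib t μ θ₀) R K e) (a c : Fin n) {C : Op n} (hC : SymOp C) (hCn : ‖C‖ ≤ 4 * R ^ 2) :
    (∫ z, gab (t + σ) μ C (i + 2) a c (stp σ θ₀ z) ^ 2 ∂((fib t μ θ₀).prod (gam n)))
        - (∫ z, gab (t + σ) μ C (i + 2) a c (stp σ θ₀ z) ∂((fib t μ θ₀).prod (gam n))) ^ 2
      ≤ (K * σ ^ 2 + σ) * (∫ z, ‖ggrad (t + σ) μ C (i + 2) a c (stp σ θ₀ z)‖ ^ 2 ∂((fib t μ θ₀).prod (gam n)))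
        + e * σ ^ 2 * emax n R i := by
  have hd := d1_gab hS (t + σ) C (i + 2) a c
  set BF := (n : ℝ) * (8 * R ^ 2) ^ (2 * (i + 2)) + 1 with hBF
  have hb : ∀ θ, |gab (t + σ) μ C (i + 2) a c θ| ≤ BF := fun θ => abs_le_of_sq (gab_sq_le hS _ hC hCn _ a c θ)
  have hM := fun θ => ggrad_sq_le hS (t + σ) hC hCn i a c θ
  have h := var_point hS hσ θ₀ hP hd hb ((sq_nonneg _).trans (hM 0)) hM
  rw [← integral_stp hS θ₀ (φ := fun θ => gab (t + σ) μ C (i + 2) a c θ ^ 2) (hd.cont.pow 2) (b := BF ^ 2)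
      (fun θ => by rw [abs_pow]; exact pow_le_pow_left₀ (abs_nonneg _) (hb θ) 2),
    ← integral_stp hS θ₀ (φ := gab (t + σ) μ C (i + 2) a c) hd.cont hb,
    ← integral_stp hS θ₀ (φ := fun θ => ‖ggrad (t + σ) μ C (i + 2) a c θ‖ ^ 2) (hd.cont'.norm.pow 2) (b := emax n R i)
      (fun θ => by rw [abs_of_nonneg (sq_nonneg _)]; exact hM θ)] at h
  exact h

/-- Two copies: one entry. -/
lemma entry_var (hS : Supp μ R) {t σ : ℝ} (hσ : 0 ≤ σ) (θ₀ : Euc n) {i : ℕ} (hodd : Odd (i + 2)) {K e : ℝ}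
    (hP : Poin (fib t μ θ₀) R K e) (a c : Fin n) :
    ∫ z, ∫ z', gab (t + σ) μ (Aop (t + σ) μ (stp σ θ₀ z')) (i + 2) a c (stp σ θ₀ z) ^ 2
        ∂((fib t μ θ₀).prod (gam n)) ∂((fib t μ θ₀).prod (gam n))
      ≤ 2 * ((K * σ ^ 2 + σ) * ∫ z', ∫ z, ‖ggrad (t + σ) μ (Aop (t + σ) μ (stp σ θ₀ z')) (i + 2) a c (stp σ θ₀ z)‖ ^ 2
        ∂((fib t μ θ₀).prod (gam n)) ∂((fib t μ θ₀).prod (gam n))) + 2 * (e * σ ^ 2 * emax n R i) := by
  have := isProb_fib (T := t) hS θ₀
  have hAc : Continuous fun z => Aop (t + σ) μ (stp σ θ₀ z) := (continuous_Aop hS).comp (continuous_stp σ θ₀)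
  exact antisym_var_bound ((fib t μ θ₀).prod (gam n))
    (F := fun z z' => gab (t + σ) μ (Aop (t + σ) μ (stp σ θ₀ z')) (i + 2) a c (stp σ θ₀ z))
    (N := fun z' z => ‖ggrad (t + σ) μ (Aop (t + σ) μ (stp σ θ₀ z')) (i + 2) a c (stp σ θ₀ z)‖ ^ 2)
    ((continuous_gab hS (t + σ) (i + 2) a c).comp ((hAc.comp continuous_snd).prodMk ((continuous_stp σ θ₀).comp continuous_fst)))
    (fun z z' => abs_le_of_sq (gab_sq_le hS _ (symOp_Aop hS _) (norm_Aop_le hS _ _) _ a c _))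
    (fun z z' => gab_antisym (t + σ) hodd a c _ _)
    (show Continuous fun p : (Euc n × Euc n) × (Euc n × Euc n) =>
        ‖ggrad (t + σ) μ (Aop (t + σ) μ (stp σ θ₀ p.1)) (i + 2) a c (stp σ θ₀ p.2)‖ ^ 2 from
      (((continuous_ggrad hS (t + σ) (i + 2) a c).comp ((hAc.comp continuous_fst).prodMk ((continuous_stp σ θ₀).comp continuous_snd))).norm).pow 2)
    (B' := emax n R i) (fun z' z => by
      rw [abs_of_nonneg (sq_nonneg _)]; exact ggrad_sq_le hS _ (symOp_Aop hS _) (norm_Aop_le hS _ _) i a c _)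
    (fun z' => entry_point hS hσ θ₀ i hP a c (symOp_Aop hS _) (norm_Aop_le hS _ _))

/-- Two copies: energy of all entries. -/
lemma entries_energy (hS : Supp μ R) {t σ : ℝ} (θ₀ : Euc n) (i : ℕ) {V : ℝ} (hV : 0 ≤ V) {E : Euc n → ℝ}
    (hEc : Continuous E) (hE0 : ∀ θ, 0 ≤ E θ) {Eb : ℝ} (hEb : ∀ θ, E θ ≤ Eb)
    (hsw : ∀ θ u, sw (t + σ) μ θ u ^ 2
      ≤ aent (t + σ) μ θ u u * (4 * V * tw (t + σ) μ θ u + E θ * sw (t + σ) μ θ u)) :
    ∑ a, ∑ c, ∫ z', ∫ z, ‖ggrad (t + σ) μ (Aop (t + σ) μ (stp σ θ₀ z')) (i + 2) a c (stp σ θ₀ z)‖ ^ 2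
        ∂((fib t μ θ₀).prod (gam n)) ∂((fib t μ θ₀).prod (gam n))
      ≤ 2 * ((i : ℝ) + 2) ^ 2 * (12 * V *
          ((∫ z, ∫ z', frob ((Aop (t + σ) μ (stp σ θ₀ z) - Aop (t + σ) μ (stp σ θ₀ z')) ^ (i + 2))
              ∂((fib t μ θ₀).prod (gam n)) ∂((fib t μ θ₀).prod (gam n)))
            + ∫ z, strace (t + σ) μ (i + 2) (stp σ θ₀ z) ∂((fib t μ θ₀).prod (gam n)))
          + 6 * ((∫ z, E (stp σ θ₀ z) ∂((fib t μ θ₀).prod (gam n))) * (2 * n * (8 * R ^ 2) ^ (2 * (i + 2)) + n))) := by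
  have := isProb_fib (T := t) hS θ₀
  set P := (fib t μ θ₀).prod (gam n) with hP'
  set Wn := 2 * (n : ℝ) * (8 * R ^ 2) ^ (2 * (i + 2)) + n with hWn
  set A := fun z => Aop (t + σ) μ (stp σ θ₀ z) with hA
  have hAc : Continuous A := (continuous_Aop hS).comp (continuous_stp σ θ₀)
  have hAs : ∀ z, SymOp (A z) := fun z => symOp_Aop hS _
  have hAn : ∀ z, ‖A z‖ ≤ 4 * R ^ 2 := fun z => norm_Aop_le hS _ _
  set W := fun p : (Euc n × Euc n) × (Euc n × Euc n) => frob ((A p.1 - A p.2) ^ (i + 2)) with hW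
  have hWc : Continuous W := continuous_frob.comp (((hAc.comp continuous_fst).sub (hAc.comp continuous_snd)).pow _)
  have hWb : ∀ p, W p ≤ n * (8 * R ^ 2) ^ (2 * (i + 2)) := fun p =>
    frob_pow_le ((hAs p.1).sub (hAs p.2)) ((norm_sub_le _ _).trans (by linarith [hAn p.1, hAn p.2])) _
  have hSb : ∀ θ, strace (t + σ) μ (i + 2) θ ≤ n * (8 * R ^ 2) ^ (2 * (i + 2)) := fun θ =>
    frob_pow_le (symOp_Aop hS θ) ((norm_Aop_le hS _ _).trans (by nlinarith [sq_nonneg R])) _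
  have hNc : ∀ a c, Continuous fun p : (Euc n × Euc n) × (Euc n × Euc n) =>
      ‖ggrad (t + σ) μ (A p.1) (i + 2) a c (stp σ θ₀ p.2)‖ ^ 2 := fun a c =>
    (((continuous_ggrad hS (t + σ) (i + 2) a c).comp ((hAc.comp continuous_fst).prodMk ((continuous_stp σ θ₀).comp continuous_snd))).norm).pow 2
  have hNb : ∀ a c (z' z : Euc n × Euc n), |‖ggrad (t + σ) μ (A z') (i + 2) a c (stp σ θ₀ z)‖ ^ 2| ≤ emax n R i := fun a c z' z => by
    rw [abs_of_nonneg (sq_nonneg _)]; exact ggrad_sq_le hS _ (hAs z') (hAn z') i a c _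
  rw [sum_double_integral P (G := fun a c z' z => ‖ggrad (t + σ) μ (A z') (i + 2) a c (stp σ θ₀ z)‖ ^ 2) hNc hNb]
  have hsum : ∀ p : (Euc n × Euc n) × (Euc n × Euc n), ∑ a, ∑ c, ‖ggrad (t + σ) μ (A p.1) (i + 2) a c (stp σ θ₀ p.2)‖ ^ 2
      ≤ 2 * ((i : ℝ) + 2) ^ 2 * (12 * V * (W p.swap + strace (t + σ) μ (i + 2) (stp σ θ₀ p.2)) + 6 * (E (stp σ θ₀ p.2) * Wn)) := fun p => by
    refine (energy_le hS (t + σ) (hAs p.1) i _ hV (hE0 _) (hsw _)).trans ?_
    refine mul_le_mul_of_nonneg_left ?_ (by positivity)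
    have h1 : W p.swap + strace (t + σ) μ (i + 2) (stp σ θ₀ p.2) + n ≤ Wn := by
      linarith [hWb p.swap, hSb (stp σ θ₀ p.2)]
    have := mul_le_mul_of_nonneg_left h1 (hE0 (stp σ θ₀ p.2))
    simp only [hW, hA, strace, Prod.fst_swap, Prod.snd_swap] at this ⊢
    linarith
  have iW : Integrable W (P.prod P) := integrable_bdd hWc fun p => by rw [abs_of_nonneg (frob_nonneg _)]; exact hWb p
  have iW' : Integrable (fun p => W (Prod.swap p)) (P.prod P) := iW.swap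
  have iS' : Integrable (fun p : (Euc n × Euc n) × (Euc n × Euc n) => strace (t + σ) μ (i + 2) (stp σ θ₀ p.2)) (P.prod P) :=
    integrable_bdd ((continuous_strace hS _ _).comp ((continuous_stp σ θ₀).comp continuous_snd)) fun p => by
      rw [abs_of_nonneg (strace_nonneg _ _ _)]; exact hSb _
  have iE' : Integrable (fun p : (Euc n × Euc n) × (Euc n × Euc n) => E (stp σ θ₀ p.2)) (P.prod P) :=
    integrable_bdd (hEc.comp ((continuous_stp σ θ₀).comp continuous_snd)) fun p => by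
      rw [abs_of_nonneg (hE0 _)]; exact hEb _
  refine (integral_mono (integrable_finsetSum _ fun a _ => integrable_finsetSum _ fun c _ =>
      integrable_bdd (hNc a c) fun p => hNb a c p.1 p.2)
    ((((iW'.add iS').const_mul (12 * V)).add ((iE'.mul_const Wn).const_mul 6)).const_mul _) hsum).trans (le_of_eq ?_)
  simp only [Pi.add_apply]
  rw [integral_const_mul, integral_add (f := fun p : (Euc n × Euc n) × (Euc n × Euc n) => 12 * V * (W p.swap + strace (t + σ) μ (i + 2) (stp σ θ₀ p.2)))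
    ((iW'.add iS').const_mul _) ((iE'.mul_const Wn).const_mul 6), integral_const_mul, integral_const_mul,
    integral_add iW' iS', integral_mul_const, integral_prod_swap W, integral_fun_snd fun z => strace (t + σ) μ (i + 2) (stp σ θ₀ z),
    integral_fun_snd fun z => E (stp σ θ₀ z), probReal_univ, one_smul, one_smul, integral_prod W iW]

/-- The matrix moment after one step, by two independent copies. -/
lemma moment_step (hS : Supp μ R) (hR : 0 ≤ R) {t σ : ℝ} (hσ : 0 ≤ σ) (θ₀ : Euc n) {i : ℕ}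
    (hodd : Odd (i + 2)) {K e V : ℝ} (hK : 0 ≤ K) (he : 0 ≤ e) (hV : 0 ≤ V) (hP : Poin (fib t μ θ₀) R K e)
    {E : Euc n → ℝ} (hEc : Continuous E) (hE0 : ∀ θ, 0 ≤ E θ) {Eb : ℝ} (hEb : ∀ θ, E θ ≤ Eb)
    (hsw : ∀ θ u, sw (t + σ) μ θ u ^ 2
      ≤ aent (t + σ) μ θ u u * (4 * V * tw (t + σ) μ θ u + E θ * sw (t + σ) μ θ u))
    (hδ : 48 * ((i : ℝ) + 2) ^ 2 * V * (K * σ ^ 2 + σ) * (1 + 4 ^ (i + 2)) ≤ 1 / 2) :
    ∫ x, ∫ G, strace (t + σ) μ (i + 2) (θ₀ + pt (√σ) x G) ∂(gam n) ∂(fib t μ θ₀)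
      ≤ 4 ^ (i + 2) * (2 * strace t μ (i + 2) θ₀
        + 2 * (24 * ((i : ℝ) + 2) ^ 2 * (K * σ ^ 2 + σ) * (2 * n * (8 * R ^ 2) ^ (2 * (i + 2)) + n)
            * (∫ x, ∫ G, E (θ₀ + pt (√σ) x G) ∂(gam n) ∂(fib t μ θ₀))
          + 2 * e * σ ^ 2 * ((n : ℝ) ^ 2 * emax n R i))) := by
  have := isProb_fib (T := t) hS θ₀
  have hen := entries_energy hS θ₀ i hV hEc hE0 hEb hsw
  set P := (fib t μ θ₀).prod (gam n) with hP'
  set A := fun z => Aop (t + σ) μ (stp σ θ₀ z) with hA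
  have hAc : Continuous A := (continuous_Aop hS).comp (continuous_stp σ θ₀)
  have hAs : ∀ z, SymOp (A z) := fun z => symOp_Aop hS _
  have hAn : ∀ z, ‖A z‖ ≤ 4 * R ^ 2 := fun z => norm_Aop_le hS _ _
  set m := i + 2 with hm
  set Z := ∫ z, ∫ z', frob ((A z - A z') ^ m) ∂P ∂P with hZ
  set S := ∫ z, strace (t + σ) μ m (stp σ θ₀ z) ∂P with hS'
  set S0 := strace t μ m θ₀ with hS0
  have hWc : Continuous fun p : (Euc n × Euc n) × (Euc n × Euc n) => frob ((A p.1 - A p.2) ^ m) :=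
    continuous_frob.comp (((hAc.comp continuous_fst).sub (hAc.comp continuous_snd)).pow m)
  have iW : Integrable (fun p : (Euc n × Euc n) × (Euc n × Euc n) => frob ((A p.1 - A p.2) ^ m)) (P.prod P) :=
    integrable_bdd hWc (b := n * (8 * R ^ 2) ^ (2 * m)) fun p => by
      rw [abs_of_nonneg (frob_nonneg _)]
      exact frob_pow_le ((hAs p.1).sub (hAs p.2)) ((norm_sub_le _ _).trans (by linarith [hAn p.1, hAn p.2])) m
  have hSle : S ≤ 4 ^ m * (Z + S0) := by
    have hmean : ∀ u, ∫ z, ⟪u, A z u⟫ ∂P ≤ ⟪u, Aop t μ θ₀ u⟫ := fun u => by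
      rw [inner_Aop hS]
      refine le_trans (le_of_eq ?_) (mean_aent_le hS hR t σ hσ θ₀ u)
      rw [← integral_stp hS θ₀ (φ := fun θ => aent (t + σ) μ θ u u) (continuous_aent hS _ _) fun θ => abs_aent_le hS θ _ _]
      simp only [hA, inner_Aop hS]
      rfl
    have hpt : ∀ z, frob (A z ^ m) ≤ 4 ^ m * ((∫ z', frob ((A z - A z') ^ m) ∂P) + S0) :=
      trace_by_copy P hAc hAs hAn m (symOp_Aop hS θ₀)
        (fun z u => by simp only [hA, inner_Aop hS]; exact aent_self_nonneg _ _) hmean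
    have iS : Integrable (fun z => frob (A z ^ m)) P :=
      integrable_bdd (continuous_frob.comp (hAc.pow m)) (b := n * (4 * R ^ 2) ^ (2 * m)) fun z => by
        rw [abs_of_nonneg (frob_nonneg _)]; exact frob_pow_le (hAs z) (hAn z) m
    have h := integral_mono iS ((iW.integral_prod_left.add (integrable_const S0)).const_mul (4 ^ m)) hpt
    simp only [Pi.add_apply] at h
    rw [integral_const_mul, integral_add iW.integral_prod_left (integrable_const S0), integral_const, probReal_univ, one_smul] at h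
    exact h
  have hZ1 : Z = ∑ a, ∑ c, ∫ z, ∫ z', gab (t + σ) μ (A z') m a c (stp σ θ₀ z) ^ 2 ∂P ∂P := by
    rw [sum_double_integral P (G := fun a c z z' => gab (t + σ) μ (A z') m a c (stp σ θ₀ z) ^ 2) (fun a c =>
        show Continuous fun p : (Euc n × Euc n) × (Euc n × Euc n) => gab (t + σ) μ (A p.2) m a c (stp σ θ₀ p.1) ^ 2 from
          ((continuous_gab hS (t + σ) m a c).comp ((hAc.comp continuous_snd).prodMk ((continuous_stp σ θ₀).comp continuous_fst))).pow 2)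
        (B := n * (8 * R ^ 2) ^ (2 * m)) (fun a c z z' => by rw [abs_of_nonneg (sq_nonneg _)]; exact gab_sq_le hS _ (hAs z') (hAn z') _ a c _),
      hZ, integral_integral iW]
    exact integral_congr_ae (Eventually.of_forall fun p => (sum_gab_sq _ _ _ _).symm)
  set c0 := K * σ ^ 2 + σ with hc0
  have hc00 : 0 ≤ c0 := by positivity
  have hZle : Z ≤ 2 * c0 * (2 * ((i : ℝ) + 2) ^ 2 * (12 * V * (Z + S) + 6 * ((∫ z, E (stp σ θ₀ z) ∂P) * (2 * n * (8 * R ^ 2) ^ (2 * m) + n))))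
      + 2 * (e * σ ^ 2 * ((n : ℝ) ^ 2 * emax n R i)) := by
    conv_lhs => rw [hZ1]
    refine (Finset.sum_le_sum fun a _ => Finset.sum_le_sum fun c _ => entry_var hS hσ θ₀ hodd hP a c).trans ?_
    simp only [Finset.sum_add_distrib, ← Finset.mul_sum, Finset.sum_const, Finset.card_univ, Fintype.card_fin, nsmul_eq_mul]
    have := mul_le_mul_of_nonneg_left hen (by positivity : 0 ≤ 2 * c0)
    linarith
  have hS00 : 0 ≤ S0 := strace_nonneg _ _ _
  have hZ0 : 0 ≤ Z := integral_nonneg fun z => integral_nonneg fun z' => frob_nonneg _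
  rw [← integral_stp hS θ₀ (φ := E) hEc (fun θ => by rw [abs_of_nonneg (hE0 θ)]; exact hEb θ),
    ← integral_stp hS θ₀ (φ := strace (t + σ) μ m) (continuous_strace hS _ _)
      (fun θ => by rw [abs_of_nonneg (strace_nonneg _ _ _)]; exact strace_le hS _ _ _)]
  set ε1 := ∫ z, E (stp σ θ₀ z) ∂P
  set δ := 48 * ((i : ℝ) + 2) ^ 2 * V * c0 with hδdef
  have hδ0 : 0 ≤ δ := by positivity
  set err := 24 * ((i : ℝ) + 2) ^ 2 * c0 * (2 * n * (8 * R ^ 2) ^ (2 * m) + n) * ε1 + 2 * e * σ ^ 2 * ((n : ℝ) ^ 2 * emax n R i) with herr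
  have h1 : Z ≤ δ * (Z + S) + err := by linarith
  have h2 := mul_le_mul_of_nonneg_left (add_le_add (le_refl Z) hSle) hδ0
  have h3 := mul_le_mul_of_nonneg_right hδ hZ0
  have h4 : δ * 4 ^ m * S0 ≤ 1 / 2 * S0 := mul_le_mul_of_nonneg_right (le_trans (by nlinarith) hδ) hS00
  have hZb : Z ≤ S0 + 2 * err := by linarith
  exact hSle.trans (mul_le_mul_of_nonneg_left (by linarith) (by positivity))

end

end Vale.Agent.P245
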