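import Vale.Agent.P245.Tensor
import Vale.Agent.P245.Iterate

open MeasureTheory Real Filter Set
open scoped Topology RealInnerProductSpace

namespace Vale.Agent.P245

variable {n : ℕ}

/-- Poincare inequality with constant `C` and defect `e` times the squared Lipschitz bound on the ball. -/
def Poin (ν : Measure (Euc n)) (R C e : ℝ) : Prop :=
  ∀ (g : Euc n → ℝ) (g' : Euc n → Euc n) (M : ℝ), D1 g g' → 0 ≤ M → (∀ x, ‖x‖ ≤ R → ‖g' x‖ ^ 2 ≤ M) →
    ∫ x, (g x - ∫ y, g y ∂ν) ^ 2 ∂ν ≤ C * ∫ x, ‖g' x‖ ^ 2 ∂ν + e * M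

lemma cs_integral {α : Type*} [MeasurableSpace α] {μ : Measure α} {f g : α → ℝ}
    (hf : Integrable (fun x => f x ^ 2) μ) (hg : Integrable (fun x => g x ^ 2) μ)
    (hfg : Integrable (fun x => f x * g x) μ) :
    (∫ x, f x * g x ∂μ) ^ 2 ≤ (∫ x, f x ^ 2 ∂μ) * ∫ x, g x ^ 2 ∂μ := by
  have h : ∀ r : ℝ, 0 ≤ (∫ x, g x ^ 2 ∂μ) * (r * r) + 2 * (∫ x, f x * g x ∂μ) * r + ∫ x, f x ^ 2 ∂μ := fun r => by
    have e : ∀ x, (f x + r * g x) ^ 2 = (r * r) * g x ^ 2 + (2 * r) * (f x * g x) + f x ^ 2 := fun x => by ring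
    have h1 : 0 ≤ ∫ x, (f x + r * g x) ^ 2 ∂μ := integral_nonneg fun x => sq_nonneg _
    rw [integral_congr_ae (Eventually.of_forall e), integral_add (f := fun x => (r * r) * g x ^ 2 + (2 * r) * (f x * g x))
      ((hg.const_mul _).add (hfg.const_mul _)) hf, integral_add (hg.const_mul _) (hfg.const_mul _),
      integral_const_mul, integral_const_mul] at h1
    linarith
  have h2 := discrim_le_zero h
  rw [discrim] at h2
  linarith

section

variable {μ : Measure (Euc n)} [IsProbabilityMeasure μ] {R t : ℝ}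

lemma sw_sq_le (hS : Supp μ R) (θ u : Euc n) {C e : ℝ} (he : 0 ≤ e) (hP : Poin (fib t μ θ) R C e) :
    sw t μ θ u ^ 2 ≤ aent t μ θ u u * (4 * C * tw t μ θ u + e * (16 * R ^ 2) * sw t μ θ u) := by
  have := isProb_fib (T := t) hS θ
  have hsf := supp_fib (T := t) hS θ
  set w := fun c => wvec t μ θ u (stdb n c) with hw
  set b := bary t μ θ with hb
  set q := fun x => ∑ c, ⟪stdb n c, x - b⟫ * ⟪w c, x - b⟫ with hq
  set q' := fun x => (2 : ℝ) • ∑ c, ⟪w c, x - b⟫ • stdb n c with hq'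
  have hsym : ∀ y : Euc n, ∑ c, ⟪stdb n c, y⟫ • w c = ∑ c, ⟪w c, y⟫ • stdb n c := fun y => by
    refine ext_inner_left ℝ fun z => ?_
    simp only [inner_sum, inner_smul_right]
    calc ∑ c, ⟪stdb n c, y⟫ * ⟪z, w c⟫ = ∑ c, ⟪stdb n c, y⟫ * ⟪stdb n c, wvec t μ θ u z⟫ :=
          Finset.sum_congr rfl fun c _ => by rw [hw]; simp only; rw [inner_wvec_perm hS]
      _ = ⟪y, wvec t μ θ u z⟫ := (inner_eq_sum (stdb n) _ _).symm
      _ = _ := by
          rw [inner_wvec_perm hS, inner_eq_sum (stdb n)]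
          exact Finset.sum_congr rfl fun c _ => by
            rw [inner_wvec_perm hS, real_inner_comm z (stdb n c), real_inner_comm (w c) y]; simp only [hw]; ring
  have hd : D1 q q' := by
    refine ⟨fun x => ?_, by fun_prop⟩
    have h1 : ∀ a : Euc n, HasFDerivAt (fun x => ⟪a, x - b⟫) (innerSL ℝ a) x := fun a => by
      have h := (innerSL ℝ a).hasFDerivAt (x := x - b)
      simpa [innerSL_apply_apply] using! h.comp x ((hasFDerivAt_id x).sub_const b)
    have h := HasFDerivAt.fun_sum (u := Finset.univ) fun c _ => (h1 (stdb n c)).fun_mul (h1 (w c))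
    refine h.congr_fderiv (ContinuousLinearMap.ext fun z => ?_)
    simp only [hq', map_smul, smul_apply, map_sum, sum_apply,
      add_apply, innerSL_apply_apply, smul_eq_mul, Finset.sum_add_distrib, two_mul]
    have := congrArg (fun v => ⟪v, z⟫) (hsym (x - b))
    simp only [sum_inner, real_inner_smul_left] at this
    linarith
  have hn : ∀ x, ‖q' x‖ ^ 2 = 4 * ∑ c, ⟪w c, x - b⟫ ^ 2 := fun x => by
    rw [hq', norm_smul, mul_pow, norm_sq_eq_sum (stdb n) (∑ c, _)]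
    simp only [inner_sum, inner_smul_right, (stdb n).inner_eq_ite, mul_ite, mul_one, mul_zero, Finset.sum_ite_eq,
      Finset.mem_univ, if_true, norm_eq_abs, abs_two]
    norm_num
  have hbd : ∀ x, ‖x‖ ≤ R → ‖q' x‖ ^ 2 ≤ 16 * R ^ 2 * sw t μ θ u := fun x hx => by
    rw [hn, sw, Finset.mul_sum, Finset.mul_sum]
    refine Finset.sum_le_sum fun c _ => ?_
    have h1 := abs_real_inner_le_norm (w c) (x - b)
    have h2 : ‖x - b‖ ≤ 2 * R := (norm_sub_le _ _).trans (by linarith [norm_bary_le (T := t) hS θ])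
    have h3 := pow_le_pow_left₀ (abs_nonneg _) (h1.trans (mul_le_mul_of_nonneg_left h2 (norm_nonneg _))) 2
    rw [sq_abs] at h3
    simp only [hw] at h3 ⊢
    linarith
  have hs : sw t μ θ u = ∫ x, ⟪u, x - b⟫ * (q x - ∫ y, q y ∂(fib t μ θ)) ∂(fib t μ θ) := by
    simp only [mul_sub]
    rw [integral_sub (hsf.integrable (by fun_prop)) (hsf.integrable (by fun_prop)), integral_mul_const]
    have h0 := integral_cen (t := t) hS θ u
    simp only [cen, ← hb] at h0
    rw [h0, zero_mul, sub_zero, sw]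
    simp only [hq, Finset.mul_sum]
    rw [integral_finsetSum _ fun c _ => hsf.integrable (by fun_prop)]
    refine Finset.sum_congr rfl fun c _ => ?_
    rw [← real_inner_self_eq_norm_sq, inner_wvec hS]
    exact integral_congr_ae (Eventually.of_forall fun x => by simp only [hw, cen, hb]; ring)
  have hcs := cs_integral (μ := fib t μ θ) (f := fun x => ⟪u, x - b⟫) (g := fun x => q x - ∫ y, q y ∂(fib t μ θ))
    (hsf.integrable (by fun_prop)) (hsf.integrable (by fun_prop)) (hsf.integrable (by fun_prop))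
  have ha : ∫ x, ⟪u, x - b⟫ ^ 2 ∂(fib t μ θ) = aent t μ θ u u := by simp only [aent, cen, hb, sq]
  rw [← hs, ha] at hcs
  refine hcs.trans (mul_le_mul_of_nonneg_left ?_ (aent_self_nonneg θ u))
  refine (hP q q' _ hd (by have := sw_nonneg (t := t) (μ := μ) θ u; positivity) hbd).trans (le_of_eq ?_)
  have e : ∫ x, ‖q' x‖ ^ 2 ∂(fib t μ θ) = 4 * tw t μ θ u := by
    simp only [hn]
    rw [integral_const_mul, integral_finsetSum _ fun c _ => hsf.integrable (by fun_prop)]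
    simp only [tw, aent, cen, hw, hb, sq]
  rw [e]; ring

lemma young_pow {d l : ℝ} (hd : 0 ≤ d) (hl : 0 ≤ l) (k : ℕ) :
    (k + 1 : ℝ) * (d ^ k * l) ≤ k * d ^ (k + 1) + l ^ (k + 1) := by
  induction k with
  | zero => simp
  | succ k ih =>
    have h1 := mul_le_mul_of_nonneg_left ih hd
    have h2 : 0 ≤ (d ^ (k + 1) - l ^ (k + 1)) * (d - l) := by
      rcases le_total l d with h | h
      · exact mul_nonneg (sub_nonneg.2 (pow_le_pow_left₀ hl h _)) (sub_nonneg.2 h)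
      · exact mul_nonneg_of_nonpos_of_nonpos (sub_nonpos.2 (pow_le_pow_left₀ hd h _)) (sub_nonpos.2 h)
    push_cast
    ring_nf at h1 h2 ⊢
    linarith

lemma phi_pointwise {d a s T V E : ℝ} (hd : 0 ≤ d) (ha : 0 ≤ a) (hs : 0 ≤ s) (hT : 0 ≤ T) (hV : 0 ≤ V)
    (hE : 0 ≤ E) (h : s ^ 2 ≤ a * (4 * V * T + E * s)) : d * s ≤ T / 2 + 2 * V * d ^ 2 * a + E * d * a := by
  have h0 : 0 ≤ T / 2 + 2 * V * d ^ 2 * a := by positivity
  rcases le_or_gt s (E * a) with h1 | h1
  · have := mul_le_mul_of_nonneg_left h1 hd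
    linarith
  have h2 : (s - E * a) ^ 2 ≤ 4 * V * a * T := by nlinarith [mul_nonneg hE ha]
  have h3 : (d * (s - E * a)) ^ 2 ≤ (T / 2 + 2 * V * d ^ 2 * a) ^ 2 := by
    nlinarith [mul_le_mul_of_nonneg_left h2 (sq_nonneg d), sq_nonneg (T / 2 - 2 * V * d ^ 2 * a)]
  have h4 := (pow_le_pow_iff_left₀ (mul_nonneg hd (by linarith)) h0 two_ne_zero).1 h3
  linarith

lemma sum_phi (hS : Supp μ R) (θ : Euc n) (i : ℕ) {V E : ℝ} (hV : 0 ≤ V) (hE : 0 ≤ E)
    (hsw : ∀ u, sw t μ θ u ^ 2 ≤ aent t μ θ u u * (4 * V * tw t μ θ u + E * sw t μ θ u))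
    (b : OrthonormalBasis (Fin n) ℝ (Euc n)) (d : Fin n → ℝ) (hd : ∀ k, 0 ≤ d k)
    {f : OrthonormalBasis (Fin n) ℝ (Euc n)} {l : Fin n → ℝ} (he : ∀ k, Aop t μ θ (f k) = l k • f k)
    (hl : ∀ k, 0 ≤ l k) :
    ∑ k, d k ^ (2 * i + 2) * sw t μ θ (b k)
      ≤ ((2 * i + 1) / (2 * i + 2) * ∑ k, d k ^ (2 * i + 2) * sw t μ θ (b k)
          + 1 / (2 * i + 2) * ∑ k, l k ^ (2 * i + 2) * sw t μ θ (f k)) / 2
        + 2 * V * (∑ k, d k ^ (2 * i + 4) + frob (Aop t μ θ ^ (i + 2)))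
        + E * (∑ k, d k ^ (2 * i + 4) + frob (Aop t μ θ ^ (i + 2)) + n) := by
  set a := fun k => aent t μ θ (b k) (b k) with ha
  have hdiag : ∑ k, a k ^ (2 * (i + 2)) ≤ frob (Aop t μ θ ^ (i + 2)) := by
    refine le_trans (le_of_eq ?_) (diag_pow_le he b (i + 2))
    simp only [ha, inner_Aop hS]
  have ha0 : ∀ k, 0 ≤ a k := fun k => aent_self_nonneg _ _
  have hp : ∀ k, d k ^ (2 * i + 2) * sw t μ θ (b k)
      ≤ d k ^ (2 * i + 1) * tw t μ θ (b k) / 2 + 2 * V * (d k ^ (2 * i + 4) + a k ^ (2 * (i + 2)))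
        + E * (d k ^ (2 * i + 4) + a k ^ (2 * (i + 2)) + 1) := fun k => by
    have h1 := mul_le_mul_of_nonneg_left (phi_pointwise (hd k) (ha0 k) (sw_nonneg _ _) (tw_nonneg _ _) hV hE (hsw (b k)))
      (pow_nonneg (hd k) (2 * i + 1))
    have h2 : d k ^ (2 * i + 3) * a k ≤ d k ^ (2 * i + 4) + a k ^ (2 * (i + 2)) := by
      have h := young_pow (hd k) (ha0 k) (2 * i + 3)
      push_cast at h
      have hb0 : 0 ≤ a k ^ (2 * i + 4) := pow_nonneg (ha0 k) _
      have hd0 : 0 ≤ d k ^ (2 * i + 4) := pow_nonneg (hd k) _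
      rw [show 2 * (i + 2) = 2 * i + 4 by ring]
      rw [show 2 * i + 3 + 1 = 2 * i + 4 by ring] at h
      have hi : (0 : ℝ) < 2 * i + 4 := by positivity
      nlinarith [mul_nonneg (by positivity : (0:ℝ) ≤ 2 * i + 3) hb0]
    have h3 : d k ^ (2 * i + 2) * a k ≤ d k ^ (2 * i + 4) + a k ^ (2 * (i + 2)) + 1 := by
      rw [show 2 * (i + 2) = 2 * i + 4 by ring]
      set X := max (d k) (a k) with hX
      have hX0 : 0 ≤ X := (hd k).trans (le_max_left _ _)
      have h4 : d k ^ (2 * i + 2) * a k ≤ X ^ (2 * i + 3) := by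
        rw [pow_succ X (2 * i + 2)]
        exact mul_le_mul (pow_le_pow_left₀ (hd k) (le_max_left _ _) _) (le_max_right _ _) (ha0 k) (by positivity)
      have h5 : X ^ (2 * i + 3) ≤ X ^ (2 * i + 4) + 1 := by
        rcases le_total X 1 with h | h
        · have := pow_le_one₀ (n := 2 * i + 3) hX0 h
          linarith [pow_nonneg hX0 (2 * i + 4)]
        · linarith [pow_le_pow_right₀ h (show 2 * i + 3 ≤ 2 * i + 4 by omega)]
      have h6 : X ^ (2 * i + 4) ≤ d k ^ (2 * i + 4) + a k ^ (2 * i + 4) := by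
        rcases max_choice (d k) (a k) with h | h <;> rw [hX, h]
        · exact le_add_of_nonneg_right (pow_nonneg (ha0 k) _)
        · exact le_add_of_nonneg_left (pow_nonneg (hd k) _)
      linarith
    have e1 : d k ^ (2 * i + 2) * sw t μ θ (b k) = d k ^ (2 * i + 1) * (d k * sw t μ θ (b k)) := by ring
    have e2 : d k ^ (2 * i + 1) * (2 * V * d k ^ 2 * a k) = 2 * V * (d k ^ (2 * i + 3) * a k) := by ring
    have e3 : d k ^ (2 * i + 1) * (E * d k * a k) = E * (d k ^ (2 * i + 2) * a k) := by ring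
    rw [e1]
    rw [mul_add, mul_add] at h1
    simp only [ha] at h1 ⊢
    simp only [ha] at h2 h3 e2 e3
    have := mul_le_mul_of_nonneg_left h2 (by positivity : 0 ≤ 2 * V)
    have := mul_le_mul_of_nonneg_left h3 hE
    linarith
  have hT : ∑ k, d k ^ (2 * i + 1) * tw t μ θ (b k)
      ≤ (2 * i + 1) / (2 * i + 2) * ∑ k, d k ^ (2 * i + 2) * sw t μ θ (b k)
          + 1 / (2 * i + 2) * ∑ k, l k ^ (2 * i + 2) * sw t μ θ (f k) := by
    simp only [← sum_sq_wvec hS θ (b _) f, ← sum_sq_wvec hS θ (f _) b, tw_eigen hS θ (b _) he, Finset.mul_sum]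
    conv_rhs => arg 2; rw [Finset.sum_comm]
    rw [← Finset.sum_add_distrib]
    refine Finset.sum_le_sum fun k _ => ?_
    rw [← Finset.sum_add_distrib]
    refine Finset.sum_le_sum fun j _ => ?_
    rw [wvec_comm θ (f j) (b k)]
    have h := young_pow (hd k) (hl j) (2 * i + 1)
    push_cast at h
    have hw := sq_nonneg ‖wvec t μ θ (b k) (f j)‖
    have h' := mul_le_mul_of_nonneg_right h hw
    rw [div_mul_eq_mul_div, div_mul_eq_mul_div, ← add_div, le_div_iff₀ (by positivity)]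
    ring_nf at h' ⊢
    linarith
  calc _ ≤ ∑ k, (d k ^ (2 * i + 1) * tw t μ θ (b k) / 2 + 2 * V * (d k ^ (2 * i + 4) + a k ^ (2 * (i + 2)))
        + E * (d k ^ (2 * i + 4) + a k ^ (2 * (i + 2)) + 1)) := Finset.sum_le_sum fun k _ => hp k
    _ ≤ _ := by
      simp only [Finset.sum_add_distrib, ← Finset.mul_sum, ← Finset.sum_div, Finset.sum_const, Finset.card_univ,
        Fintype.card_fin, nsmul_eq_mul, mul_one]
      have := mul_le_mul_of_nonneg_left hdiag (by positivity : 0 ≤ 2 * V)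
      have := mul_le_mul_of_nonneg_left hdiag hE
      linarith

lemma eig_Aop_nonneg (hS : Supp μ R) (θ : Euc n) {f : OrthonormalBasis (Fin n) ℝ (Euc n)} {l : Fin n → ℝ}
    (he : ∀ k, Aop t μ θ (f k) = l k • f k) (k : Fin n) : 0 ≤ l k := by
  have h := aent_self_nonneg (t := t) (μ := μ) θ (f k)
  rw [← inner_Aop hS, he, inner_smul_right, real_inner_self_eq_norm_sq, f.orthonormal.1 k] at h
  simpa using h

/-- The dimension-free bound on weighted third cumulants. -/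
lemma phi_le (hS : Supp μ R) (θ : Euc n) (i : ℕ) {V E : ℝ} (hV : 0 ≤ V) (hE : 0 ≤ E)
    (hsw : ∀ u, sw t μ θ u ^ 2 ≤ aent t μ θ u u * (4 * V * tw t μ θ u + E * sw t μ θ u))
    (b : OrthonormalBasis (Fin n) ℝ (Euc n)) (d : Fin n → ℝ) (hd : ∀ k, 0 ≤ d k) :
    ∑ k, d k ^ (2 * i + 2) * sw t μ θ (b k)
      ≤ 12 * V * (∑ k, d k ^ (2 * i + 4) + frob (Aop t μ θ ^ (i + 2)))
        + 6 * E * (∑ k, d k ^ (2 * i + 4) + frob (Aop t μ θ ^ (i + 2)) + n) := by
  obtain ⟨f, l, he⟩ := (symOp_Aop (t := t) hS θ).exists_eigen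
  have hl := eig_Aop_nonneg hS θ he
  have h1 := sum_phi hS θ i hV hE hsw b d hd he hl
  have h2 := sum_phi hS θ i hV hE hsw f l hl he hl
  rw [← add_mul] at h2
  have e : ((2 * i + 1 : ℝ) / (2 * i + 2) + 1 / (2 * i + 2)) = 1 := by field_simp; ring
  rw [e, one_mul] at h2
  have e4 : ∑ k, l k ^ (2 * i + 4) = frob (Aop t μ θ ^ (i + 2)) := by
    rw [frob_pow he]; exact Finset.sum_congr rfl fun k _ => by ring_nf
  rw [e4] at h2
  set Φ := ∑ k, d k ^ (2 * i + 2) * sw t μ θ (b k)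
  set ΦA := ∑ k, l k ^ (2 * i + 2) * sw t μ θ (f k)
  have hΦ : 0 ≤ Φ := Finset.sum_nonneg fun k _ => mul_nonneg (pow_nonneg (hd k) _) (sw_nonneg _ _)
  have hΦA : 0 ≤ ΦA := Finset.sum_nonneg fun k _ => mul_nonneg (pow_nonneg (hl k) _) (sw_nonneg _ _)
  have c1 : (2 * i + 1 : ℝ) / (2 * i + 2) ≤ 1 := by rw [div_le_one (by positivity)]; linarith
  have c2 : (1 : ℝ) / (2 * i + 2) ≤ 1 := by rw [div_le_one (by positivity)]; linarith [(i.cast_nonneg : (0:ℝ) ≤ i)]
  have := mul_le_mul_of_nonneg_right c1 hΦ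
  have := mul_le_mul_of_nonneg_right c2 hΦA
  have hd4 : 0 ≤ ∑ k, d k ^ (2 * i + 4) := Finset.sum_nonneg fun k _ => pow_nonneg (hd k) _
  have := mul_nonneg hV hd4
  have := mul_nonneg hE hd4
  have := mul_nonneg hE (Nat.cast_nonneg (α := ℝ) n)
  linarith

end

end Vale.Agent.P245
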