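import Vale.Agent.P245.Phi

open MeasureTheory Real Filter Set
open scoped Topology RealInnerProductSpace

namespace Vale.Agent.P245

variable {n : ℕ}

lemma IsLC.weaken {κ : ℝ} {μ : Measure (Euc n)} (h : IsLC κ μ) (hκ : 0 ≤ κ) : IsLC 0 μ := by
  obtain ⟨p, hp, hp0, hineq, hμ⟩ := h
  refine ⟨p, hp, hp0, fun x y a b ha hb hab => ?_, hμ⟩
  refine le_trans ?_ (hineq x y a b ha hb hab)
  rw [zero_mul, zero_div, zero_mul, exp_zero, mul_one]
  refine le_mul_of_one_le_right (mul_nonneg (rpow_nonneg (hp0 x) _) (rpow_nonneg (hp0 y) _)) (one_le_exp ?_)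
  positivity

/-- Log-Sobolev inequality in Fisher information form. -/
def Fisi (ν : Measure (Euc n)) (K : ℝ) : Prop :=
  ∀ (g : Euc n → ℝ) (g' : Euc n → Euc n), Pos1 g g' → ent ν g ≤ K * ∫ x, fis g g' x ∂ν

section

variable {ν : Measure (Euc n)} [IsProbabilityMeasure ν] {R : ℝ}

lemma fisi_slc {κ : ℝ} (hκ : 0 < κ) (hν : IsLC κ ν) (hS : Supp ν R) (hR : 0 ≤ R) : Fisi ν (1 / (2 * κ)) := by
  intro g g' h
  have h1 := ent_exp_le_slc_supp hκ hν hS hR (fun x => log (g x)) (fun x => (g x)⁻¹ • g' x)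
    (fun x => by simpa using! (h.deriv x).log (h.pos x).ne') ((h.cont.inv₀ fun x => (h.pos x).ne').smul h.cont')
  have e : (fun x => exp (log (g x))) = g := funext fun x => exp_log (h.pos x)
  rw [e] at h1
  refine h1.trans (le_of_eq ?_)
  congr 1
  refine integral_congr_ae (Eventually.of_forall fun x => ?_)
  have := h.pos x
  simp only [fis, norm_smul, norm_inv, norm_eq_abs, abs_of_pos this, exp_log this, mul_pow]
  field_simp

lemma lsi_of_fisi {K : ℝ} (hK : 0 ≤ K) (hS : Supp ν R) (h : Fisi ν K) {f : Euc n → ℝ} {f' : Euc n → Euc n}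
    (hf : D1 f f') : ent ν (fun x => f x ^ 2) ≤ 4 * K * ∫ x, ‖f' x‖ ^ 2 ∂ν := by
  refine ent_le_of_perturb (h := fun x => f x ^ 2) hS (hf.cont.pow 2) (B := 0) fun δ hδ => ?_
  have hp := pos1_sq_add hf hδ
  have h2 : ∫ x, fis (fun x => f x ^ 2 + δ) (fun x => (2 * f x) • f' x) x ∂ν ≤ 4 * ∫ x, ‖f' x‖ ^ 2 ∂ν := by
    rw [← integral_const_mul]
    exact integral_mono (hS.integrable hp.cont_fis) ((hS.integrable (hf.cont'.norm.pow 2)).const_mul _)
      fun x => fis_sq_le hδ x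
  have h3 := (h _ _ hp).trans (mul_le_mul_of_nonneg_left h2 hK)
  linarith

lemma var_le_center (hS : Supp ν R) {g : Euc n → ℝ} (hg : Continuous g) (c : ℝ) :
    ∫ x, (g x - ∫ y, g y ∂ν) ^ 2 ∂ν ≤ ∫ x, (g x - c) ^ 2 ∂ν := by
  set m := ∫ y, g y ∂ν with hm
  have e : ∀ x, (g x - c) ^ 2 = (g x - m) ^ 2 + (2 * (m - c)) * (g x - m) + (m - c) ^ 2 := fun x => by ring
  rw [integral_congr_ae (f := fun x => (g x - c) ^ 2) (Eventually.of_forall e),
    integral_add (hS.integrable (by fun_prop)) (integrable_const _),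
    integral_add (hS.integrable (by fun_prop)) (hS.integrable (by fun_prop)), integral_const_mul,
    integral_sub (hS.integrable hg) (integrable_const _), integral_const, integral_const, probReal_univ, one_smul, one_smul,
    ← hm, sub_self, mul_zero, add_zero]
  linarith [sq_nonneg (m - c)]

lemma var_eq (hS : Supp ν R) {g : Euc n → ℝ} (hg : Continuous g) :
    ∫ x, (g x - ∫ y, g y ∂ν) ^ 2 ∂ν = (∫ x, g x ^ 2 ∂ν) - (∫ x, g x ∂ν) ^ 2 := by
  set m := ∫ y, g y ∂ν with hm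
  have e : ∀ x, (g x - m) ^ 2 = g x ^ 2 - (2 * m) * g x + m ^ 2 := fun x => by ring
  rw [integral_congr_ae (Eventually.of_forall e), integral_add (hS.integrable (by fun_prop)) (integrable_const _),
    integral_sub (hS.integrable (by fun_prop)) (hS.integrable (by fun_prop)), integral_const_mul, integral_const,
    probReal_univ, one_smul, ← hm]
  ring

lemma var_le_of_fisi {K : ℝ} (hK : 0 ≤ K) (hS : Supp ν R) (h : Fisi ν K) {g : Euc n → ℝ} {g' : Euc n → Euc n}
    (hg : D1 g g') : ∫ x, (g x - ∫ y, g y ∂ν) ^ 2 ∂ν ≤ 2 * K * ∫ x, ‖g' x‖ ^ 2 ∂ν := by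
  set m := ∫ y, g y ∂ν with hm
  have hv : D1 (fun x => g x - m) g' := ⟨fun x => (hg.deriv x).sub_const m, hg.cont'⟩
  have := poincare_of_lsi hS (K := 4 * K) (fun hf => lsi_of_fisi hK hS h hf) hv (by
    rw [integral_sub (hS.integrable hg.cont) (integrable_const _), integral_const, probReal_univ, one_smul, ← hm, sub_self])
  linarith

lemma poincare_slc {κ : ℝ} (hκ : 0 < κ) (hν : IsLC κ ν) (hS : Supp ν R) (hR : 0 ≤ R) {g : Euc n → ℝ}
    {g' : Euc n → Euc n} (hg : D1 g g') :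
    ∫ x, (g x - ∫ y, g y ∂ν) ^ 2 ∂ν ≤ 1 / κ * ∫ x, ‖g' x‖ ^ 2 ∂ν := by
  refine (var_le_of_fisi (by positivity) hS (fisi_slc hκ hν hS hR) hg).trans (le_of_eq ?_)
  field_simp

lemma aent_le_inv (hS : Supp ν R) (hR : 0 ≤ R) (hν : IsLC 0 ν) {t : ℝ} (ht : 0 < t) (θ v : Euc n) :
    aent t ν θ v v ≤ ‖v‖ ^ 2 / t := by
  have := isProb_fib (T := t) hS θ
  have hd : D1 (fun x : Euc n => ⟪v, x⟫) (fun _ => v) :=
    ⟨fun x => by simpa [innerSL_apply_apply] using! (innerSL ℝ v).hasFDerivAt (x := x), continuous_const⟩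
  have h := poincare_slc ht (isLC_fib (T := t) hS hν θ) (supp_fib hS θ) hR hd
  rw [integral_const, probReal_univ, one_smul, inner_bary hS] at h
  refine le_trans (le_of_eq ?_) (h.trans (le_of_eq (by ring)))
  simp only [aent, cen, inner_sub_right, sq]

lemma inner_cov_sq_le (hS : Supp ν R) {t : ℝ} {g : Euc n → ℝ} (hg : Continuous g) (θ v : Euc n) :
    ⟪v, cov t ν g θ⟫ ^ 2 ≤ aent t ν θ v v * ∫ x, (g x - av t ν g θ) ^ 2 ∂(fib t ν θ) := by
  have := isProb_fib (T := t) hS θ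
  have hsf := supp_fib (T := t) hS θ
  have e : ⟪v, cov t ν g θ⟫ = ∫ x, ⟪v, cen t ν θ x⟫ * (g x - av t ν g θ) ∂(fib t ν θ) := by
    simp only [mul_sub]
    rw [inner_cov hS hg, integral_sub (hsf.integrable (by fun_prop)) (hsf.integrable (by fun_prop)), integral_mul_const,
      integral_cen hS, zero_mul, sub_zero]
    simp only [mul_comm]
  rw [e]
  refine (cs_integral (hsf.integrable (by fun_prop)) (hsf.integrable (by fun_prop)) (hsf.integrable (by fun_prop))).trans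
    (le_of_eq ?_)
  simp only [aent, sq]

lemma norm_cov_sq_le_var (hS : Supp ν R) (hR : 0 ≤ R) (hν : IsLC 0 ν) {t : ℝ} (ht : 0 < t) {g : Euc n → ℝ}
    (hg : Continuous g) (θ : Euc n) :
    t * ‖cov t ν g θ‖ ^ 2 ≤ ∫ x, (g x - av t ν g θ) ^ 2 ∂(fib t ν θ) := by
  set c := cov t ν g θ
  set V := ∫ x, (g x - av t ν g θ) ^ 2 ∂(fib t ν θ)
  have hV : 0 ≤ V := integral_nonneg fun x => sq_nonneg _
  rcases eq_or_ne c 0 with h0 | h0
  · simp [h0, hV]
  have h := (inner_cov_sq_le hS hg θ c).trans (mul_le_mul_of_nonneg_right (aent_le_inv hS hR hν ht θ c) hV)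
  rw [real_inner_self_eq_norm_sq] at h
  have hc : 0 < ‖c‖ ^ 2 := by positivity
  rw [div_mul_eq_mul_div, le_div_iff₀ ht] at h
  refine le_of_mul_le_mul_left (le_trans (le_of_eq ?_) h) hc
  ring

/-- Poincare inequality for a log-concave measure on a ball. -/
lemma poincare_diam (hS : Supp ν R) (hR : 0 < R) (hν : IsLC 0 ν) {g : Euc n → ℝ} {g' : Euc n → Euc n}
    (hg : D1 g g') : ∫ x, (g x - ∫ y, g y ∂ν) ^ 2 ∂ν ≤ 3 * R ^ 2 * ∫ x, ‖g' x‖ ^ 2 ∂ν := by
  set t := 1 / R ^ 2 with ht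
  have ht0 : 0 < t := by positivity
  have := isProb_fib (T := t) hS 0
  have hw : ∀ᵐ x ∂ν, exp (-(1 / 2 : ℝ)) ≤ wt t 0 x ∧ wt t 0 x ≤ 1 := hS.mono fun x hx => by
    have h1 := pow_le_pow_left₀ (norm_nonneg x) hx 2
    simp only [wt, inner_zero_left, zero_sub]
    refine ⟨exp_le_exp.2 ?_, exp_le_one_iff.2 (by have : 0 ≤ t / 2 * ‖x‖ ^ 2 := (by positivity); linarith)⟩
    rw [ht]
    have : 1 / R ^ 2 / 2 * ‖x‖ ^ 2 ≤ 1 / 2 := by rw [div_div, div_mul_eq_mul_div, div_le_iff₀ (by positivity)]; linarith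
    linarith
  have hz : exp (-(1 / 2 : ℝ)) ≤ zf t ν 0 ∧ zf t ν 0 ≤ 1 := by
    have hi : Integrable (fun x => wt t 0 x) ν := hS.integrable (by fun_prop)
    constructor
    · have := integral_mono_ae (integrable_const _) hi (hw.mono fun x h => h.1)
      simpa [zf] using this
    · have := integral_mono_ae hi (integrable_const _) (hw.mono fun x h => h.2)
      simpa [zf] using this
  have hz0 := zf_pos (T := t) hS 0
  have key : ∀ F : Euc n → ℝ, Continuous F → (∀ x, 0 ≤ F x) →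
      exp (-(1 / 2 : ℝ)) * ∫ x, F x ∂ν ≤ ∫ x, F x ∂(fib t ν 0) ∧ exp (-(1 / 2 : ℝ)) * ∫ x, F x ∂(fib t ν 0) ≤ ∫ x, F x ∂ν := by
    intro F hF hF0
    have hI : 0 ≤ ∫ x, F x ∂ν := integral_nonneg hF0
    rw [integral_fib, smul_eq_mul]
    simp only [smul_eq_mul]
    have h1 : exp (-(1 / 2 : ℝ)) * ∫ x, F x ∂ν ≤ ∫ x, wt t 0 x * F x ∂ν := by
      rw [← integral_const_mul]
      exact integral_mono_ae ((hS.integrable hF).const_mul _) (hS.integrable (by fun_prop))
        (hw.mono fun x h => mul_le_mul_of_nonneg_right h.1 (hF0 x))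
    have h2 : ∫ x, wt t 0 x * F x ∂ν ≤ ∫ x, F x ∂ν :=
      integral_mono_ae (hS.integrable (by fun_prop)) (hS.integrable hF)
        (hw.mono fun x h => mul_le_of_le_one_left (hF0 x) h.2)
    constructor
    · rw [← div_eq_inv_mul, le_div_iff₀ hz0]
      exact (mul_le_of_le_one_right (mul_nonneg (exp_pos _).le hI) hz.2).trans h1
    · rw [← div_eq_inv_mul, ← mul_div_assoc, div_le_iff₀ hz0, mul_comm]
      exact mul_le_mul h2 hz.1 (exp_pos _).le hI
  have hP := poincare_slc ht0 (isLC_fib (T := t) hS hν 0) (supp_fib hS 0) hR.le hg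
  have h1 := var_le_center hS hg.cont (∫ y, g y ∂(fib t ν 0))
  have h2 := (key (fun x => (g x - ∫ y, g y ∂(fib t ν 0)) ^ 2) ((hg.cont.sub continuous_const).pow 2) fun x => sq_nonneg _).1
  have h3 := (key (fun x => ‖g' x‖ ^ 2) (hg.cont'.norm.pow 2) fun x => sq_nonneg _).2
  have he : (1 : ℝ) ≤ 3 * exp (-(1 / 2 : ℝ)) * exp (-(1 / 2 : ℝ)) := by
    rw [mul_assoc, ← exp_add, show -(1 / 2 : ℝ) + -(1 / 2) = -1 by norm_num, exp_neg, ← div_eq_mul_inv,
      one_le_div (exp_pos _)]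
    linarith [Real.exp_one_lt_d9]
  have hD : 0 ≤ ∫ x, ‖g' x‖ ^ 2 ∂ν := integral_nonneg fun x => sq_nonneg _
  rw [ht, one_div_one_div] at hP
  set X := ∫ x, (g x - ∫ y, g y ∂(fib t ν 0)) ^ 2 ∂ν
  have hX : 0 ≤ X := integral_nonneg fun x => sq_nonneg _
  have h4 := mul_le_mul_of_nonneg_left (h2.trans hP) (exp_pos (-(1 / 2 : ℝ))).le
  have h5 := mul_le_mul_of_nonneg_left h3 (sq_nonneg R)
  have h6 := mul_le_mul_of_nonneg_right he hX
  linarith

/-- Herbst's argument on a bounded set. -/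
lemma herbst_mgf {K : ℝ} (hK : 0 ≤ K) (hS : Supp ν R) (h : Fisi ν K) {u : Euc n → ℝ} {u' : Euc n → Euc n}
    (hu : D1 u u') {G : ℝ} (hG : ∀ x, ‖x‖ ≤ R → ‖u' x‖ ≤ G) (l : ℝ) :
    ∫ x, exp (l * (u x - ∫ y, u y ∂ν)) ∂ν ≤ exp (K * G ^ 2 * l ^ 2) := by
  suffices H : ∀ (u : Euc n → ℝ) (u' : Euc n → Euc n), D1 u u' → (∀ x, ‖x‖ ≤ R → ‖u' x‖ ≤ G) → ∀ l, 0 < l →
      ∫ x, exp (l * (u x - ∫ y, u y ∂ν)) ∂ν ≤ exp (K * G ^ 2 * l ^ 2) by
    rcases lt_trichotomy l 0 with hl | hl | hl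
    · have hn : D1 (fun x => -u x) (fun x => -u' x) :=
        ⟨fun x => by simpa using! (hu.deriv x).neg, hu.cont'.neg⟩
      have := H _ _ hn (fun x hx => by rw [norm_neg]; exact hG x hx) (-l) (neg_pos.2 hl)
      rw [integral_neg] at this
      simp only [neg_mul, mul_neg, sub_neg_eq_add, neg_sq, mul_add, mul_sub, neg_add_rev, neg_neg] at this ⊢
      refine le_trans (le_of_eq ?_) this
      exact integral_congr_ae (Eventually.of_forall fun x => by ring_nf)
    · subst hl; simp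
    · exact H u u' hu hG l hl
  intro u u' hu hG l₁ hl₁
  have hc := hu.cont
  set Z := fun l : ℝ => ∫ x, exp (l * u x) ∂ν with hZdef
  set N := fun l : ℝ => ∫ x, u x * exp (l * u x) ∂ν with hNdef
  have hi : ∀ l : ℝ, Integrable (fun x => exp (l * u x)) ν := fun l => hS.integrable (by fun_prop)
  have hZ : ∀ l, 0 < Z l := fun l => integral_exp_pos (hi l)
  have hdZ : ∀ l : ℝ, HasDerivAt Z (N l) l := by
    intro l
    obtain ⟨B, hB⟩ := ((isCompact_closedBall l 1).prod (isCompact_closedBall (0 : Euc n) R)).exists_bound_of_continuousOn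
      (f := fun p : ℝ × Euc n => u p.2 * exp (p.1 * u p.2)) (by fun_prop)
    refine (hasDerivAt_integral_of_dominated_loc_of_deriv_le (F := fun l x => exp (l * u x))
      (F' := fun l x => u x * exp (l * u x)) (bound := fun _ => B) (s := Metric.ball l 1) (Metric.ball_mem_nhds l one_pos)
      (Eventually.of_forall fun l' => by fun_prop) (hi l) (by fun_prop) ?_ (integrable_const B) ?_).2
    · exact hS.mono fun x hx l' hl' => hB (l', x) ⟨Metric.ball_subset_closedBall hl', by simpa using hx⟩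
    · refine Eventually.of_forall fun x l' _ => ?_
      simpa [mul_comm] using ((hasDerivAt_id l').mul_const (u x)).exp
  set hf := fun l : ℝ => log (Z l) / l - K * G ^ 2 * l with hh
  have hdh : ∀ l, 0 < l → HasDerivAt hf ((N l / Z l * l - log (Z l) * 1) / l ^ 2 - K * G ^ 2 * 1) l := fun l hl => by
    simpa [hh] using! (((hdZ l).log (hZ l).ne').div (hasDerivAt_id l) hl.ne').sub ((hasDerivAt_id l).const_mul (K * G ^ 2))
  have hkey : ∀ l, 0 < l → l * N l - Z l * log (Z l) ≤ K * G ^ 2 * l ^ 2 * Z l := fun l hl => by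
    have hp : Pos1 (fun x => exp (l * u x)) (fun x => (l * exp (l * u x)) • u' x) :=
      ⟨fun x => exp_pos _, fun x => by
        have := ((hu.deriv x).const_mul l).exp
        simpa [smul_smul, mul_comm] using! this, by have := hu.cont'; fun_prop⟩
    have h1 := h _ _ hp
    have h2 : ∫ x, fis (fun x => exp (l * u x)) (fun x => (l * exp (l * u x)) • u' x) x ∂ν ≤ G ^ 2 * l ^ 2 * Z l := by
      rw [← integral_const_mul]
      refine integral_mono_ae (hS.integrable hp.cont_fis) ((hi l).const_mul _) (hS.mono fun x hx => ?_)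
      simp only [fis, norm_smul, norm_eq_abs, abs_mul, abs_exp, mul_pow, sq_abs]
      rw [div_le_iff₀ (exp_pos _)]
      have := mul_le_mul_of_nonneg_left (pow_le_pow_left₀ (norm_nonneg _) (hG x hx) 2)
        (by positivity : 0 ≤ l ^ 2 * exp (l * u x) ^ 2)
      linarith
    have h3 := mul_le_mul_of_nonneg_left h2 hK
    have e : ent ν (fun x => exp (l * u x)) = l * N l - Z l * log (Z l) := by
      simp only [ent, log_exp, hNdef, hZdef]
      rw [← integral_const_mul]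
      congr 1
      exact integral_congr_ae (Eventually.of_forall fun x => by ring)
    rw [e] at h1
    linarith
  have hanti : AntitoneOn hf (Ioi 0) := by
    refine antitoneOn_of_hasDerivWithinAt_nonpos (convex_Ioi 0) (fun l hl => (hdh l hl).continuousAt.continuousWithinAt)
      (fun l hl => (hdh l (interior_subset hl)).hasDerivWithinAt) fun l hl => ?_
    have hl' : 0 < l := interior_subset (s := Ioi (0:ℝ)) hl
    have := hkey l hl'
    rw [sub_nonpos, div_le_iff₀ (by positivity), mul_one, div_mul_eq_mul_div, sub_le_iff_le_add, div_le_iff₀ (hZ l)]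
    linarith
  have hlim : Tendsto hf (𝓝[>] 0) (𝓝 (∫ x, u x ∂ν)) := by
    have hZ0 : Z 0 = 1 := by simp [hZdef]
    have h1 : Tendsto (fun l => log (Z l) / l) (𝓝[>] 0) (𝓝 (∫ x, u x ∂ν)) := by
      have := (((hdZ 0).log (hZ 0).ne')).tendsto_slope_zero_right
      simpa [hZ0, hNdef, div_eq_inv_mul] using this
    simpa [hh] using h1.sub ((tendsto_nhdsWithin_of_tendsto_nhds (s := Ioi (0:ℝ)) tendsto_id).const_mul (K * G ^ 2))
  have hle : hf l₁ ≤ ∫ x, u x ∂ν := by
    refine ge_of_tendsto hlim ?_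
    filter_upwards [Ioo_mem_nhdsGT hl₁] with l hl
    exact hanti hl.1 hl₁ hl.2.le
  simp only [hh] at hle
  rw [sub_le_iff_le_add, div_le_iff₀ hl₁, log_le_iff_le_exp (hZ l₁)] at hle
  simp only [mul_sub, exp_sub]
  rw [integral_div, div_le_iff₀ (exp_pos _), ← exp_add]
  exact hle.trans (exp_le_exp.2 (by ring_nf; rfl))

end

section

lemma gam_ball_pos {r : ℝ} (hr : 0 < r) : gam n (Metric.closedBall (0 : Euc n) r) ≠ 0 := by
  intro h
  have hac : (volume : Measure (Euc n)) ≪ gam n := absolutelyContinuous_tilted integrable_gauss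
  exact (Metric.measure_closedBall_pos volume (0 : Euc n) hr).ne' (hac h)

lemma tendsto_onBall_gam {F : Euc n → ℝ} (hF : Continuous F) {B : ℝ} (hB : ∀ x, |F x| ≤ B) :
    Tendsto (fun k : ℕ => ∫ x, F x ∂(onBall (gam n) ((k : ℝ) + 1))) atTop (𝓝 (∫ x, F x ∂(gam n))) := by
  have hmono : Monotone fun k : ℕ => Metric.closedBall (0 : Euc n) ((k : ℝ) + 1) := fun i j hij =>
    Metric.closedBall_subset_closedBall (by have : (i:ℝ) ≤ j := Nat.cast_le.2 hij; linarith)
  have hU : (⋃ k : ℕ, Metric.closedBall (0 : Euc n) ((k : ℝ) + 1)) = univ := eq_univ_of_forall fun x => by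
    obtain ⟨k, hk⟩ := exists_nat_ge ‖x‖
    exact mem_iUnion.2 ⟨k, by simp only [Metric.mem_closedBall, dist_zero_right]; linarith⟩
  have h1 : ∀ G : Euc n → ℝ, Continuous G → ∀ C : ℝ, (∀ x, |G x| ≤ C) →
      Tendsto (fun k : ℕ => ∫ x in Metric.closedBall 0 ((k : ℝ) + 1), G x ∂(gam n)) atTop (𝓝 (∫ x, G x ∂(gam n))) := by
    intro G hG C hC
    have := tendsto_setIntegral_of_monotone (μ := gam n) (f := G) (fun k : ℕ => measurableSet_closedBall) hmono
      ((Integrable.of_bound hG.aestronglyMeasurable C (Eventually.of_forall hC)).integrableOn)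
    rwa [hU, setIntegral_univ] at this
  have hp : Tendsto (fun k : ℕ => (gam n).real (Metric.closedBall (0 : Euc n) ((k : ℝ) + 1))) atTop (𝓝 1) := by
    have := h1 (fun _ => 1) continuous_const 1 (fun _ => by simp)
    simpa using this
  have := (hp.inv₀ one_ne_zero).mul (h1 F hF B hB)
  rw [inv_one, one_mul] at this
  refine this.congr fun k => ?_
  rw [integral_onBall, smul_eq_mul]

lemma poincare_gam {g : Euc n → ℝ} {g' : Euc n → Euc n} (hg : D1 g g') {B G : ℝ} (hB : ∀ x, |g x| ≤ B)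
    (hG : ∀ x, ‖g' x‖ ≤ G) :
    (∫ x, g x ^ 2 ∂(gam n)) - (∫ x, g x ∂(gam n)) ^ 2 ≤ ∫ x, ‖g' x‖ ^ 2 ∂(gam n) := by
  refine le_of_tendsto_of_tendsto' ((tendsto_onBall_gam (hg.cont.pow 2) (B := B ^ 2) fun x => by
      rw [Pi.pow_apply, abs_pow]; exact pow_le_pow_left₀ (abs_nonneg _) (hB x) 2).sub ((tendsto_onBall_gam hg.cont hB).pow 2))
    (tendsto_onBall_gam (hg.cont'.norm.pow 2) (B := G ^ 2) fun x => by
      rw [abs_pow, abs_norm]; exact pow_le_pow_left₀ (norm_nonneg _) (hG x) 2) fun k => ?_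
  have hne := gam_ball_pos (n := n) (r := (k : ℝ) + 1) (by positivity)
  have := isProb_onBall hne
  have h := poincare_slc one_pos (isLC_gam.onBall hne) (supp_onBall (gam n) _) (by positivity) hg
  rw [var_eq (supp_onBall (gam n) _) hg.cont, div_one, one_mul] at h
  exact h

lemma herbst_gam {u : Euc n → ℝ} {u' : Euc n → Euc n} (hu : D1 u u') {B G : ℝ} (hB : ∀ x, |u x| ≤ B)
    (hG : ∀ x, ‖u' x‖ ≤ G) (l : ℝ) :
    ∫ x, exp (l * u x) ∂(gam n) ≤ exp (l * (∫ x, u x ∂(gam n)) + G ^ 2 * l ^ 2 / 2) := by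
  have hc := hu.cont
  have hE : Tendsto (fun k : ℕ => exp (l * (∫ x, u x ∂(onBall (gam n) ((k : ℝ) + 1))) + G ^ 2 * l ^ 2 / 2)) atTop
      (𝓝 (exp (l * (∫ x, u x ∂(gam n)) + G ^ 2 * l ^ 2 / 2))) :=
    (continuous_exp.tendsto _).comp (((tendsto_onBall_gam hu.cont hB).const_mul l).add_const _)
  refine le_of_tendsto_of_tendsto' (tendsto_onBall_gam (F := fun x => exp (l * u x)) (B := exp (|l| * B))
    (by fun_prop) fun x => ?_) hE fun k => ?_
  · rw [abs_exp, exp_le_exp]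
    exact (le_abs_self _).trans ((abs_mul _ _).le.trans (mul_le_mul_of_nonneg_left (hB x) (abs_nonneg _)))
  have hne := gam_ball_pos (n := n) (r := (k : ℝ) + 1) (by positivity)
  have := isProb_onBall hne
  have h := herbst_mgf (by positivity : (0:ℝ) ≤ 1 / (2 * 1)) (supp_onBall (gam n) ((k : ℝ) + 1))
    (fisi_slc one_pos (isLC_gam.onBall hne) (supp_onBall (gam n) _) (by positivity)) hu (fun x _ => hG x) l
  simp only [mul_sub, exp_sub] at h
  rw [integral_div, div_le_iff₀ (exp_pos _), ← exp_add] at h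
  exact h.trans (exp_le_exp.2 (by linarith))

end

section

variable {ν : Measure (Euc n)} [IsProbabilityMeasure ν] {R s : ℝ}

lemma continuous_bad (hS : Supp ν R) {ξ : Euc n → ℝ} (hξ : Continuous ξ) (hξ0 : ∀ z, 0 ≤ ξ z) (hξ1 : ∀ z, ξ z ≤ 1) :
    Continuous fun x : Euc n => ∫ G, ξ (pt s x G) ∂(gam n) :=
  continuous_of_dominated (bound := fun _ => (1:ℝ)) (fun x => (hξ.comp (continuous_pt s x)).aestronglyMeasurable)
    (fun x => Eventually.of_forall fun G => by rw [norm_eq_abs, abs_of_nonneg (hξ0 _)]; exact hξ1 _)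
    (integrable_const _) (Eventually.of_forall fun G => hξ.comp (by unfold pt; fun_prop))

/-- One step of the variance decomposition along the kernel. -/
lemma var_step (hS : Supp ν R) (hR : 0 ≤ R) (hν : IsLC 0 ν) (hs : 0 < s) {g : Euc n → ℝ} {g' : Euc n → Euc n}
    (hg : D1 g g') :
    ∫ x, (g x - ∫ y, g y ∂ν) ^ 2 ∂ν ≤ 2 / s ^ 2 * ∫ x, ‖g' x‖ ^ 2 ∂ν
      + ∫ x, (qop s ν g x - ∫ y, qop s ν g y ∂ν) ^ 2 ∂ν := by
  have hT : 0 < s ^ 2 := by positivity
  have hc := hg.cont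
  have hD : Continuous fun x => ‖g' x‖ ^ 2 := hg.cont'.norm.pow 2
  have hg2 : Continuous fun x => g x ^ 2 := hc.pow 2
  obtain ⟨B, hB0, hB⟩ := exists_bound hR hc
  have hvar : ∀ θ, ∫ x, (g x - av (s ^ 2) ν g θ) ^ 2 ∂(fib (s ^ 2) ν θ)
      = av (s ^ 2) ν (fun x => g x ^ 2) θ - av (s ^ 2) ν g θ ^ 2 := fun θ => by
    have := isProb_fib (T := s ^ 2) hS θ
    exact var_eq (supp_fib hS θ) hc
  have hP : ∀ θ, ∫ x, (g x - av (s ^ 2) ν g θ) ^ 2 ∂(fib (s ^ 2) ν θ) ≤ 1 / s ^ 2 * av (s ^ 2) ν (fun x => ‖g' x‖ ^ 2) θ :=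
    fun θ => by
    have := isProb_fib (T := s ^ 2) hS θ
    exact poincare_slc hT (isLC_fib (T := s ^ 2) hS hν θ) (supp_fib hS θ) hR hg
  have hpt : ∀ x, qop s ν (fun y => g y ^ 2) x - qop s ν g x ^ 2 ≤ 2 / s ^ 2 * qop s ν (fun y => ‖g' y‖ ^ 2) x := fun x => by
    have hd : D1 (fun G => av (s ^ 2) ν g (pt s x G)) (fun G => s • cov (s ^ 2) ν g (pt s x G)) := by
      refine ⟨fun G => ?_, ((continuous_cov hS hc).comp (continuous_pt s x)).const_smul s⟩
      have h1 : HasFDerivAt (pt s x) (s • ContinuousLinearMap.id ℝ (Euc n)) G :=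
        ((hasFDerivAt_id G).const_smul s).const_add _
      convert! (hasFDerivAt_av (T := s ^ 2) hS hc (pt s x G)).comp G h1 using 1
      ext v; simp
    have h1 := poincare_gam hd (B := B) (G := s * (2 * B * R)) (fun G => abs_av_le hS hB _) (fun G => by
      rw [norm_smul, norm_eq_abs, abs_of_pos hs]
      exact mul_le_mul_of_nonneg_left (norm_cov_le hS hR hB _) hs.le)
    have i1 := integrable_av (s := s) hS hR hg2 x
    have i2 : Integrable (fun G => av (s ^ 2) ν g (pt s x G) ^ 2) (gam n) :=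
      Integrable.of_bound (((continuous_av hS hc).comp (continuous_pt s x)).pow 2).aestronglyMeasurable (B ^ 2)
        (Eventually.of_forall fun G => by
          rw [norm_eq_abs, abs_pow]; exact pow_le_pow_left₀ (abs_nonneg _) (abs_av_le hS hB _) 2)
    have i3 := (integrable_av (s := s) hS hR hD x).const_mul (1 / s ^ 2)
    have hle : ∀ G, ‖s • cov (s ^ 2) ν g (pt s x G)‖ ^ 2
        ≤ av (s ^ 2) ν (fun y => g y ^ 2) (pt s x G) - av (s ^ 2) ν g (pt s x G) ^ 2 := fun G => by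
      rw [← hvar, norm_smul, norm_eq_abs, mul_pow, sq_abs]
      exact norm_cov_sq_le_var hS hR hν hT hc _
    have hle2 : ∀ G, av (s ^ 2) ν (fun y => g y ^ 2) (pt s x G) - av (s ^ 2) ν g (pt s x G) ^ 2
        ≤ 1 / s ^ 2 * av (s ^ 2) ν (fun y => ‖g' y‖ ^ 2) (pt s x G) := fun G => by rw [← hvar]; exact hP _
    have h2 := integral_mono_of_nonneg (Eventually.of_forall fun G => sq_nonneg _) (i1.sub i2) (Eventually.of_forall hle)
    have h3 := integral_mono (i1.sub i2) i3 hle2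
    simp only [Pi.sub_apply] at h2 h3
    rw [integral_sub i1 i2] at h2 h3
    rw [integral_const_mul] at h3
    simp only [qop]
    have e : 2 / s ^ 2 * ∫ G, av (s ^ 2) ν (fun y => ‖g' y‖ ^ 2) (pt s x G) ∂(gam n)
        = 2 * (1 / s ^ 2 * ∫ G, av (s ^ 2) ν (fun y => ‖g' y‖ ^ 2) (pt s x G) ∂(gam n)) := by ring
    linarith
  have c1 := continuous_qop (s := s) hS hR hg2
  have c2 : Continuous fun x => qop s ν g x ^ 2 := (continuous_qop (s := s) hS hR hc).pow 2
  have h := integral_mono ((hS.integrable c1).sub (hS.integrable c2))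
    ((hS.integrable (continuous_qop hS hR hD)).const_mul _) hpt
  simp only [Pi.sub_apply] at h
  rw [integral_sub (hS.integrable c1) (hS.integrable c2), integral_qop hS hR hg2, integral_const_mul,
    integral_qop hS hR hD] at h
  rw [var_eq hS hc, var_eq hS (continuous_qop hS hR hc), integral_qop hS hR hc]
  linarith

lemma sq_integral_mul_le {α : Type*} [MeasurableSpace α] {P : Measure α} {c a V : α → ℝ} (hc : Integrable c P)
    (ha : Integrable a P) (hV : Integrable V P) (ha0 : ∀ x, 0 ≤ a x) (hV0 : ∀ x, 0 ≤ V x)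
    (h : ∀ x, c x ^ 2 ≤ a x * V x) : (∫ x, c x ∂P) ^ 2 ≤ (∫ x, a x ∂P) * ∫ x, V x ∂P := by
  have hq : ∀ r : ℝ, 0 ≤ (∫ x, a x ∂P) * (r * r) + (-2 * ∫ x, c x ∂P) * r + ∫ x, V x ∂P := fun r => by
    have h1 : ∫ x, (2 * r) * c x ∂P ≤ ∫ x, ((r * r) * a x + V x) ∂P := by
      refine integral_mono (hc.const_mul _) ((ha.const_mul _).add hV) fun x => ?_
      have h0 : 0 ≤ (r * r) * a x + V x := add_nonneg (mul_nonneg (mul_self_nonneg r) (ha0 x)) (hV0 x)
      refine (le_abs_self _).trans (abs_le_of_sq_le_sq ?_ h0)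
      nlinarith [sq_nonneg ((r * r) * a x - V x), mul_le_mul_of_nonneg_left (h x) (sq_nonneg (2 * r))]
    rw [integral_add (ha.const_mul _) hV, integral_const_mul, integral_const_mul] at h1
    linarith
  have := discrim_le_zero hq
  rw [discrim] at this
  linarith

lemma inner_qcov_sq_le (hS : Supp ν R) (hR : 0 ≤ R) (hν : IsLC 0 ν) (hs : 0 < s) {g : Euc n → ℝ}
    {g' : Euc n → Euc n} (hg : D1 g g') (x v : Euc n) :
    ⟪v, ∫ G, cov (s ^ 2) ν g (pt s x G) ∂(gam n)⟫ ^ 2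
      ≤ (∫ G, aent (s ^ 2) ν (pt s x G) v v ∂(gam n)) * (1 / s ^ 2 * qop s ν (fun y => ‖g' y‖ ^ 2) x) := by
  have hT : 0 < s ^ 2 := by positivity
  have hi := integrable_cov (s := s) hS hR hg.cont x
  have hD2 : Continuous fun y => ‖g' y‖ ^ 2 := hg.cont'.norm.pow 2
  have hfi : ∀ θ, ∫ y, (g y - av (s ^ 2) ν g θ) ^ 2 ∂(fib (s ^ 2) ν θ)
      ≤ 1 / s ^ 2 * av (s ^ 2) ν (fun y => ‖g' y‖ ^ 2) θ := fun θ => by
    have := isProb_fib (T := s ^ 2) hS θ
    exact poincare_slc hT (isLC_fib (T := s ^ 2) hS hν θ) (supp_fib hS θ) hR hg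
  have hcont : Continuous fun G => aent (s ^ 2) ν (pt s x G) v v :=
    (continuous_aent (t := s ^ 2) hS v v).comp (continuous_pt s x)
  have hia : Integrable (fun G => aent (s ^ 2) ν (pt s x G) v v) (gam n) :=
    Integrable.of_bound hcont.aestronglyMeasurable (‖v‖ * ‖v‖ * (4 * R ^ 2)) (Eventually.of_forall fun G => abs_aent_le hS _ _ _)
  have h1 := sq_integral_mul_le (P := gam n) (c := fun G => ⟪v, cov (s ^ 2) ν g (pt s x G)⟫)
    (a := fun G => aent (s ^ 2) ν (pt s x G) v v)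
    (V := fun G => 1 / s ^ 2 * av (s ^ 2) ν (fun y => ‖g' y‖ ^ 2) (pt s x G)) (hi.const_inner v) hia
    ((integrable_av (s := s) hS hR hD2 x).const_mul _) (fun G => aent_self_nonneg _ _)
    (fun G => mul_nonneg (by positivity) (integral_nonneg fun y => sq_nonneg _))
    (fun G => (inner_cov_sq_le hS hg.cont (pt s x G) v).trans (mul_le_mul_of_nonneg_left (hfi _) (aent_self_nonneg _ _)))
  rw [integral_inner hi, integral_const_mul] at h1
  exact h1

/-- Gradient of the kernel against the averaged covariance of the fibres. -/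
lemma norm_qgrad_sq_le_of (hS : Supp ν R) (hR : 0 ≤ R) (hν : IsLC 0 ν) (hs : 0 < s) {g : Euc n → ℝ}
    {g' : Euc n → Euc n} (hg : D1 g g') (x : Euc n) {c : ℝ} (hc0 : 0 ≤ c)
    (hc : ∀ v, ‖v‖ = 1 → ∫ G, aent (s ^ 2) ν (pt s x G) v v ∂(gam n) ≤ c) :
    ‖qgrad s ν g x‖ ^ 2 ≤ s ^ 2 * c * qop s ν (fun y => ‖g' y‖ ^ 2) x := by
  set D := qop s ν (fun y => ‖g' y‖ ^ 2) x with hD
  have hD0 : 0 ≤ D := integral_nonneg fun G => integral_nonneg fun y => sq_nonneg _
  set cv := ∫ G, cov (s ^ 2) ν g (pt s x G) ∂(gam n) with hcv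
  rw [qgrad, ← hcv, norm_smul, norm_eq_abs, mul_pow, sq_abs]
  rcases eq_or_ne cv 0 with h0 | h0
  · rw [h0, norm_zero]; simp; positivity
  set v := ‖cv‖⁻¹ • cv with hv
  have e : ⟪v, cv⟫ = ‖cv‖ := by
    rw [hv, real_inner_smul_left, real_inner_self_eq_norm_sq, sq, inv_mul_cancel_left₀ (norm_ne_zero_iff.2 h0)]
  have h1 := inner_qcov_sq_le hS hR hν hs hg x v
  rw [← hcv, e] at h1
  have h2 := mul_le_mul_of_nonneg_right (hc v (norm_smul_inv_norm h0)) (by positivity : 0 ≤ 1 / s ^ 2 * D)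
  refine (mul_le_mul_of_nonneg_left (h1.trans h2) (by positivity : 0 ≤ (s ^ 2) ^ 2)).trans (le_of_eq ?_)
  field_simp

lemma norm_qgrad_sq_le_qop (hS : Supp ν R) (hR : 0 ≤ R) (hν : IsLC 0 ν) (hs : 0 < s) {g : Euc n → ℝ}
    {g' : Euc n → Euc n} (hg : D1 g g') (x : Euc n) :
    ‖qgrad s ν g x‖ ^ 2 ≤ qop s ν (fun y => ‖g' y‖ ^ 2) x := by
  have hT : 0 < s ^ 2 := by positivity
  refine (norm_qgrad_sq_le_of hS hR hν hs hg x (c := 1 / s ^ 2) (by positivity) fun v hv => ?_).trans (le_of_eq ?_)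
  · refine (integral_mono_of_nonneg (Eventually.of_forall fun G => aent_self_nonneg _ _) (integrable_const (1 / s ^ 2))
      (Eventually.of_forall fun G => ?_)).trans (le_of_eq (by simp))
    simpa [hv] using aent_le_inv hS hR hν hT (pt s x G) v
  · field_simp

lemma sum_geom_step {σ c : ℝ} (k : ℕ) {D B M V : ℝ}
    (h : V ≤ 2 / σ * D + ((4 / σ + (1 / 8) ^ k * c) * (D / 8 + B * M) + (k * (4 / σ) + 2 * c * (1 - (1/8) ^ k)) * (B * M)))
    (hσ : 0 < σ) (hc : 0 ≤ c) (hD : 0 ≤ D) (hB : 0 ≤ B * M) :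
    V ≤ (4 / σ + (1 / 8) ^ (k + 1) * c) * D + ((k + 1 : ℕ) * (4 / σ) + 2 * c * (1 - (1/8) ^ (k + 1))) * (B * M) := by
  have h1 : 0 ≤ 2 / σ * D := by positivity
  have h2 : 0 ≤ (1 / 8 : ℝ) ^ k * c * (B * M) := by positivity
  have e : 2 / σ * D + 4 / σ * (D / 8) ≤ 4 / σ * D := by
    have : 2 / σ * D + 4 / σ * (D / 8) = 5 / 8 * (4 / σ * D) := by ring
    have : 0 ≤ 4 / σ * D := by positivity
    linarith
  push_cast
  rw [pow_succ]
  linarith

/-- Defective Poincare inequality from a typical bound on the fibre covariances. -/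
lemma poin_defect (hS : Supp ν R) (hR : 0 < R) (hν : IsLC 0 ν) (hs : 0 < s) {ξ : Euc n → ℝ} (hξ : Continuous ξ)
    (hξ0 : ∀ z, 0 ≤ ξ z) (hξ1 : ∀ z, ξ z ≤ 1)
    (ha : ∀ z v, ‖v‖ = 1 → aent (s ^ 2) ν z v v ≤ 1 / (8 * s ^ 2) + ξ z / s ^ 2) :
    Poin ν R (8 / s ^ 2) ((18 * R ^ 2 + 4 / s ^ 2) * ∫ x, ∫ G, ξ (pt s x G) ∂(gam n) ∂ν) := by
  intro g g' M hg hM hgM
  set σ := s ^ 2 with hσdef
  have hσ : 0 < σ := by positivity
  set c := 3 * R ^ 2 with hc
  set pb := fun x : Euc n => ∫ G, ξ (pt s x G) ∂(gam n) with hpb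
  set B := ∫ x, pb x ∂ν with hB
  have hpb0 : ∀ x, 0 ≤ pb x := fun x => integral_nonneg fun G => hξ0 _
  have hB0 : 0 ≤ B := integral_nonneg hpb0
  have main : ∀ k : ℕ, ∀ (g : Euc n → ℝ) (g' : Euc n → Euc n), D1 g g' → (∀ x, ‖x‖ ≤ R → ‖g' x‖ ^ 2 ≤ M) →
      ∫ x, (g x - ∫ y, g y ∂ν) ^ 2 ∂ν ≤ (4 / σ + (1 / 8) ^ k * c) * ∫ x, ‖g' x‖ ^ 2 ∂ν
        + (k * (4 / σ) + 2 * c * (1 - (1/8) ^ k)) * (B * M) := by
    intro k
    induction k with
    | zero =>
      intro g g' hg hgM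
      have hD : 0 ≤ ∫ x, ‖g' x‖ ^ 2 ∂ν := integral_nonneg fun x => sq_nonneg _
      refine (poincare_diam hS hR hν hg).trans ?_
      have : 0 ≤ 4 / σ * ∫ x, ‖g' x‖ ^ 2 ∂ν := by positivity
      simp; linarith
    | succ k ih =>
      intro g g' hg hgM
      have hq : D1 (qop s ν g) (qgrad s ν g) :=
        ⟨hasFDerivAt_qop hS hR.le hg.cont, continuous_qgrad hS hR.le hg.cont⟩
      have hD2 : Continuous fun y => ‖g' y‖ ^ 2 := hg.cont'.norm.pow 2
      have hQM : ∀ x, qop s ν (fun y => ‖g' y‖ ^ 2) x ≤ M := fun x => by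
        refine (integral_mono (integrable_av hS hR.le hD2 x) (integrable_const M) fun G => ?_).trans (le_of_eq (by simp))
        exact (le_abs_self _).trans (abs_av_le hS (fun y hy => by rw [abs_of_nonneg (sq_nonneg _)]; exact hgM y hy) _)
      have hpt : ∀ x, ‖qgrad s ν g x‖ ^ 2 ≤ 1 / 8 * qop s ν (fun y => ‖g' y‖ ^ 2) x + pb x * M := fun x => by
        have hcb : Integrable (fun G => ξ (pt s x G)) (gam n) :=
          Integrable.of_bound (hξ.comp (continuous_pt s x)).aestronglyMeasurable 1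
            (Eventually.of_forall fun G => by rw [norm_eq_abs, abs_of_nonneg (hξ0 _)]; exact hξ1 _)
        have h := norm_qgrad_sq_le_of hS hR.le hν hs hg x (c := 1 / (8 * σ) + pb x / σ) (by have := hpb0 x; positivity) fun v hv => by
          refine (integral_mono_of_nonneg (Eventually.of_forall fun G => aent_self_nonneg _ _)
            ((integrable_const (1 / (8 * σ))).add (hcb.div_const σ)) (Eventually.of_forall fun G => ha _ v hv)).trans (le_of_eq ?_)
          simp only [Pi.add_apply]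
          rw [integral_add (integrable_const _) (hcb.div_const σ)]; simp [hpb, integral_div]
        refine h.trans ?_
        rw [← hσdef]
        have e : σ * (1 / (8 * σ) + pb x / σ) = 1 / 8 + pb x := by field_simp
        rw [e, add_mul]
        linarith [mul_le_mul_of_nonneg_left (hQM x) (hpb0 x)]
      have hD1 : ∫ x, ‖qgrad s ν g x‖ ^ 2 ∂ν ≤ (∫ x, ‖g' x‖ ^ 2 ∂ν) / 8 + B * M := by
        have c1 := continuous_qop (s := s) hS hR.le hD2
        have c2 : Continuous pb := continuous_bad hS hξ hξ0 hξ1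
        refine (integral_mono (hS.integrable (hq.cont'.norm.pow 2)) (((hS.integrable c1).const_mul _).add
          ((hS.integrable c2).mul_const M)) hpt).trans (le_of_eq ?_)
        simp only [Pi.add_apply]
        rw [integral_add ((hS.integrable c1).const_mul _) ((hS.integrable c2).mul_const M), integral_const_mul,
          integral_mul_const, integral_qop hS hR.le hD2, ← hB]
        ring
      have hnx : ∀ x, ‖x‖ ≤ R → ‖qgrad s ν g x‖ ^ 2 ≤ M := fun x _ =>
        (norm_qgrad_sq_le_qop hS hR.le hν hs hg x).trans (hQM x)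
      have h1 := (var_step hS hR.le hν hs hg).trans (add_le_add le_rfl (ih _ _ hq hnx))
      refine sum_geom_step k (h1.trans (add_le_add le_rfl (add_le_add ?_ le_rfl))) hσ (by positivity)
        (integral_nonneg fun x => sq_nonneg _) (mul_nonneg hB0 hM)
      exact mul_le_mul_of_nonneg_left hD1 (by positivity)
  set k := ⌈c * σ⌉₊ with hk
  have hk1 : (k : ℝ) ≤ c * σ + 1 := (Nat.ceil_lt_add_one (by positivity)).le
  have hk2 : (1 / 8 : ℝ) ^ k * c ≤ 4 / σ := by
    rw [le_div_iff₀ hσ, one_div, inv_pow, mul_assoc, inv_mul_le_iff₀ (by positivity)]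
    have h1 : c * σ ≤ k := Nat.le_ceil _
    have h2 : (k : ℝ) < 8 ^ k := by exact_mod_cast Nat.lt_pow_self (by norm_num : 1 < 8)
    nlinarith
  have h := main k g g' hg hgM
  have hD : 0 ≤ ∫ x, ‖g' x‖ ^ 2 ∂ν := integral_nonneg fun x => sq_nonneg _
  have e1 := mul_le_mul_of_nonneg_right (add_le_add (le_refl (4 / σ)) hk2) hD
  have e2 : k * (4 / σ) + 2 * c * (1 - (1/8) ^ k) ≤ 18 * R ^ 2 + 4 / σ := by
    have h3 := mul_le_mul_of_nonneg_right hk1 (by positivity : 0 ≤ 4 / σ)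
    have h4 : (c * σ + 1) * (4 / σ) = 4 * c + 4 / σ := by field_simp
    have h5 : 0 ≤ 2 * c * (1/8 : ℝ) ^ k := by positivity
    rw [hc] at *
    linarith
  have e3 := mul_le_mul_of_nonneg_right e2 (mul_nonneg hB0 hM)
  have e4 : (4 / σ + 4 / σ) = 8 / σ := by ring
  rw [e4] at e1
  linarith

end

end Vale.Agent.P245
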