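import Vale.Agent.P245.Good

open MeasureTheory Real Filter Set
open scoped Topology RealInnerProductSpace

namespace Vale.Agent.P245

variable {n : ℕ}

section

variable {μ : Measure (Euc n)} [IsProbabilityMeasure μ] {R s : ℝ}

/-- The second difference of the log-partition function is bounded by the largest covariance on the segment. -/
lemma sdiff_le_cov (hS : Supp μ R) {T : ℝ} (w θ : Euc n) {M : ℝ}
    (hM : ∀ a : ℝ, |a| ≤ 1 → aent T μ (θ + a • w) w w ≤ M) : sdiff T μ w θ ≤ M := by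
  have hb : ∀ a : ℝ, HasDerivAt (fun a : ℝ => ⟪w, bary T μ (θ + a • w)⟫) (aent T μ (θ + a • w) w w) a := fun a => by
    have h1 : HasDerivAt (fun a : ℝ => θ + a • w) w a := by
      simpa using ((hasDerivAt_id a).smul_const w).const_add θ
    have h2 := (hasFDerivAt_av (T := T) hS (g := fun y => ⟪w, y⟫) (by fun_prop) (θ + a • w)).comp_hasDerivAt a h1
    have e : (fun a : ℝ => ⟪w, bary T μ (θ + a • w)⟫) = av T μ (fun y => ⟪w, y⟫) ∘ fun a : ℝ => θ + a • w :=
      funext fun a => (inner_bary hS _ _).symm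
    rw [e]
    refine h2.congr_deriv ?_
    have := isProb_fib (T := T) hS (θ + a • w)
    have hsf := supp_fib (T := T) hS (θ + a • w)
    rw [innerSL_apply_apply, real_inner_comm w, inner_cov hS (by fun_prop)]
    have h0 := integral_cen (t := T) hS (θ + a • w) w
    have e2 : ∀ y, ⟪w, y⟫ * ⟪w, cen T μ (θ + a • w) y⟫ = ⟪w, cen T μ (θ + a • w) y⟫ * ⟪w, cen T μ (θ + a • w) y⟫
        + ⟪w, bary T μ (θ + a • w)⟫ * ⟪w, cen T μ (θ + a • w) y⟫ := fun y => by
      simp only [cen, inner_sub_right]; ring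
    rw [integral_congr_ae (Eventually.of_forall e2), integral_add (hsf.integrable (by fun_prop)) (hsf.integrable (by fun_prop)),
      integral_const_mul, h0, mul_zero, add_zero]
    rfl
  set k := fun a : ℝ => ⟪w, bary T μ (θ + a • w)⟫ with hk
  set g := fun a : ℝ => k a - k (-a) - 2 * M * a with hg
  have hdg : ∀ a, HasDerivAt g (aent T μ (θ + a • w) w w + aent T μ (θ + (-a) • w) w w - 2 * M) a := fun a => by
    have h := ((hb a).sub ((hb (-a)).comp a (hasDerivAt_neg a))).sub ((hasDerivAt_id a).const_mul (2 * M))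
    convert! h using 1
    ring
  have hganti : AntitoneOn g (Icc (0 : ℝ) 1) := by
    refine antitoneOn_of_hasDerivWithinAt_nonpos (convex_Icc 0 1) (fun a _ => (hdg a).continuousAt.continuousWithinAt)
      (fun a _ => (hdg a).hasDerivWithinAt) fun a ha => ?_
    have ha' := interior_subset ha
    have h1 := hM a (by rw [abs_of_nonneg ha'.1]; exact ha'.2)
    have h2 := hM (-a) (by rw [abs_neg, abs_of_nonneg ha'.1]; exact ha'.2)
    linarith
  have hg0 : g 0 = 0 := by simp [hg]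
  have hgle : ∀ a ∈ Icc (0 : ℝ) 1, g a ≤ 0 := fun a ha => hg0 ▸ hganti ⟨le_rfl, zero_le_one⟩ ha ha.1
  have hl : ∀ a : ℝ, HasDerivAt (fun a : ℝ => lam T μ (θ + a • w)) (k a) a := fun a => by
    have h1 : HasDerivAt (fun a : ℝ => θ + a • w) w a := by
      simpa using ((hasDerivAt_id a).smul_const w).const_add θ
    refine ((hasFDerivAt_lam (T := T) hS (θ + a • w)).comp_hasDerivAt a h1).congr_deriv ?_
    rw [innerSL_apply_apply, real_inner_comm]
  set f := fun a : ℝ => lam T μ (θ + a • w) + lam T μ (θ + (-a) • w) - M * a ^ 2 with hf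
  have hdf : ∀ a, HasDerivAt f (g a) a := fun a => by
    have h := ((hl a).add ((hl (-a)).comp a (hasDerivAt_neg a))).sub (((hasDerivAt_id a).pow 2).const_mul M)
    convert! h using 1
    simp [hg]; ring
  have hfanti : AntitoneOn f (Icc (0 : ℝ) 1) := antitoneOn_of_hasDerivWithinAt_nonpos (convex_Icc 0 1)
    (fun a _ => (hdf a).continuousAt.continuousWithinAt) (fun a _ => (hdf a).hasDerivWithinAt)
    fun a ha => hgle a (interior_subset ha)
  have h := hfanti ⟨le_rfl, zero_le_one⟩ ⟨zero_le_one, le_rfl⟩ zero_le_one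
  simp only [hf, zero_smul, add_zero, one_smul, neg_smul, neg_zero, ← sub_eq_add_neg, sub_zero] at h
  unfold sdiff
  linarith

/-- Gaussian average at a point where the mean of `phi` is not small. -/
lemma gint_good (hS : Supp μ R) (hμ : IsLC 0 μ) (hs : 0 < s) (j : ℕ) {u₀ : ℝ} (hu : 0 < u₀) (x : Euc n)
    (hx : u₀ ≤ pav (s ^ 2) μ (j + 1) x) {h : Euc n → ℝ} (hc : Continuous h) {a b B : ℝ} (ha : 0 ≤ a) (hb : 0 ≤ b)
    (hB : ∀ G, |h G| ≤ B) (hgood : ∀ G, u₀ / 2 < phi (s ^ 2) μ (j + 1) (pt s x G) → h G ≤ a) (hall : ∀ G, h G ≤ b) :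
    ∫ G, h G ∂(gam n) ≤ a + b * (45000 * s ^ 2 / u₀ ^ 2) := by
  have hT : 0 < s ^ 2 := by positivity
  set l := u₀ / (11250 * s ^ 2) with hl
  have hl0 : 0 ≤ l := by positivity
  set ψ := fun G => phi (s ^ 2) μ (j + 1) (pt s x G) with hψ
  have hψc : Continuous ψ := (continuous_phi hS _ _).comp (continuous_pt s x)
  have hpt : ∀ G, h G ≤ a + b * (exp (l * (u₀ / 2)) * exp (-l * ψ G)) := fun G => by
    rcases lt_or_ge (u₀ / 2) (ψ G) with h1 | h1
    · exact (hgood G h1).trans (le_add_of_nonneg_right (mul_nonneg hb (by positivity)))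
    · refine (hall G).trans (le_trans (le_mul_of_one_le_right hb ?_) (le_add_of_nonneg_left ha))
      rw [← exp_add]
      exact one_le_exp (by have := mul_le_mul_of_nonneg_left h1 hl0; linarith)
  have hie : Integrable (fun G => exp (-l * ψ G)) (gam n) :=
    integrable_gam_bdd (hψc.const_mul _).rexp (B := 1) fun G => by
      rw [abs_exp, exp_le_one_iff, neg_mul, neg_nonpos]
      exact mul_nonneg hl0 (phi_pos _ _ _).le
  have h1 := integral_mono (integrable_gam_bdd hc hB)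
    ((integrable_const a).add ((hie.const_mul _).const_mul b)) hpt
  simp only [Pi.add_apply] at h1
  rw [integral_add (integrable_const a) ((hie.const_mul _).const_mul b), integral_const, probReal_univ, one_smul,
    integral_const_mul, integral_const_mul] at h1
  refine h1.trans (add_le_add le_rfl (mul_le_mul_of_nonneg_left ?_ hb))
  have h2 := gauss_mgf_phi hS hμ hT.le j x (-l)
  have hx' := hx
  simp only [pav, Real.sqrt_sq hs.le] at h2 hx'
  refine (mul_le_mul_of_nonneg_left h2 (exp_pos _).le).trans ?_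
  rw [← exp_add]
  set P := ∫ G, phi (s ^ 2) μ (j + 1) (pt s x G) ∂(gam n)
  have h3 : l * (u₀ / 2) + (-l * P + 5625 * s ^ 2 * (-l) ^ 2 / 2) ≤ -(u₀ ^ 2 / (45000 * s ^ 2)) := by
    have h4 := mul_le_mul_of_nonneg_left hx' hl0
    have e : -(l * u₀) + (l * (u₀ / 2) + 5625 * s ^ 2 * (-l) ^ 2 / 2) = -(u₀ ^ 2 / (45000 * s ^ 2)) := by
      rw [hl]; field_simp; ring
    linarith
  refine (exp_le_exp.2 h3).trans ?_
  have hy : 0 < u₀ ^ 2 / (45000 * s ^ 2) := by positivity
  rw [exp_neg, ← one_div_div (u₀ ^ 2) (45000 * s ^ 2), one_div]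
  exact inv_anti₀ hy (by linarith [add_one_le_exp (u₀ ^ 2 / (45000 * s ^ 2))])

lemma esd_good (hS : Supp μ R) (hR : 0 ≤ R) (hμ : IsLC 0 μ) (hs : 0 < s) (j : ℕ) {u₀ : ℝ} (hu : 0 < u₀)
    (hT : 72 * 45016 * s ^ 2 ≤ u₀ ^ 2) (x v : Euc n) (hv : ‖v‖ = 1) (hx : u₀ ≤ pav (s ^ 2) μ (j + 1) x) {t : ℝ}
    (ht : 0 ≤ t) (ht' : 75 * t ≤ u₀ / 4) : esd s μ (t • v) x ≤ 1 / 72 * t ^ 2 / s ^ 2 := by
  have hs2 : 0 < s ^ 2 := by positivity
  have hn : ‖t • v‖ = t := by rw [norm_smul, hv, mul_one, norm_eq_abs, abs_of_nonneg ht]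
  have hgood : ∀ G, u₀ / 2 < phi (s ^ 2) μ (j + 1) (pt s x G) →
      sdiff (s ^ 2) μ (t • v) (pt s x G) ≤ t ^ 2 * (16 / u₀ ^ 2) := fun G hG =>
    sdiff_le_cov hS _ _ fun a ha => by
      have h1 := phi_lip hS hμ hs2.le j (pt s x G) (pt s x G + a • (t • v))
      rw [add_sub_cancel_left, norm_smul, hn, norm_eq_abs] at h1
      have h2 : |a| * t ≤ t := mul_le_of_le_one_left ht ha
      have h3 : u₀ / 4 ≤ phi (s ^ 2) μ (j + 1) (pt s x G + a • (t • v)) := by linarith
      refine (aent_le_phi hS _ (by omega : 1 ≤ j + 1) _ _).trans ?_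
      rw [hn, mul_comm, show (16 : ℝ) / u₀ ^ 2 = ((u₀ / 4) ^ 2)⁻¹ by field_simp; norm_num]
      gcongr
  have hall : ∀ G, sdiff (s ^ 2) μ (t • v) (pt s x G) ≤ t ^ 2 / s ^ 2 := fun G =>
    sdiff_le_cov hS _ _ fun a _ => by
      have := aent_le_inv hS hR hμ hs2 (pt s x G + a • (t • v)) (t • v)
      rwa [hn] at this
  refine (gint_good hS hμ hs j hu x hx ((continuous_sdiff hS _).comp (continuous_pt s x)) (by positivity)
    (by positivity) (fun G => abs_sdiff_le hS _ _) hgood hall).trans ?_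
  have e : t ^ 2 * (16 / u₀ ^ 2) + t ^ 2 / s ^ 2 * (45000 * s ^ 2 / u₀ ^ 2) = t ^ 2 * (45016 / u₀ ^ 2) := by
    field_simp; ring
  rw [e, show 1 / 72 * t ^ 2 / s ^ 2 = t ^ 2 * (1 / (72 * s ^ 2)) by ring]
  refine mul_le_mul_of_nonneg_left ?_ (sq_nonneg t)
  rw [div_le_div_iff₀ (by positivity) (by positivity)]
  linarith

lemma aent_good (hS : Supp μ R) (hR : 0 ≤ R) (hμ : IsLC 0 μ) (hs : 0 < s) (j : ℕ) {u₀ : ℝ} (hu : 0 < u₀)
    (hT : 72 * 45016 * s ^ 2 ≤ u₀ ^ 2) (x v : Euc n) (hv : ‖v‖ = 1) (hx : u₀ ≤ pav (s ^ 2) μ (j + 1) x) :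
    ∫ G, aent (s ^ 2) μ (pt s x G) v v ∂(gam n) ≤ 1 / (8 * s ^ 2) := by
  have hs2 : 0 < s ^ 2 := by positivity
  refine (gint_good hS hμ hs j hu x hx ((continuous_aent (t := s ^ 2) hS v v).comp (continuous_pt s x))
    (a := 4 / u₀ ^ 2) (b := 1 / s ^ 2) (by positivity) (by positivity) (fun G => abs_aent_le hS _ _ _)
    (fun G hG => ?_) fun G => ?_).trans ?_
  · refine (aent_le_phi hS _ (by omega : 1 ≤ j + 1) _ _).trans ?_
    rw [hv, one_pow, mul_one, show (4 : ℝ) / u₀ ^ 2 = ((u₀ / 2) ^ 2)⁻¹ by field_simp; norm_num]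
    gcongr
  · have := aent_le_inv hS hR hμ hs2 (pt s x G) v
    rwa [hv, one_pow] at this
  · rw [show 4 / u₀ ^ 2 + 1 / s ^ 2 * (45000 * s ^ 2 / u₀ ^ 2) = 45004 / u₀ ^ 2 by field_simp; ring,
      div_le_div_iff₀ (by positivity) (by positivity)]
    linarith

/-- Contraction of the Fisher information with a defect on a small set. -/
lemma fis_defect (hS : Supp μ R) (hR : 0 ≤ R) (hμ : IsLC 0 μ) (hsub : Sub3 μ) (hs : 0 < s)
    (hsmall : 216 * s ^ 2 ≤ 1) {B : ℝ} (hB : 7 + 4 * s ^ 4 * R ^ 2 + 28 * s ^ 4 * n ≤ B) {ξ : ℝ} (hξ0 : 0 ≤ ξ)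
    (x : Euc n) (hx : ‖x‖ ≤ R)
    (hgood : ξ < 1 → ∀ v : Euc n, ‖v‖ = 1 → ∀ t, 0 ≤ t → t ≤ 216 * s ^ 2 * √B →
      esd s μ (t • v) x ≤ 1 / 72 * t ^ 2 / s ^ 2)
    {g : Euc n → ℝ} {g' : Euc n → Euc n} (h : Pos1 g g') :
    fis (qop s μ g) (qgrad s μ g) x
      ≤ 1 / 2 * qop s μ (fis g g') x + ξ * (144 * (s ^ 2) ^ 2 * B) * qop s μ g x := by
  have hT : 0 < s ^ 2 := by positivity
  set T := s ^ 2 with hTdef
  set m := qop s μ g x with hm
  have hm0 : 0 < m := qop_pos hS hR h.cont h.pos x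
  set P := qop s μ (fis g g') x with hP
  have hP0 : 0 ≤ P := integral_nonneg fun G => integral_nonneg (fis_nonneg h)
  have hB0 : 0 < B := by
    have : 0 ≤ 4 * s ^ 4 * R ^ 2 + 28 * s ^ 4 * n := by positivity
    linarith
  set S := √B with hSdef
  have hS2 : S ^ 2 = B := Real.sq_sqrt hB0.le
  have hS0 : 0 < S := Real.sqrt_pos.2 hB0
  set c := ∫ G, cov T μ g (pt s x G) ∂(gam n) with hc
  rw [fis, qgrad, ← hc, norm_smul, norm_eq_abs, abs_of_nonneg hT.le, mul_pow, ← hm]
  rcases eq_or_ne c 0 with hc0 | hc0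
  · rw [hc0, norm_zero]; simp; positivity
  set X := ‖c‖ with hX
  have hXpos : 0 < X := norm_pos_iff.2 hc0
  set v := X⁻¹ • c with hv
  have hv1 : ‖v‖ = 1 := norm_smul_inv_norm hc0
  have hvc : ⟪v, c⟫ = X := by
    rw [hv, real_inner_smul_left, real_inner_self_eq_norm_sq, ← hX]; field_simp
  set r := T * X / m with hr
  have hr0 : 0 ≤ r := by positivity
  have hXr : X = m * r / T := by rw [hr]; field_simp
  have e : T ^ 2 * X ^ 2 / m = m * r ^ 2 := by rw [hr]; field_simp
  rw [e]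
  have main : ∀ t H : ℝ, esd s μ (t • v) x ≤ H → t * X ≤ 9 / (2 * T) * P + 2 * m * H := fun t H hH => by
    have h1 := qcov_le hS hR hμ hs h x v hH
    rw [← hTdef, ← hc, hvc] at h1
    exact h1
  have good : esd s μ ((18 * r) • v) x ≤ 1 / 72 * (18 * r) ^ 2 / T → m * r ^ 2 ≤ 1 / 2 * P := fun hH => by
    have h1 := main _ _ hH
    rw [hXr] at h1
    field_simp at h1
    linarith
  have hdef : 0 ≤ ξ * (144 * T ^ 2 * B) * m := by positivity
  have hquad : ∀ t : ℝ, 0 ≤ t → esd s μ (t • v) x ≤ B + 2 * t ^ 2 := fun t ht => by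
    have h1 := esd_le_quad hS hμ hsub hs hsmall (t • v) x hx
    rw [norm_smul, hv1, mul_one, norm_eq_abs, sq_abs] at h1
    linarith
  rcases le_or_gt S (18 * r) with h18 | h18
  · refine le_trans (good ((hquad _ (by positivity)).trans ?_)) (le_add_of_nonneg_right hdef)
    have h2 : B ≤ (18 * r) ^ 2 := by rw [← hS2]; exact pow_le_pow_left₀ hS0.le h18 2
    rw [le_div_iff₀ hT]
    have := mul_le_mul_of_nonneg_left hsmall (sq_nonneg (18 * r))
    nlinarith [mul_le_mul_of_nonneg_right h2 hT.le]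
  rcases le_or_gt r (12 * T * S) with hsm | hsm
  · rcases lt_or_ge ξ 1 with hξ | hξ
    · exact le_trans (good (hgood hξ v hv1 _ (by positivity) (by linarith))) (le_add_of_nonneg_right hdef)
    · have h1 : m * r ^ 2 ≤ m * (144 * T ^ 2 * B) := by
        refine mul_le_mul_of_nonneg_left ((pow_le_pow_left₀ hr0 hsm 2).trans (le_of_eq ?_)) hm0.le
        rw [mul_pow, mul_pow, hS2]; norm_num
      have h2 := mul_le_mul_of_nonneg_right hξ (by positivity : 0 ≤ 144 * T ^ 2 * B * m)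
      linarith
  · have h1 := main S _ ((hquad S hS0.le).trans (le_of_eq (show B + 2 * S ^ 2 = 3 * S ^ 2 by rw [hS2]; ring)))
    rw [hXr] at h1
    field_simp at h1
    have h2 : r * S * m ≤ 9 * P := by
      have h3 := mul_le_mul_of_nonneg_left hsm.le (by positivity : 0 ≤ S * m)
      linarith
    have h4 := mul_le_mul_of_nonneg_left h2 hr0
    have h5 := mul_le_mul_of_nonneg_right h18.le hP0
    have h6 : S * (m * r ^ 2) ≤ S * (1 / 2 * P) := by linarith
    linarith [le_of_mul_le_mul_left h6 hS0]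

/-- Bound of the gradient of the kernel by the second moment. -/
lemma norm_qgrad_sq_le_moment (hS : Supp μ R) (hR : 0 ≤ R) (hμ : IsLC 0 μ) (hs : 0 < s) {g : Euc n → ℝ}
    (hg : Continuous g) (a : ℝ) (x : Euc n) :
    ‖qgrad s μ g x‖ ^ 2 ≤ s ^ 2 * qop s μ (fun y => (g y - a) ^ 2) x := by
  have hT : 0 < s ^ 2 := by positivity
  set Q := qop s μ (fun y => (g y - a) ^ 2) x with hQ
  have hQ0 : 0 ≤ Q := integral_nonneg fun G => integral_nonneg fun y => sq_nonneg _
  set c := ∫ G, cov (s ^ 2) μ g (pt s x G) ∂(gam n) with hc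
  rw [qgrad, ← hc, norm_smul, norm_eq_abs, mul_pow, sq_abs]
  rcases eq_or_ne c 0 with hc0 | hc0
  · rw [hc0, norm_zero]; simp; positivity
  have hi := integrable_cov (s := s) hS hR hg x
  have hg2 : Continuous fun y => (g y - a) ^ 2 := (hg.sub continuous_const).pow 2
  have h1 := sq_integral_mul_le (P := gam n) (c := fun G => ⟪c, cov (s ^ 2) μ g (pt s x G)⟫)
    (a := fun _ => ‖c‖ ^ 2 / s ^ 2) (V := fun G => av (s ^ 2) μ (fun y => (g y - a) ^ 2) (pt s x G))
    (hi.const_inner c) (integrable_const _) (integrable_av hS hR hg2 x) (fun _ => by positivity)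
    (fun G => integral_nonneg fun y => sq_nonneg _) fun G => by
      have := isProb_fib (T := s ^ 2) hS (pt s x G)
      refine (inner_cov_sq_le hS hg (pt s x G) c).trans ?_
      exact mul_le_mul (aent_le_inv hS hR hμ hT _ c) (var_le_center (supp_fib hS _) hg a)
        (integral_nonneg fun y => sq_nonneg _) (by positivity)
  rw [integral_inner hi, ← hc, real_inner_self_eq_norm_sq, integral_const, probReal_univ, one_smul] at h1
  change _ ≤ _ * Q at h1
  have hc2 : 0 < ‖c‖ ^ 2 := by positivity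
  refine le_of_mul_le_mul_left ?_ hc2
  have h2 := mul_le_mul_of_nonneg_left h1 (by positivity : 0 ≤ (s ^ 2) ^ 2)
  refine le_trans (le_of_eq ?_) (h2.trans (le_of_eq ?_))
  · ring
  · field_simp

lemma ent_qop_le (hS : Supp μ R) (hR : 0 ≤ R) {h : Euc n → ℝ} (hc : Continuous h) (h0 : ∀ x, 0 ≤ h x) :
    ent μ (qop s μ h) ≤ ent μ h := by
  have hlog : Continuous fun x => h x * log (h x) := Real.continuous_mul_log.comp hc
  obtain ⟨B, -, hB⟩ := exists_bound hR hc
  have hq := continuous_qop (s := s) hS hR hc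
  have hpt : ∀ x, qop s μ h x * log (qop s μ h x) ≤ qop s μ (fun y => h y * log (h y)) x := fun x => by
    have hcav := (continuous_av (T := s ^ 2) hS hc).comp (continuous_pt s x)
    have hilog : Integrable (fun G => av (s ^ 2) μ h (pt s x G) * log (av (s ^ 2) μ h (pt s x G))) (gam n) := by
      obtain ⟨C, hC⟩ := (isCompact_Icc (a := -B) (b := B)).exists_bound_of_continuousOn
        Real.continuous_mul_log.continuousOn
      exact Integrable.of_bound (Real.continuous_mul_log.comp hcav).aestronglyMeasurable C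
        (Eventually.of_forall fun G => hC _ (abs_le.1 (abs_av_le hS hB _)))
    have h1 := ent_nonneg (μ := gam n) (g := fun G => av (s ^ 2) μ h (pt s x G))
      (fun G => integral_nonneg h0) (integrable_av hS hR hc x) hilog
    refine (sub_nonneg.1 h1).trans (integral_mono hilog (integrable_av hS hR hlog x) fun G => ?_)
    have := isProb_fib (T := s ^ 2) hS (pt s x G)
    have hsf := supp_fib (T := s ^ 2) hS (pt s x G)
    exact sub_nonneg.1 (ent_nonneg h0 (hsf.integrable hc) (hsf.integrable hlog))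
  have h2 := integral_mono (hS.integrable (Real.continuous_mul_log.comp hq))
    (hS.integrable (continuous_qop hS hR hlog)) hpt
  rw [integral_qop hS hR hlog] at h2
  simp only [Function.comp_apply] at h2
  simp only [ent, integral_qop hS hR hc]
  linarith

/-- Continuous indicator of a small average of `phi`. -/
noncomputable def bad (t : ℝ) (μ : Measure (Euc n)) (m : ℕ) (u₀ : ℝ) (x : Euc n) : ℝ :=
  max 0 (min 1 (2 - pav t μ m x / u₀))

lemma bad_le {K : ℝ} (hS : Supp μ R) (hμ : IsLC 0 μ) (hK : 0 < K) (hF : Fisi μ K) {t : ℝ} (ht : 0 < t) (j : ℕ)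
    {u₀ : ℝ} (hu : 0 < u₀) (hmean : 4 * u₀ ≤ elaw t μ (phi t μ (j + 1))) {h : Euc n → ℝ} (hc : Continuous h)
    (h0 : ∀ x, 0 ≤ h x) :
    ∫ x, bad t μ (j + 1) u₀ x * h x ∂μ ≤ 11250 * (K * t ^ 2) / u₀ ^ 2 * (ent μ h + ∫ x, h x ∂μ) := by
  set W := 5625 * (K * t ^ 2) with hW
  have hW0 : 0 < W := by positivity
  set Λ := u₀ ^ 2 / (2 * W) with hΛ
  have hΛ0 : 0 < Λ := by positivity
  set l := u₀ / W with hl
  have hl0 : 0 < l := by positivity
  set ξ := bad t μ (j + 1) u₀ with hξ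
  have hd := (d1_pav hS hμ ht.le j).1
  have hξc : Continuous ξ := continuous_const.max (continuous_const.min (continuous_const.sub (hd.cont.div_const _)))
  have hpt : ∀ x, exp (Λ * ξ x) ≤ 1 + exp (Λ + l * (2 * u₀)) * exp (-l * pav t μ (j + 1) x) := fun x => by
    rcases le_or_gt (2 * u₀) (pav t μ (j + 1) x) with h2 | h2
    · have : ξ x = 0 := by
        simp only [hξ, bad]
        rw [max_eq_left]
        refine (min_le_right _ _).trans ?_
        rw [sub_nonpos, le_div_iff₀ hu]; exact h2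
      rw [this, mul_zero, exp_zero]
      exact le_add_of_nonneg_right (by positivity)
    · refine le_trans ?_ (le_add_of_nonneg_left zero_le_one)
      rw [← exp_add, exp_le_exp]
      have h3 : Λ * ξ x ≤ Λ := mul_le_of_le_one_right hΛ0.le (max_le zero_le_one (min_le_left _ _))
      have h4 := mul_le_mul_of_nonneg_left h2.le hl0.le
      linarith
  have hie : Integrable (fun x => exp (-l * pav t μ (j + 1) x)) μ := hS.integrable (hd.cont.const_mul _).rexp
  have h1 := integral_mono (hS.integrable (hξc.const_mul Λ).rexp) ((integrable_const 1).add (hie.const_mul _)) hpt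
  simp only [Pi.add_apply] at h1
  rw [integral_add (integrable_const 1) (hie.const_mul _), integral_const, probReal_univ, one_smul, integral_const_mul] at h1
  have h2 := mul_le_mul_of_nonneg_left (pav_mgf hS hμ hK.le hF ht.le j (-l)) (exp_pos (Λ + l * (2 * u₀))).le
  rw [← exp_add] at h2
  have h3 : Λ + l * (2 * u₀) + (-l * elaw t μ (phi t μ (j + 1)) + 5625 * (K * t ^ 2) * (-l) ^ 2) ≤ -Λ := by
    have h4 := mul_le_mul_of_nonneg_left hmean hl0.le
    have e : Λ + l * (2 * u₀) - l * (4 * u₀) + W * l ^ 2 = -Λ := by rw [hΛ, hl]; field_simp; ring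
    rw [← hW, neg_sq]
    linarith
  have h5 := exp_le_exp.2 h3
  have h6 : exp (-Λ) ≤ 1 := exp_le_one_iff.2 (by linarith)
  have hE : log (∫ x, exp (Λ * ξ x) ∂μ) ≤ 1 := by
    have h7 := log_le_sub_one_of_pos (integral_exp_pos (hS.integrable (hξc.const_mul Λ).rexp))
    linarith
  have hv := integral_mul_le_ent (μ := μ) (g := h) (φ := fun x => Λ * ξ x) h0 (hS.integrable hc)
    (hS.integrable (Real.continuous_mul_log.comp hc)) (hS.integrable (hc.mul (hξc.const_mul Λ)))
    (hS.integrable (hξc.const_mul Λ).rexp)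
  have h8 := mul_le_mul_of_nonneg_left hE (integral_nonneg (μ := μ) h0)
  have e : ∫ x, h x * (Λ * ξ x) ∂μ = Λ * ∫ x, ξ x * h x ∂μ := by
    rw [← integral_const_mul]; exact integral_congr_ae (Eventually.of_forall fun x => by ring)
  rw [e] at hv
  rw [show 11250 * (K * t ^ 2) / u₀ ^ 2 = 1 / Λ by rw [hΛ, hW]; field_simp; ring, div_mul_eq_mul_div, one_mul,
    le_div_iff₀ hΛ0]
  linarith

lemma ent_centre (hS : Supp μ R) {v : Euc n → ℝ} (hvc : Continuous v) (a : ℝ) {U : ℝ} (hU : 0 ≤ U)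
    (hb : 4 * ent μ (fun x => v x ^ 2) + 80 * ∫ x, v x ^ 2 ∂μ ≤ U) : ent μ (fun x => (a + v x) ^ 2) ≤ U := by
  rcases (integral_nonneg (μ := μ) (f := fun x => v x ^ 2) fun x => sq_nonneg (v x)).eq_or_lt with hz | hz
  · have hvz : (fun x => v x ^ 2) =ᵐ[μ] 0 :=
      (integral_eq_zero_iff_of_nonneg (fun x => sq_nonneg _) (hS.integrable (hvc.pow 2))).1 hz.symm
    have hz' : ∀ᵐ x ∂μ, v x = 0 := hvz.mono fun x hx => by simpa using hx
    have e1 : ∫ x, (a + v x) ^ 2 * log ((a + v x) ^ 2) ∂μ = a ^ 2 * log (a ^ 2) := by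
      rw [integral_congr_ae (g := fun _ => a ^ 2 * log (a ^ 2)) (hz'.mono fun x hx => by simp [hx])]
      simp
    have e2 : ∫ x, (a + v x) ^ 2 ∂μ = a ^ 2 := by
      rw [integral_congr_ae (g := fun _ => a ^ 2) (hz'.mono fun x hx => by simp [hx])]
      simp
    rw [ent, e1, e2, sub_self]
    exact hU
  · exact (ent_shift (μ := μ) a (hS.integrable (hvc.fun_pow 2))
      (hS.integrable (Real.continuous_mul_log.comp (hvc.fun_pow 2)))
      (hS.integrable ((continuous_const.add hvc).fun_pow 2))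
      (hS.integrable (Real.continuous_mul_log.comp ((continuous_const.add hvc).fun_pow 2))) hz).trans hb

/-- One round of the bootstrap. -/
lemma self_improve (h : Setup μ R) {K : ℝ} (hK : 0 < K) (hF : Fisi μ K) (hs : 0 < s) (j : ℕ) {u₀ : ℝ} (hu : 0 < u₀)
    (hmean : 4 * u₀ ≤ elaw (s ^ 2) μ (phi (s ^ 2) μ (j + 1))) (h216 : 216 * s ^ 2 ≤ 1)
    (hT : 72 * 45016 * s ^ 2 ≤ u₀ ^ 2) (hTS : 75 * (216 * s ^ 2 * √(7 + 284 * s ^ 4 * n)) ≤ u₀ / 4)
    (hL2 : 540000 * (s ^ 2) ^ 3 * K ^ 2 ≤ u₀ ^ 2)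
    (hζ : 6480000 * (8 / s ^ 2 + 2 * K) * K * (s ^ 2) ^ 4 * (7 + 284 * s ^ 4 * n) ≤ u₀ ^ 2) :
    Fisi μ (72 / s ^ 2 + K / 3) := by
  have hR := h.rad_pos.le
  have hR2 := h.rad_sq
  obtain ⟨-, -, hS, hμ, hsub⟩ := h
  set T := s ^ 2 with hTdef
  have hT0 : 0 < T := by positivity
  set B := 7 + 284 * s ^ 4 * n with hBdef
  have hB0 : 0 < B := by positivity
  set ξ := bad T μ (j + 1) u₀ with hξdef
  have hd := (d1_pav hS hμ hT0.le j).1
  have hξc : Continuous ξ := continuous_const.max (continuous_const.min (continuous_const.sub (hd.cont.div_const _)))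
  have hξ0 : ∀ x, 0 ≤ ξ x := fun x => le_max_left _ _
  have hξg : ∀ x, ξ x < 1 → u₀ ≤ pav T μ (j + 1) x := fun x hx => by
    by_contra hc
    rw [not_le] at hc
    have h1 : pav T μ (j + 1) x / u₀ ≤ 1 := (div_le_one hu).2 hc.le
    have : ξ x = 1 := by
      simp only [hξdef, bad]
      rw [min_eq_left (by linarith), max_eq_right zero_le_one]
    linarith
  have hbad : ∀ {f : Euc n → ℝ}, Continuous f → (∀ x, 0 ≤ f x) →
      ∫ x, ξ x * f x ∂μ ≤ 11250 * (K * T ^ 2) / u₀ ^ 2 * (ent μ f + ∫ x, f x ∂μ) :=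
    fun {f} hc h0 => bad_le hS hμ hK hF hT0 j hu hmean hc h0
  -- Poincare
  have hgrad : ∀ (g : Euc n → ℝ) (g' : Euc n → Euc n), D1 g g' →
      ∫ x, ‖qgrad s μ g x‖ ^ 2 ∂μ ≤ 1 / 4 * ∫ x, ‖g' x‖ ^ 2 ∂μ := fun g g' hg => by
    set a := ∫ y, g y ∂μ with ha
    set D := ∫ x, ‖g' x‖ ^ 2 ∂μ with hD
    have hD0 : 0 ≤ D := integral_nonneg fun x => sq_nonneg _
    have hD2 : Continuous fun y => ‖g' y‖ ^ 2 := hg.cont'.norm.pow 2
    have hg2 : Continuous fun y => (g y - a) ^ 2 := (hg.cont.sub continuous_const).pow 2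
    have hpt : ∀ x, ‖qgrad s μ g x‖ ^ 2 ≤ 1 / 8 * qop s μ (fun y => ‖g' y‖ ^ 2) x
        + T * (ξ x * qop s μ (fun y => (g y - a) ^ 2) x) := fun x => by
      have hq0 : 0 ≤ qop s μ (fun y => (g y - a) ^ 2) x := integral_nonneg fun G => integral_nonneg fun y => sq_nonneg _
      have hp0 : 0 ≤ qop s μ (fun y => ‖g' y‖ ^ 2) x := integral_nonneg fun G => integral_nonneg fun y => sq_nonneg _
      rcases lt_or_ge (ξ x) 1 with hx | hx
      · have h1 := norm_qgrad_sq_le_of hS hR hμ hs hg x (c := 1 / (8 * T)) (by positivity)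
          fun v hv => aent_good hS hR hμ hs j hu hT x v hv (hξg x hx)
        rw [← hTdef, show T * (1 / (8 * T)) = 1 / 8 by field_simp] at h1
        exact h1.trans (le_add_of_nonneg_right (mul_nonneg hT0.le (mul_nonneg (hξ0 x) hq0)))
      · refine (norm_qgrad_sq_le_moment hS hR hμ hs hg.cont a x).trans ?_
        rw [← hTdef]
        refine le_add_of_nonneg_of_le (by positivity) (mul_le_mul_of_nonneg_left (le_mul_of_one_le_left hq0 hx) hT0.le)
    have c1 := continuous_qop (s := s) hS hR hD2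
    have c2 := continuous_qop (s := s) hS hR hg2
    have h1 := integral_mono (hS.integrable ((continuous_qgrad hS hR hg.cont).norm.pow 2))
      (((hS.integrable c1).const_mul _).add ((hS.integrable (hξc.mul c2)).const_mul T)) hpt
    simp only [Pi.add_apply, Pi.mul_apply, Pi.pow_apply] at h1
    rw [integral_add ((hS.integrable c1).const_mul _) ((hS.integrable (f := fun x => ξ x * qop s μ _ x) (hξc.mul c2)).const_mul T),
      integral_const_mul, integral_const_mul, integral_qop hS hR hD2] at h1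
    have h2 := hbad c2 fun x => integral_nonneg fun G => integral_nonneg fun y => sq_nonneg _
    rw [integral_qop hS hR hg2] at h2
    have hv : D1 (fun x => g x - a) g' := ⟨fun x => (hg.deriv x).sub_const a, hg.cont'⟩
    have h3 := (ent_qop_le (s := s) hS hR hg2 fun x => sq_nonneg _).trans (lsi_of_fisi hK.le hS hF hv)
    have h4 := var_le_of_fisi hK.le hS hF hg
    have h5 : ent μ (qop s μ fun y => (g y - a) ^ 2) + ∫ x, (g x - a) ^ 2 ∂μ ≤ 6 * K * D := by linarith
    have h6 := mul_le_mul_of_nonneg_left (h2.trans (mul_le_mul_of_nonneg_left h5 (by positivity))) hT0.le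
    have h7 : T * (11250 * (K * T ^ 2) / u₀ ^ 2 * (6 * K * D)) ≤ 1 / 8 * D := by
      have e : T * (11250 * (K * T ^ 2) / u₀ ^ 2 * (6 * K * D)) = (540000 * T ^ 3 * K ^ 2) / u₀ ^ 2 * (1 / 8 * D) := by ring
      rw [e]
      exact mul_le_of_le_one_left (by positivity) ((div_le_one (by positivity)).2 hL2)
    linarith
  have hvar : ∀ (k : ℕ) (g : Euc n → ℝ) (g' : Euc n → Euc n), D1 g g' →
      ∫ x, (g x - ∫ y, g y ∂μ) ^ 2 ∂μ ≤ (8 / (3 * T) + (1 / 4) ^ k * (2 * K)) * ∫ x, ‖g' x‖ ^ 2 ∂μ := fun k => by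
    induction k with
    | zero =>
      intro g g' hg
      rw [pow_zero, one_mul]
      refine (var_le_of_fisi hK.le hS hF hg).trans (mul_le_mul_of_nonneg_right (le_add_of_nonneg_left (by positivity))
        (integral_nonneg fun x => sq_nonneg _))
    | succ k ih =>
      intro g g' hg
      have h1 := (var_step hS hR hμ hs hg).trans (add_le_add le_rfl (ih (qop s μ g) (qgrad s μ g)
        ⟨hasFDerivAt_qop hS hR hg.cont, continuous_qgrad hS hR hg.cont⟩))
      have h2 := mul_le_mul_of_nonneg_left (hgrad g g' hg) (by positivity : 0 ≤ 8 / (3 * T) + (1 / 4) ^ k * (2 * K))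
      rw [← hTdef] at h1
      have e : 2 / T + (8 / (3 * T) + (1 / 4) ^ k * (2 * K)) * (1 / 4) = 8 / (3 * T) + (1 / 4) ^ (k + 1) * (2 * K) := by
        field_simp; ring
      rw [← e]; linarith
  have hpoin : ∀ (g : Euc n → ℝ) (g' : Euc n → Euc n), D1 g g' →
      ∫ x, (g x - ∫ y, g y ∂μ) ^ 2 ∂μ ≤ 3 / T * ∫ x, ‖g' x‖ ^ 2 ∂μ := fun g g' hg => by
    obtain ⟨k, hk⟩ := exists_pow_lt_of_lt_one (show 0 < 1 / (6 * (K * T)) by positivity) (by norm_num : (1 / 4 : ℝ) < 1)
    refine (hvar k g g' hg).trans (mul_le_mul_of_nonneg_right ?_ (integral_nonneg fun x => sq_nonneg _))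
    rw [lt_div_iff₀ (by positivity)] at hk
    have e : 8 / (3 * T) + (1 / 4) ^ k * (2 * K) = (8 + (1 / 4) ^ k * (6 * (K * T))) / (3 * T) := by field_simp; ring
    rw [e, show 3 / T = 9 / (3 * T) by field_simp; ring]
    gcongr; linarith
  -- entropy
  set δ := 144 * T ^ 2 * B * (11250 * (K * T ^ 2) / u₀ ^ 2) with hδ
  have hδ0 : 0 ≤ δ := by positivity
  have hfis : ∀ (g : Euc n → ℝ) (g' : Euc n → Euc n), Pos1 g g' →
      ∫ x, fis (qop s μ g) (qgrad s μ g) x ∂μ ≤ 1 / 2 * ∫ x, fis g g' x ∂μ + δ * (ent μ g + ∫ x, g x ∂μ) := fun g g' hg => by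
    have hpt : ∀ x, ‖x‖ ≤ R → fis (qop s μ g) (qgrad s μ g) x
        ≤ 1 / 2 * qop s μ (fis g g') x + ξ x * (144 * T ^ 2 * B) * qop s μ g x := fun x hx =>
      fis_defect hS hR hμ hsub hs h216 (by rw [hR2, hBdef]; linarith) (hξ0 x) x hx
        (fun hξ1 v hv t ht htB => esd_good hS hR hμ hs j hu hT x v hv (hξg x hξ1) ht (by linarith)) hg
    have c1 := continuous_qop (s := s) hS hR hg.cont_fis
    have c2 := continuous_qop (s := s) hS hR hg.cont
    have i2 : Integrable (fun x => ξ x * (144 * T ^ 2 * B) * qop s μ g x) μ :=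
      hS.integrable ((hξc.mul continuous_const).mul c2)
    have h1 := integral_mono_ae (hS.integrable (pos1_qop hS hR hg).cont_fis)
      (((hS.integrable c1).const_mul _).add i2) (hS.mono hpt)
    simp only [Pi.add_apply] at h1
    have e : ∫ x, ξ x * (144 * T ^ 2 * B) * qop s μ g x ∂μ = 144 * T ^ 2 * B * ∫ x, ξ x * qop s μ g x ∂μ := by
      rw [← integral_const_mul]; exact integral_congr_ae (Eventually.of_forall fun x => by ring)
    rw [integral_add ((hS.integrable c1).const_mul _) i2, integral_const_mul, integral_qop hS hR hg.cont_fis, e] at h1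
    have h2 := hbad c2 fun x => (qop_pos hS hR hg.cont hg.pos x).le
    rw [integral_qop hS hR hg.cont] at h2
    have h3 := ent_qop_le (s := s) hS hR hg.cont fun x => (hg.pos x).le
    have h4 := mul_le_mul_of_nonneg_left (h2.trans (mul_le_mul_of_nonneg_left (add_le_add h3 le_rfl) (by positivity)))
      (by positivity : 0 ≤ 144 * T ^ 2 * B)
    rw [hδ]; linarith
  have hent : ∀ (k : ℕ) (g : Euc n → ℝ) (g' : Euc n → Euc n), Pos1 g g' →
      ent μ g ≤ (2 / T + (1 / 2) ^ k * K) * ∫ x, fis g g' x ∂μ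
        + (2 * k / T + 2 * K * (1 - (1 / 2) ^ k)) * (δ * (ent μ g + ∫ x, g x ∂μ)) := fun k => by
    induction k with
    | zero =>
      intro g g' hg
      simp only [pow_zero, one_mul, Nat.cast_zero, mul_zero, zero_div, sub_self, add_zero, zero_mul]
      exact (hF g g' hg).trans (mul_le_mul_of_nonneg_right (le_add_of_nonneg_left (by positivity))
        (integral_nonneg (fis_nonneg hg)))
    | succ k ih =>
      intro g g' hg
      have h1 := (ent_step hS hR hμ hs hg).trans (add_le_add le_rfl (ih _ _ (pos1_qop hS hR hg)))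
      rw [integral_qop hS hR hg.cont, ← hTdef] at h1
      have h2 := ent_qop_le (s := s) hS hR hg.cont fun x => (hg.pos x).le
      have hp : (1 / 2 : ℝ) ^ k ≤ 1 := pow_le_one₀ (by norm_num) (by norm_num)
      have ha : 0 ≤ 2 * (k : ℝ) / T + 2 * K * (1 - (1 / 2) ^ k) :=
        add_nonneg (by positivity) (mul_nonneg (by positivity) (by linarith))
      have h3 := mul_le_mul_of_nonneg_left (mul_le_mul_of_nonneg_left (add_le_add h2 (le_refl (∫ x, g x ∂μ))) hδ0) ha
      have h4 := mul_le_mul_of_nonneg_left (hfis g g' hg) (by positivity : 0 ≤ 2 / T + (1 / 2) ^ k * K)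
      have e1 : 1 / T + (2 / T + (1 / 2) ^ k * K) * (1 / 2) = 2 / T + (1 / 2) ^ (k + 1) * K := by ring
      have e2 : (2 / T + (1 / 2) ^ k * K) + (2 * (k : ℝ) / T + 2 * K * (1 - (1 / 2) ^ k))
          = 2 * ((k + 1 : ℕ) : ℝ) / T + 2 * K * (1 - (1 / 2) ^ (k + 1)) := by push_cast; ring
      rw [← e1, ← e2]; linarith
  have hpos : ∀ (g : Euc n → ℝ) (g' : Euc n → Euc n), Pos1 g g' →
      ent μ g ≤ 4 / 3 * (2 / T + K / 16) * (∫ x, fis g g' x ∂μ) + 1 / 3 * ∫ x, g x ∂μ := fun g g' hg => by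
    have h1 := hent 4 g g' hg
    have hm0 : 0 ≤ ∫ x, g x ∂μ := integral_nonneg fun x => (hg.pos x).le
    have hE0 : 0 ≤ ent μ g := ent_nonneg (fun x => (hg.pos x).le) (hS.integrable hg.cont)
      (hS.integrable (Real.continuous_mul_log.comp hg.cont))
    have hζ' : (8 / T + 2 * K) * δ ≤ 1 / 4 := by
      have e : (8 / T + 2 * K) * δ = (6480000 * (8 / T + 2 * K) * K * T ^ 4 * B) / u₀ ^ 2 * (1 / 4) := by rw [hδ]; ring
      rw [e]
      exact mul_le_of_le_one_left (by norm_num) ((div_le_one (by positivity)).2 hζ)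
    have h2 := mul_le_mul_of_nonneg_right hζ' (add_nonneg hE0 hm0)
    have h3 : 0 ≤ K * (δ * (ent μ g + ∫ x, g x ∂μ)) := by positivity
    norm_num at h1
    linarith
  -- logarithmic Sobolev
  have hlsi : ∀ {f : Euc n → ℝ} {f' : Euc n → Euc n}, D1 f f' →
      ent μ (fun x => f x ^ 2) ≤ (288 / T + 4 * K / 3) * ∫ x, ‖f' x‖ ^ 2 ∂μ := fun {f f'} hf => by
    set a := ∫ y, f y ∂μ with ha
    set v := fun x => f x - a with hv
    have hvd : D1 v f' := ⟨fun x => (hf.deriv x).sub_const a, hf.cont'⟩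
    set D := ∫ x, ‖f' x‖ ^ 2 ∂μ with hD
    have hD0 : 0 ≤ D := integral_nonneg fun x => sq_nonneg _
    have hq := hpoin f f' hf
    have hev : ent μ (fun x => v x ^ 2) ≤ (35 / (3 * T) + K / 3) * D := by
      refine ent_le_of_perturb (h := fun x => v x ^ 2) hS (hvd.cont.pow 2) (B := 1) fun η hη => ?_
      have hp := pos1_sq_add hvd hη
      have h1 := hpos _ _ hp
      have h2 : ∫ x, fis (fun x => v x ^ 2 + η) (fun x => (2 * v x) • f' x) x ∂μ ≤ 4 * D := by
        rw [hD, ← integral_const_mul]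
        exact integral_mono (hS.integrable hp.cont_fis) ((hS.integrable (hf.cont'.norm.pow 2)).const_mul _)
          fun x => fis_sq_le hη x
      have h3 : ∫ x, (v x ^ 2 + η) ∂μ ≤ 3 / T * D + η := by
        rw [integral_add (f := fun x => v x ^ 2) (hS.integrable (hvd.cont.pow 2)) (integrable_const η)]
        simp only [integral_const, probReal_univ, one_smul]
        exact add_le_add hq le_rfl
      have h4 := mul_le_mul_of_nonneg_left h2 (by positivity : 0 ≤ 4 / 3 * (2 / T + K / 16))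
      have e : 4 / 3 * (2 / T + K / 16) * (4 * D) + 1 / 3 * (3 / T * D) = (35 / (3 * T) + K / 3) * D := by ring
      linarith
    have hq' : ∫ x, v x ^ 2 ∂μ ≤ 3 / T * D := hq
    have e : (fun x => f x ^ 2) = fun x => (a + v x) ^ 2 := funext fun x => by simp [hv]
    rw [e]
    refine ent_centre hS hvd.cont a (by positivity) ?_
    have e2 : 4 * ((35 / (3 * T) + K / 3) * D) + 80 * (3 / T * D) + 4 / (3 * T) * D = (288 / T + 4 * K / 3) * D := by ring
    have : 0 ≤ 4 / (3 * T) * D := by positivity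
    linarith
  have := fisi_of_lsi hS hlsi
  rwa [show (288 / T + 4 * K / 3) / 4 = 72 / T + K / 3 by ring] at this

end

/-- Fisher information form of the logarithmic Sobolev inequality of order `n^(1/4)` on the ball. -/
lemma fisi_quarter : ∃ C : ℝ, 0 < C ∧ ∀ᶠ n : ℕ in atTop, ∀ (μ : Measure (Euc n)) (R : ℝ),
    IsProbabilityMeasure μ → Setup μ R → Fisi μ (C * (n : ℝ) ^ (1 / 4 : ℝ)) := by
  set u₀ := exp (-25 : ℝ) / 40 with hu₀
  have hu : 0 < u₀ := by positivity
  have hu1 : u₀ ≤ 1 := by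
    have : exp (-25 : ℝ) ≤ 1 := exp_le_one_iff.2 (by norm_num)
    rw [hu₀]; linarith
  set ε := u₀ ^ 2 / 10 ^ 12 with hε
  have hε0 : 0 < ε := by positivity
  have hεu : 10 ^ 12 * ε ≤ u₀ ^ 2 := by rw [hε]; linarith [show (10:ℝ) ^ 12 * (u₀ ^ 2 / 10 ^ 12) = u₀ ^ 2 by field_simp]
  have hu2 : u₀ ^ 2 ≤ u₀ := by nlinarith
  have hε1 : ε ≤ 1 := by nlinarith
  refine ⟨(108 / ε) ^ 2 + 1, by positivity, ?_⟩
  filter_upwards [mean_phi, eventually_ge_atTop 1, rpow_ev (by norm_num : (0 : ℝ) < 1 / 6) (640000000 : ℝ)]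
    with n hphi hn1 h6 μ R _ h
  have hn : (1 : ℝ) ≤ n := by exact_mod_cast hn1
  have hn0 : (0 : ℝ) < n := by linarith
  set N := (n : ℝ) ^ (1 / 4 : ℝ) with hN
  have hN1 : 1 ≤ N := one_le_rpow hn (by norm_num)
  have hN4 : N ^ 4 = n := by rw [hN, ← rpow_natCast, ← rpow_mul hn0.le]; norm_num
  set Kc := 640000000 * (n : ℝ) ^ (1 / 3 : ℝ) with hKc
  set s0 : Set ℝ := {K | 0 ≤ K ∧ Fisi μ K} with hs0
  have hne : s0.Nonempty := ⟨Kc, by positivity, fisi_cube h⟩
  have hbd : BddBelow s0 := ⟨0, fun K hK => hK.1⟩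
  set K := sInf s0 with hKdef
  have hK0 : 0 ≤ K := le_csInf hne fun K hK => hK.1
  have hF : Fisi μ K := fun g g' hg => by
    refine le_of_forall_pos_le_add fun e he => ?_
    have hI : 0 ≤ ∫ x, fis g g' x ∂μ := integral_nonneg (fis_nonneg hg)
    set I := ∫ x, fis g g' x ∂μ
    obtain ⟨K', hK', hlt⟩ := exists_lt_of_csInf_lt hne (show K < K + e / (I + 1) by linarith [show 0 < e / (I + 1) by positivity])
    have h1 := (hK'.2 g g' hg).trans (mul_le_mul_of_nonneg_right hlt.le hI)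
    have h2 : e / (I + 1) * I ≤ e := by
      rw [div_mul_eq_mul_div, div_le_iff₀ (by positivity)]; nlinarith
    linarith
  suffices hK : K ≤ ((108 / ε) ^ 2 + 1) * N by
    intro g g' hg
    exact (hF g g' hg).trans (mul_le_mul_of_nonneg_right hK (integral_nonneg (fis_nonneg hg)))
  rcases le_or_gt K N with hKN | hKN
  · exact hKN.trans (le_mul_of_one_le_left (by linarith) (le_add_of_nonneg_left (by positivity)))
  set q := (K / N) ^ (1 / 3 : ℝ) with hq
  have hKN1 : 1 ≤ K / N := by rw [le_div_iff₀ (by linarith)]; linarith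
  have hq1 : 1 ≤ q := one_le_rpow hKN1 (by norm_num)
  have hq3 : q ^ 3 = K / N := by rw [hq, ← rpow_natCast, ← rpow_mul (by positivity)]; norm_num
  have hKq : K = q ^ 3 * N := by rw [hq3, div_mul_cancel₀ _ (by linarith : N ≠ 0)]
  set T := ε / (N * q) with hTdef
  have hNq : 1 ≤ N * q := one_le_mul_of_one_le_of_one_le hN1 hq1
  have hT0 : 0 < T := by positivity
  have hTε : T ≤ ε := div_le_self hε0.le hNq
  set s := √T with hsdef
  have hs : 0 < s := Real.sqrt_pos.2 hT0
  have hsT : s ^ 2 = T := Real.sq_sqrt hT0.le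
  obtain ⟨j, hj⟩ := hphi μ R inferInstance h T hT0 (by
    rw [rpow_neg hn0.le, ← hN, hTdef, inv_eq_one_div, div_le_div_iff₀ (by positivity) (by positivity), one_mul]
    exact mul_le_mul hε1 (le_mul_of_one_le_right (by linarith) hq1) (by linarith) zero_le_one |>.trans
      (le_of_eq (one_mul _)))
  have hT4 : T ^ 4 * n ≤ ε ^ 4 := by
    rw [← hN4, hTdef, div_pow, div_mul_eq_mul_div, div_le_iff₀ (by positivity), mul_pow]
    refine mul_le_mul_of_nonneg_left ?_ (by positivity)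
    exact le_mul_of_one_le_right (by positivity) (one_le_pow₀ hq1)
  have hT3 : T ^ 3 * K ^ 2 ≤ ε ^ 3 := by
    have hKle : K ≤ Kc := csInf_le hbd ⟨by positivity, fisi_cube h⟩
    have h1 : K ≤ N * N := by
      refine hKle.trans ?_
      rw [hKc, hN, ← rpow_add hn0, show (1 / 4 + 1 / 4 : ℝ) = 1 / 6 + 1 / 3 by norm_num, rpow_add hn0]
      exact mul_le_mul_of_nonneg_right h6 (by positivity)
    have e : T ^ 3 * K ^ 2 = ε ^ 3 * (K / (N * N)) := by
      rw [hTdef, div_pow, mul_pow, hq3]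
      field_simp
    rw [e]
    exact mul_le_of_le_one_right (by positivity) (div_le_one_of_le₀ h1 (by positivity))
  have hT6 : T ^ 6 * n * K ^ 2 = ε ^ 6 := by
    rw [← hN4, hKq, hTdef]; field_simp
  have hTK : ε ≤ T * K := by
    rw [hKq, hTdef]
    have : ε / (N * q) * (q ^ 3 * N) = ε * q ^ 2 := by field_simp
    rw [this]; exact le_mul_of_one_le_right hε0.le (one_le_pow₀ hq1)
  have e4 : s ^ 4 = T ^ 2 := by rw [← hsT]; ring
  have hεpow : ∀ k : ℕ, 1 ≤ k → ε ^ k ≤ ε := fun k hk => pow_le_of_le_one hε0.le hε1 (by omega)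
  have hKpos : 0 < K := by linarith
  have hFn := self_improve h hKpos hF hs j hu (by rw [hsT]; rw [hu₀]; linarith) (by rw [hsT]; linarith)
    (by rw [hsT]; linarith) ?_ ?_ ?_
  · rw [hsT] at hFn
    have h1 := csInf_le hbd (show 72 / T + K / 3 ∈ s0 from ⟨by positivity, hFn⟩)
    rw [← hKdef] at h1
    have h2 : K ≤ 108 / T := by
      have : (108 : ℝ) / T = 3 / 2 * (72 / T) := by ring
      linarith
    have h3 : q ^ 2 ≤ 108 / ε := by
      rw [hKq, hTdef, div_div_eq_mul_div, le_div_iff₀ hε0] at h2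
      rw [le_div_iff₀ hε0]
      have h4 : N * q * (q ^ 2 * ε) ≤ N * q * 108 := by linarith
      exact le_of_mul_le_mul_left h4 (by positivity)
    have h5 : q ^ 3 ≤ (108 / ε) ^ 2 := by
      have h6 : q ≤ 108 / ε := le_trans (le_self_pow₀ hq1 (by norm_num)) h3
      rw [pow_succ, sq (108 / ε)]
      exact mul_le_mul h3 h6 (by linarith) (by positivity)
    rw [hKq]
    exact mul_le_mul_of_nonneg_right (le_add_of_le_of_nonneg h5 zero_le_one) (by linarith)
  · rw [hsT, e4]
    have h1 : T * √(7 + 284 * T ^ 2 * n) ≤ 18 * ε := by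
      refine (pow_le_pow_iff_left₀ (by positivity) (by positivity) two_ne_zero).1 ?_
      rw [mul_pow, Real.sq_sqrt (by positivity)]
      have h2 : T ^ 2 ≤ ε ^ 2 := pow_le_pow_left₀ hT0.le hTε 2
      have h3 : ε ^ 4 ≤ ε ^ 2 := pow_le_pow_of_le_one hε0.le hε1 (by norm_num)
      rw [show T ^ 2 * (7 + 284 * T ^ 2 * n) = 7 * T ^ 2 + 284 * (T ^ 4 * n) by ring, mul_pow]
      linarith [sq_nonneg ε]
    linarith
  · rw [hsT]
    have := hεpow 3 (by norm_num)
    linarith
  · rw [hsT, e4]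
    have h1 : 8 / T + 2 * K ≤ 10 * K / ε := by
      have h2 : 1 / T ≤ K / ε := by rw [div_le_div_iff₀ hT0 hε0]; linarith
      have h3 : K ≤ K / ε := le_div_self hKpos.le hε0 hε1
      have : (8 : ℝ) / T = 8 * (1 / T) := by ring
      have : 10 * K / ε = 10 * (K / ε) := by ring
      linarith
    have h4 : T ^ 4 * K ^ 2 ≤ ε ^ 4 := by
      have := mul_le_mul hTε hT3 (by positivity) hε0.le
      linarith
    calc 6480000 * (8 / T + 2 * K) * K * T ^ 4 * (7 + 284 * T ^ 2 * n)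
        ≤ 6480000 * (10 * K / ε) * K * T ^ 4 * (7 + 284 * T ^ 2 * n) := by gcongr
      _ = 64800000 / ε * (7 * (T ^ 4 * K ^ 2) + 284 * (T ^ 6 * n * K ^ 2)) := by ring
      _ ≤ 64800000 / ε * (7 * ε ^ 4 + 284 * ε ^ 6) := by rw [hT6]; gcongr
      _ = 64800000 * (7 * ε ^ 3 + 284 * ε ^ 5) := by field_simp
      _ ≤ u₀ ^ 2 := by
          have := hεpow 3 (by norm_num)
          have := hεpow 5 (by norm_num)
          linarith

end Vale.Agent.P245
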