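import Vale.Agent.P245.LC

open MeasureTheory Real Filter Set
open scoped Topology RealInnerProductSpace

namespace Vale.Agent.P245

variable {n : ℕ}

/-- Linear operators of Euclidean space. -/
abbrev Op (n : ℕ) := Euc n →L[ℝ] Euc n

/-- The standard orthonormal basis. -/
noncomputable def stdb (n : ℕ) : OrthonormalBasis (Fin n) ℝ (Euc n) := EuclideanSpace.basisFun (Fin n) ℝ

/-- Squared Hilbert-Schmidt norm. -/
noncomputable def frob (M : Op n) : ℝ := ∑ a, ‖M (stdb n a)‖ ^ 2

lemma norm_sq_eq_sum (b : OrthonormalBasis (Fin n) ℝ (Euc n)) (x : Euc n) :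
    ‖x‖ ^ 2 = ∑ i, ⟪b i, x⟫ ^ 2 := by
  rw [← real_inner_self_eq_norm_sq, ← b.sum_inner_mul_inner x x]
  refine Finset.sum_congr rfl fun i _ => ?_
  rw [sq, real_inner_comm x (b i)]

lemma inner_eq_sum (b : OrthonormalBasis (Fin n) ℝ (Euc n)) (x y : Euc n) :
    ⟪x, y⟫ = ∑ i, ⟪b i, x⟫ * ⟪b i, y⟫ := by
  rw [← b.sum_inner_mul_inner x y]
  refine Finset.sum_congr rfl fun i _ => ?_
  rw [real_inner_comm x (b i)]

lemma frob_basis (M : Op n) (b : OrthonormalBasis (Fin n) ℝ (Euc n)) : frob M = ∑ i, ‖M (b i)‖ ^ 2 := by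
  have key : ∀ c : OrthonormalBasis (Fin n) ℝ (Euc n),
      ∑ i, ‖M (c i)‖ ^ 2 = ∑ a, ‖ContinuousLinearMap.adjoint M (stdb n a)‖ ^ 2 := fun c => by
    simp only [norm_sq_eq_sum (stdb n) (M _), norm_sq_eq_sum c (ContinuousLinearMap.adjoint M _)]
    rw [Finset.sum_comm]
    refine Finset.sum_congr rfl fun a _ => Finset.sum_congr rfl fun i _ => ?_
    rw [ContinuousLinearMap.adjoint_inner_right, real_inner_comm]
  rw [frob, key, key]

lemma frob_nonneg (M : Op n) : 0 ≤ frob M := Finset.sum_nonneg fun _ _ => sq_nonneg _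

lemma frob_neg (M : Op n) : frob (-M) = frob M := by simp [frob]

/-- Self-adjointness of an operator. -/
def SymOp (M : Op n) : Prop := ∀ u v, ⟪M u, v⟫ = ⟪u, M v⟫

lemma SymOp.exists_eigen {M : Op n} (h : SymOp M) :
    ∃ (b : OrthonormalBasis (Fin n) ℝ (Euc n)) (l : Fin n → ℝ), ∀ i, M (b i) = l i • b i := by
  have hs : (M : Euc n →ₗ[ℝ] Euc n).IsSymmetric := h
  have hn : Module.finrank ℝ (Euc n) = n := finrank_euclideanSpace_fin
  exact ⟨hs.eigenvectorBasis hn, hs.eigenvalues hn, fun i => hs.apply_eigenvectorBasis hn i⟩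

lemma SymOp.sub {M N : Op n} (hM : SymOp M) (hN : SymOp N) : SymOp (M - N) := fun u v => by
  simp [inner_sub_left, inner_sub_right, hM u v, hN u v]

lemma SymOp.zero : SymOp (0 : Op n) := fun u v => by simp

section eig

variable {M : Op n} {b : OrthonormalBasis (Fin n) ℝ (Euc n)} {l : Fin n → ℝ} (he : ∀ i, M (b i) = l i • b i)
include he

lemma pow_apply_eigen (k : ℕ) (i : Fin n) : (M ^ k) (b i) = l i ^ k • b i := by
  induction k with
  | zero => simp
  | succ k ih => rw [pow_succ', ContinuousLinearMap.mul_def, ContinuousLinearMap.comp_apply, ih, map_smul, he, smul_smul, pow_succ]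

lemma frob_pow (m : ℕ) : frob (M ^ m) = ∑ i, l i ^ (2 * m) := by
  rw [frob_basis _ b]
  refine Finset.sum_congr rfl fun i _ => ?_
  rw [pow_apply_eigen he, norm_smul, b.orthonormal.1 i, mul_one, norm_eq_abs, sq_abs, ← pow_mul, mul_comm]

lemma quad_eigen (u : Euc n) : ⟪u, M u⟫ = ∑ i, l i * ⟪b i, u⟫ ^ 2 := by
  conv_lhs => rw [← b.sum_repr' u]
  rw [inner_eq_sum b]
  refine Finset.sum_congr rfl fun i _ => ?_
  simp only [map_sum, map_smul, he, inner_sum, inner_smul_right, b.inner_eq_ite, mul_ite, mul_one,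
    mul_zero, Finset.sum_ite_eq, Finset.mem_univ, if_true]
  ring

lemma diag_pow_le (c : OrthonormalBasis (Fin n) ℝ (Euc n)) (m : ℕ) :
    ∑ i, ⟪c i, M (c i)⟫ ^ (2 * m) ≤ frob (M ^ m) := by
  rw [frob_pow he]
  calc ∑ i, ⟪c i, M (c i)⟫ ^ (2 * m) ≤ ∑ i, ∑ j, ⟪b j, c i⟫ ^ 2 * l j ^ (2 * m) := by
        refine Finset.sum_le_sum fun i _ => ?_
        rw [quad_eigen he]
        have h := Real.pow_arith_mean_le_arith_mean_pow_of_even Finset.univ (fun j => ⟪b j, c i⟫ ^ 2) l
          (fun j _ => sq_nonneg _) (by rw [← norm_sq_eq_sum b (c i), c.orthonormal.1 i, one_pow])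
          (even_two_mul m)
        refine le_trans (le_of_eq ?_) h
        congr 1
        exact Finset.sum_congr rfl fun j _ => mul_comm _ _
    _ = ∑ j, l j ^ (2 * m) := by
        rw [Finset.sum_comm]
        refine Finset.sum_congr rfl fun j _ => ?_
        rw [← Finset.sum_mul]
        have h := norm_sq_eq_sum c (b j)
        rw [b.orthonormal.1 j, one_pow] at h
        simp [real_inner_comm (c _) (b j)] at h ⊢
        rw [← h, one_mul]

end eig

/-- Derivative of the `m`-th power at `M` in direction `D`. -/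
noncomputable def dpow (M D : Op n) (m : ℕ) : Op n :=
  ∑ l ∈ Finset.range m, M ^ (m.pred - l) * D * M ^ l

lemma frob_dpow_le {M D : Op n} (hD : SymOp D) {b : OrthonormalBasis (Fin n) ℝ (Euc n)} {l : Fin n → ℝ}
    (hM : SymOp M) (he : ∀ i, M (b i) = l i • b i) (j : ℕ) :
    frob (dpow M D (j + 1)) ≤ 2 * (j + 1) ^ 2 * ∑ i, |l i| ^ (2 * j) * ‖D (b i)‖ ^ 2 := by
  have hsym : ∀ k (u : Euc n) p, ⟪b p, (M ^ k) u⟫ = l p ^ k * ⟪b p, u⟫ := fun k => by
    induction k with
    | zero => simp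
    | succ k ih =>
      intro u p
      rw [pow_succ', ContinuousLinearMap.mul_def, ContinuousLinearMap.comp_apply, ← hM, he, real_inner_smul_left, ih]
      ring
  have hco : ∀ p i, ⟪b p, dpow M D (j + 1) (b i)⟫ ^ 2
      ≤ (j + 1 : ℝ) ^ 2 * (|l p| ^ (2 * j) + |l i| ^ (2 * j)) * ⟪b p, D (b i)⟫ ^ 2 := by
    intro p i
    have e : ⟪b p, dpow M D (j + 1) (b i)⟫
        = (∑ k ∈ Finset.range (j + 1), l p ^ (j - k) * l i ^ k) * ⟪b p, D (b i)⟫ := by
      simp only [dpow, Nat.pred_succ, sum_apply, inner_sum, Finset.sum_mul]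
      refine Finset.sum_congr rfl fun k _ => ?_
      rw [ContinuousLinearMap.mul_def, ContinuousLinearMap.mul_def, ContinuousLinearMap.comp_apply, ContinuousLinearMap.comp_apply, pow_apply_eigen he,
        map_smul, hsym, inner_smul_right]
      ring
    rw [e, mul_pow]
    refine mul_le_mul_of_nonneg_right ?_ (sq_nonneg _)
    set X := max |l p| |l i| with hX
    have h1 : |∑ k ∈ Finset.range (j + 1), l p ^ (j - k) * l i ^ k| ≤ (j + 1) * X ^ j := by
      refine (Finset.abs_sum_le_sum_abs _ _).trans ?_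
      calc ∑ k ∈ Finset.range (j + 1), |l p ^ (j - k) * l i ^ k| ≤ ∑ _k ∈ Finset.range (j + 1), X ^ j := by
            refine Finset.sum_le_sum fun k hk => ?_
            rw [abs_mul, abs_pow, abs_pow]
            calc |l p| ^ (j - k) * |l i| ^ k ≤ X ^ (j - k) * X ^ k := by
                  gcongr
                  · exact le_max_left _ _
                  · exact le_max_right _ _
              _ = X ^ j := by rw [← pow_add, Nat.sub_add_cancel (by simpa [Nat.lt_succ_iff] using hk)]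
        _ = _ := by simp
    have hX0 : 0 ≤ X := (abs_nonneg _).trans (le_max_left _ _)
    have h2 : X ^ (2 * j) ≤ |l p| ^ (2 * j) + |l i| ^ (2 * j) := by
      rcases max_choice |l p| |l i| with h | h <;> rw [hX, h]
      · exact le_add_of_nonneg_right (by positivity)
      · exact le_add_of_nonneg_left (by positivity)
    rw [← sq_abs]
    refine (pow_le_pow_left₀ (abs_nonneg _) h1 2).trans ?_
    rw [mul_pow, ← pow_mul, mul_comm j 2]
    exact mul_le_mul_of_nonneg_left h2 (by positivity)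
  rw [frob_basis _ b]
  calc ∑ i, ‖dpow M D (j + 1) (b i)‖ ^ 2
      ≤ ∑ i, ∑ p, (j + 1 : ℝ) ^ 2 * (|l p| ^ (2 * j) + |l i| ^ (2 * j)) * ⟪b p, D (b i)⟫ ^ 2 :=
        Finset.sum_le_sum fun i _ => by rw [norm_sq_eq_sum b]; exact Finset.sum_le_sum fun p _ => hco p i
    _ = _ := by
        have e1 : ∑ i, ∑ p, (j + 1 : ℝ) ^ 2 * |l p| ^ (2 * j) * ⟪b p, D (b i)⟫ ^ 2
            = (j + 1 : ℝ) ^ 2 * ∑ i, |l i| ^ (2 * j) * ‖D (b i)‖ ^ 2 := by
          rw [Finset.sum_comm, Finset.mul_sum]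
          refine Finset.sum_congr rfl fun p _ => ?_
          rw [norm_sq_eq_sum b, Finset.mul_sum, Finset.mul_sum]
          refine Finset.sum_congr rfl fun i _ => ?_
          rw [← hD, real_inner_comm]
          ring
        have e2 : ∑ i, ∑ p, (j + 1 : ℝ) ^ 2 * |l i| ^ (2 * j) * ⟪b p, D (b i)⟫ ^ 2
            = (j + 1 : ℝ) ^ 2 * ∑ i, |l i| ^ (2 * j) * ‖D (b i)‖ ^ 2 := by
          rw [Finset.mul_sum]
          refine Finset.sum_congr rfl fun i _ => ?_
          rw [← Finset.mul_sum, ← norm_sq_eq_sum b]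
          ring
        simp only [mul_add, add_mul, Finset.sum_add_distrib]
        rw [e1, e2]
        ring

/-- The elementary operator `u ↦ ⟪e_a, u⟫ e_b`. -/
noncomputable def eop (a c : Fin n) : Op n := (innerSL ℝ (stdb n a)).smulRight (stdb n c)

lemma op_expand (M : Op n) : M = ∑ a, ∑ c, ⟪stdb n c, M (stdb n a)⟫ • eop a c := by
  refine ContinuousLinearMap.ext fun u => ?_
  conv_lhs => rw [← (stdb n).sum_repr' u]
  simp only [map_sum, map_smul, sum_apply, smul_apply, eop,
    ContinuousLinearMap.smulRight_apply, innerSL_apply_apply]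
  refine Finset.sum_congr rfl fun a _ => ?_
  conv_lhs => rw [← (stdb n).sum_repr' (M (stdb n a))]
  rw [Finset.smul_sum]
  refine Finset.sum_congr rfl fun c _ => ?_
  rw [smul_smul, smul_smul, mul_comm]

end Vale.Agent.P245
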