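import Vale.Agent.P245.Law

open MeasureTheory Real Filter Set
open scoped Topology RealInnerProductSpace

namespace Vale.Agent.P245

variable {n : ℕ}

lemma prod_var {α β : Type*} [MeasurableSpace α] [MeasurableSpace β] {P : Measure α} {Q : Measure β}
    [IsProbabilityMeasure P] [IsProbabilityMeasure Q] {H : α → β → ℝ} (hH : StronglyMeasurable (Function.uncurry H))
    {B : ℝ} (hB : ∀ x y, |H x y| ≤ B) :
    (∫ x, ∫ y, H x y ^ 2 ∂Q ∂P) - (∫ x, ∫ y, H x y ∂Q ∂P) ^ 2
      ≤ (∫ x, ((∫ y, H x y ^ 2 ∂Q) - (∫ y, H x y ∂Q) ^ 2) ∂P)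
        + ∫ y, ((∫ x, H x y ^ 2 ∂P) - (∫ x, H x y ∂P) ^ 2) ∂Q := by
  set p := fun y => ∫ x, H x y ∂P with hp
  set u := fun x => ∫ y, H x y ∂Q with hu
  set m := ∫ x, u x ∂P with hm
  have hB' : ∀ x y, |H x y ^ 2| ≤ B ^ 2 := fun x y => by
    rw [abs_pow]; exact pow_le_pow_left₀ (abs_nonneg _) (hB x y) 2
  have hpm : StronglyMeasurable p := hH.integral_prod_left'
  have hum : StronglyMeasurable u := hH.integral_prod_right'
  have hpb : ∀ y, |p y| ≤ B := fun y => by
    simpa using norm_integral_le_of_norm_le_const (μ := P) (f := fun x => H x y) (C := B) (Eventually.of_forall fun x => hB x y)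
  have hub : ∀ x, |u x| ≤ B := fun x => by
    simpa using norm_integral_le_of_norm_le_const (μ := Q) (f := fun y => H x y) (C := B) (Eventually.of_forall fun y => hB x y)
  have iH : Integrable (Function.uncurry H) (P.prod Q) :=
    Integrable.of_bound hH.aestronglyMeasurable B (Eventually.of_forall fun z => hB z.1 z.2)
  have hH2 : StronglyMeasurable (Function.uncurry fun x y => H x y ^ 2) := hH.pow 2
  have iH2 : Integrable (Function.uncurry fun x y => H x y ^ 2) (P.prod Q) :=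
    Integrable.of_bound hH2.aestronglyMeasurable (B ^ 2) (Eventually.of_forall fun z => hB' z.1 z.2)
  have ip : Integrable p Q := Integrable.of_bound hpm.aestronglyMeasurable B (Eventually.of_forall hpb)
  have iu : Integrable u P := Integrable.of_bound hum.aestronglyMeasurable B (Eventually.of_forall hub)
  have ip2 : Integrable (fun y => p y ^ 2) Q := Integrable.of_bound (hpm.pow 2).aestronglyMeasurable (B ^ 2)
    (Eventually.of_forall fun y => by rw [norm_eq_abs, abs_pow]; exact pow_le_pow_left₀ (abs_nonneg _) (hpb y) 2)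
  have iu2 : Integrable (fun x => u x ^ 2) P := Integrable.of_bound (hum.pow 2).aestronglyMeasurable (B ^ 2)
    (Eventually.of_forall fun x => by rw [norm_eq_abs, abs_pow]; exact pow_le_pow_left₀ (abs_nonneg _) (hub x) 2)
  have hmp : ∫ y, p y ∂Q = m := by rw [hm, hu, hp]; exact (integral_integral_swap iH).symm
  set F := fun x y => H x y - p y with hF
  have hFm : StronglyMeasurable (Function.uncurry F) := hH.sub (hpm.comp_measurable measurable_snd)
  have hFb : ∀ x y, |F x y| ≤ 2 * B := fun x y => (abs_sub _ _).trans (by linarith [hB x y, hpb y])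
  have iF2 : Integrable (Function.uncurry fun x y => F x y ^ 2) (P.prod Q) :=
    Integrable.of_bound (hFm.pow 2).aestronglyMeasurable ((2 * B) ^ 2) (Eventually.of_forall fun z => by
      rw [Function.uncurry, norm_eq_abs, abs_pow]; exact pow_le_pow_left₀ (abs_nonneg _) (hFb z.1 z.2) 2)
  have hx : ∀ x, (u x - m) ^ 2 ≤ ∫ y, F x y ^ 2 ∂Q := fun x => by
    have i1 : Integrable (fun y => H x y) Q := Integrable.of_bound
      (hH.comp_measurable measurable_prodMk_left).aestronglyMeasurable B (Eventually.of_forall (hB x))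
    have i2 : Integrable (fun y => F x y ^ 2) Q := Integrable.of_bound
      ((hFm.comp_measurable measurable_prodMk_left).pow 2).aestronglyMeasurable ((2 * B) ^ 2)
      (Eventually.of_forall fun y => by rw [norm_eq_abs, abs_pow]; exact pow_le_pow_left₀ (abs_nonneg _) (hFb x y) 2)
    have h := cs_integral (μ := Q) (f := fun y => F x y) (g := fun _ => (1:ℝ)) i2 (integrable_const _)
      (by simpa using! i1.sub ip)
    simp only [mul_one, one_pow, integral_const, probReal_univ, one_smul] at h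
    rw [hF] at h; simp only at h
    rw [integral_sub i1 ip, hmp] at h
    exact h
  have h1 := integral_mono (Integrable.of_bound ((hum.sub (stronglyMeasurable_const (b := m))).pow 2).aestronglyMeasurable
    ((2 * B) ^ 2) (Eventually.of_forall fun x => by
      rw [norm_eq_abs, Pi.pow_apply, Pi.sub_apply, abs_pow]
      refine pow_le_pow_left₀ (abs_nonneg _) ((abs_sub _ _).trans ?_) 2
      have : |m| ≤ B := by
        simpa [hm] using norm_integral_le_of_norm_le_const (μ := P) (f := u) (C := B) (Eventually.of_forall hub)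
      linarith [hub x])) iF2.integral_prod_left hx
  have e1 : ∫ x, (u x - m) ^ 2 ∂P = (∫ x, u x ^ 2 ∂P) - m ^ 2 := by
    have e : ∀ x, (u x - m) ^ 2 = u x ^ 2 - (2 * m) * u x + m ^ 2 := fun x => by ring
    rw [integral_congr_ae (Eventually.of_forall e), integral_add (iu2.sub' (iu.const_mul _)) (integrable_const _),
      integral_sub iu2 (iu.const_mul _), integral_const_mul, integral_const, probReal_univ, one_smul, ← hm]
    ring
  have e2 : ∫ x, ∫ y, F x y ^ 2 ∂Q ∂P = ∫ y, ((∫ x, H x y ^ 2 ∂P) - p y ^ 2) ∂Q := by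
    rw [integral_integral_swap iF2]
    refine integral_congr_ae (Eventually.of_forall fun y => ?_)
    have i1 : Integrable (fun x => H x y) P := Integrable.of_bound
      (hH.comp_measurable measurable_prodMk_right).aestronglyMeasurable B (Eventually.of_forall fun x => hB x y)
    have i2 : Integrable (fun x => H x y ^ 2) P := Integrable.of_bound
      ((hH.comp_measurable measurable_prodMk_right).pow 2).aestronglyMeasurable (B ^ 2) (Eventually.of_forall fun x => hB' x y)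
    have e : ∀ x, F x y ^ 2 = H x y ^ 2 - (2 * p y) * H x y + p y ^ 2 := fun x => by simp only [hF]; ring
    simp only
    rw [integral_congr_ae (Eventually.of_forall e), integral_add (i2.sub' (i1.const_mul _)) (integrable_const _),
      integral_sub i2 (i1.const_mul _), integral_const_mul, integral_const, probReal_univ, one_smul]
    simp only [hp]; ring
  have iA : Integrable (fun x => ∫ y, H x y ^ 2 ∂Q) P := iH2.integral_prod_left
  change ∫ x, (u x - m) ^ 2 ∂P ≤ ∫ x, ∫ y, F x y ^ 2 ∂Q ∂P at h1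
  rw [e1, e2] at h1
  change _ ≤ (∫ x, ((∫ y, H x y ^ 2 ∂Q) - u x ^ 2) ∂P) + ∫ y, ((∫ x, H x y ^ 2 ∂P) - p y ^ 2) ∂Q
  rw [integral_sub iA iu2]
  linarith

section

variable {μ : Measure (Euc n)} [IsProbabilityMeasure μ] {R : ℝ}

lemma norm_Aop_le (hS : Supp μ R) (t : ℝ) (θ : Euc n) : ‖Aop t μ θ‖ ≤ 4 * R ^ 2 := by
  refine ContinuousLinearMap.opNorm_le_bound _ (by positivity) fun u => ?_
  set w := Aop t μ θ u with hw
  have h := (le_abs_self _).trans (abs_aent_le (t := t) hS θ u w)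
  rw [← inner_Aop hS, real_inner_self_eq_norm_sq] at h
  rcases (norm_nonneg w).eq_or_lt with h0 | h0
  · rw [← h0]; positivity
  · refine le_of_mul_le_mul_right ?_ h0
    linarith

/-- Matrix entry of a power of the shifted covariance operator. -/
noncomputable def gab (t : ℝ) (μ : Measure (Euc n)) (C : Op n) (m : ℕ) (a c : Fin n) (θ : Euc n) : ℝ :=
  ⟪stdb n a, ((Aop t μ θ - C) ^ m) (stdb n c)⟫

/-- Gradient of `gab`. -/
noncomputable def ggrad (t : ℝ) (μ : Measure (Euc n)) (C : Op n) (m : ℕ) (a c : Fin n) (θ : Euc n) : Euc n :=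
  ∑ k, ⟪stdb n a, dpow (Aop t μ θ - C) (dA t μ θ (stdb n k)) m (stdb n c)⟫ • stdb n k

lemma continuous_dA (hS : Supp μ R) (t : ℝ) (h : Euc n) : Continuous fun θ => dA t μ θ h :=
  continuous_finsetSum _ fun _ _ => continuous_finsetSum _ fun _ _ =>
    ((continuous_wvec hS _ _).inner (𝕜 := ℝ) (continuous_const (y := h))).smul continuous_const

lemma d1_gab (hS : Supp μ R) (t : ℝ) (C : Op n) (m : ℕ) (a c : Fin n) :
    D1 (gab t μ C m a c) (ggrad t μ C m a c) := by
  refine ⟨fun θ => ?_, ?_⟩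
  · obtain ⟨L, hL, hLe⟩ := hasFDerivAt_Aop (t := t) hS θ
    have h1 := (hL.sub_const C).fun_pow' m
    have h2 := ((innerSL ℝ (stdb n a)).comp (ContinuousLinearMap.apply ℝ (Euc n) (stdb n c))).hasFDerivAt.comp θ h1
    refine HasFDerivAt.congr_fderiv (f := gab t μ C m a c) h2 ?_
    refine ContinuousLinearMap.coe_injective ((stdb n).toBasis.ext fun k => ?_)
    simp only [OrthonormalBasis.coe_toBasis, ContinuousLinearMap.coe_coe]
    simp only [ggrad, map_sum, map_smul, dpow, sum_apply, smul_apply, ContinuousLinearMap.comp_apply,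
      ContinuousLinearMap.apply_apply, innerSL_apply_apply, (stdb n).inner_eq_ite, smul_eq_mul, mul_ite, mul_one,
      mul_zero, Finset.sum_ite_eq', Finset.mem_univ, if_true, MulOpposite.smul_eq_mul_unop, MulOpposite.unop_op,
      ← hLe, inner_sum, mul_assoc]
  · have hA := (continuous_Aop (t := t) hS).sub (continuous_const (y := C))
    refine continuous_finsetSum _ fun k _ => ((continuous_const (y := stdb n a)).inner (𝕜 := ℝ) ?_).smul (continuous_const (y := stdb n k))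
    have : Continuous fun θ => dpow (Aop t μ θ - C) (dA t μ θ (stdb n k)) m :=
      continuous_finsetSum _ fun l _ => ((hA.pow _).mul (continuous_dA hS t _)).mul (hA.pow _)
    exact this.clm_apply continuous_const

lemma sum_gab_sq (t : ℝ) (C : Op n) (m : ℕ) (θ : Euc n) :
    ∑ a, ∑ c, gab t μ C m a c θ ^ 2 = frob ((Aop t μ θ - C) ^ m) := by
  rw [Finset.sum_comm, frob]
  exact Finset.sum_congr rfl fun c _ => (norm_sq_eq_sum (stdb n) _).symm

lemma sum_ggrad_sq (t : ℝ) (C : Op n) (m : ℕ) (θ : Euc n) :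
    ∑ a, ∑ c, ‖ggrad t μ C m a c θ‖ ^ 2
      = ∑ k, frob (dpow (Aop t μ θ - C) (dA t μ θ (stdb n k)) m) := by
  have e : ∀ a c, ‖ggrad t μ C m a c θ‖ ^ 2
      = ∑ k, ⟪stdb n a, dpow (Aop t μ θ - C) (dA t μ θ (stdb n k)) m (stdb n c)⟫ ^ 2 := fun a c => by
    rw [norm_sq_eq_sum (stdb n)]
    refine Finset.sum_congr rfl fun k _ => ?_
    simp [ggrad, inner_sum, inner_smul_right, (stdb n).inner_eq_ite]
  simp only [e, frob, norm_sq_eq_sum (stdb n) ((dpow _ _ _) _)]
  rw [Finset.sum_comm]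
  conv_lhs => arg 2; ext c; rw [Finset.sum_comm]
  rw [Finset.sum_comm]

lemma abs_eigen_le {M : Op n} {b : OrthonormalBasis (Fin n) ℝ (Euc n)} {l : Fin n → ℝ}
    (he : ∀ k, M (b k) = l k • b k) (k : Fin n) : |l k| ≤ ‖M‖ := by
  have h := M.le_opNorm (b k)
  rw [he, norm_smul, b.orthonormal.1 k, mul_one, mul_one, norm_eq_abs] at h
  exact h

/-- Energy of the entries of a power, by the third cumulants. -/
lemma energy_le (hS : Supp μ R) (t : ℝ) {C : Op n} (hC : SymOp C) (i : ℕ) (θ : Euc n) {V E : ℝ} (hV : 0 ≤ V) (hE : 0 ≤ E)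
    (hsw : ∀ u, sw t μ θ u ^ 2 ≤ aent t μ θ u u * (4 * V * tw t μ θ u + E * sw t μ θ u)) :
    ∑ a, ∑ c, ‖ggrad t μ C (i + 2) a c θ‖ ^ 2 ≤ 2 * ((i : ℝ) + 2) ^ 2 *
      (12 * V * (frob ((Aop t μ θ - C) ^ (i + 2)) + frob (Aop t μ θ ^ (i + 2)))
        + 6 * E * (frob ((Aop t μ θ - C) ^ (i + 2)) + frob (Aop t μ θ ^ (i + 2)) + n)) := by
  have hD := (symOp_Aop (t := t) hS θ).sub hC
  obtain ⟨b, l, he⟩ := hD.exists_eigen
  rw [sum_ggrad_sq]
  refine (Finset.sum_le_sum fun k _ => frob_dpow_le (symOp_dA hS θ (stdb n k)) hD he (i + 1)).trans ?_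
  rw [← Finset.mul_sum, Finset.sum_comm]
  have e : ∑ y, ∑ k, |l y| ^ (2 * (i + 1)) * ‖dA t μ θ (stdb n k) (b y)‖ ^ 2
      = ∑ y, |l y| ^ (2 * i + 2) * sw t μ θ (b y) := Finset.sum_congr rfl fun y _ => by
    rw [← Finset.mul_sum, sum_sq_dA hS]; ring_nf
  rw [e]
  have h := phi_le hS θ i hV hE hsw b (fun k => |l k|) (fun k => abs_nonneg _)
  have e2 : ∑ k, |l k| ^ (2 * i + 4) = frob ((Aop t μ θ - C) ^ (i + 2)) := by
    rw [frob_pow he]
    exact Finset.sum_congr rfl fun k _ => by rw [show 2 * i + 4 = 2 * (i + 2) by ring, pow_mul, sq_abs, ← pow_mul]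
  rw [e2] at h
  push_cast
  refine le_trans (le_of_eq ?_) (mul_le_mul_of_nonneg_left h (by positivity))
  ring

lemma frob_pow_le {M : Op n} (hM : SymOp M) {B : ℝ} (hB : ‖M‖ ≤ B) (m : ℕ) : frob (M ^ m) ≤ n * B ^ (2 * m) := by
  obtain ⟨b, l, he⟩ := hM.exists_eigen
  rw [frob_pow he]
  refine (Finset.sum_le_sum fun k _ => ?_).trans (le_of_eq (by simp : ∑ _k : Fin n, B ^ (2 * m) = n * B ^ (2 * m)))
  rw [← (even_two_mul m).pow_abs]
  exact pow_le_pow_left₀ (abs_nonneg _) ((abs_eigen_le he k).trans hB) _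

lemma sw_le (hS : Supp μ R) (t : ℝ) (θ u : Euc n) : sw t μ θ u ≤ n * (‖u‖ * (8 * R ^ 3)) ^ 2 := by
  refine (Finset.sum_le_sum fun c _ => pow_le_pow_left₀ (norm_nonneg _) (norm_wvec_le hS θ u (stdb n c)) 2).trans (le_of_eq ?_)
  simp [(stdb n).orthonormal.1]

/-- Uniform bound on the energy. -/
noncomputable def emax (n : ℕ) (R : ℝ) (i : ℕ) : ℝ :=
  2 * ((i : ℝ) + 2) ^ 2 * (n * ((8 * R ^ 2) ^ (2 * i + 2) * (n * (8 * R ^ 3) ^ 2)))

lemma energy_sup (hS : Supp μ R) (t : ℝ) {C : Op n} (hC : SymOp C) (hCn : ‖C‖ ≤ 4 * R ^ 2) (i : ℕ) (θ : Euc n) :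
    ∑ a, ∑ c, ‖ggrad t μ C (i + 2) a c θ‖ ^ 2 ≤ emax n R i := by
  have hD := (symOp_Aop (t := t) hS θ).sub hC
  have hn : ‖Aop t μ θ - C‖ ≤ 8 * R ^ 2 := (norm_sub_le _ _).trans (by linarith [norm_Aop_le hS t θ])
  obtain ⟨b, l, he⟩ := hD.exists_eigen
  rw [sum_ggrad_sq]
  refine (Finset.sum_le_sum fun k _ => frob_dpow_le (symOp_dA hS θ (stdb n k)) hD he (i + 1)).trans ?_
  rw [← Finset.mul_sum, Finset.sum_comm]
  have e : ∀ y, ∑ k, |l y| ^ (2 * (i + 1)) * ‖dA t μ θ (stdb n k) (b y)‖ ^ 2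
      ≤ (8 * R ^ 2) ^ (2 * i + 2) * (n * (8 * R ^ 3) ^ 2) := fun y => by
    rw [← Finset.mul_sum, sum_sq_dA hS, show 2 * (i + 1) = 2 * i + 2 by ring]
    refine mul_le_mul (pow_le_pow_left₀ (abs_nonneg _) ((abs_eigen_le he y).trans hn) _)
      ((sw_le hS t θ (b y)).trans (by rw [b.orthonormal.1 y, one_mul])) (sw_nonneg _ _) (by positivity)
  refine (mul_le_mul_of_nonneg_left (Finset.sum_le_sum fun y _ => e y) (by positivity)).trans (le_of_eq ?_)
  simp [emax, Finset.sum_const]; left; ring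

/-- Variance of a function of the parameter after one step. -/
lemma var_point (hS : Supp μ R) {t σ K e : ℝ} (hσ : 0 ≤ σ) (θ₀ : Euc n) (hP : Poin (fib t μ θ₀) R K e)
    {F : Euc n → ℝ} {F' : Euc n → Euc n} (hF : D1 F F') {B M : ℝ} (hB : ∀ z, |F z| ≤ B) (hM0 : 0 ≤ M)
    (hM : ∀ z, ‖F' z‖ ^ 2 ≤ M) :
    (∫ x, ∫ G, F (θ₀ + pt (√σ) x G) ^ 2 ∂(gam n) ∂(fib t μ θ₀))
        - (∫ x, ∫ G, F (θ₀ + pt (√σ) x G) ∂(gam n) ∂(fib t μ θ₀)) ^ 2
      ≤ (K * σ ^ 2 + σ) * (∫ x, ∫ G, ‖F' (θ₀ + pt (√σ) x G)‖ ^ 2 ∂(gam n) ∂(fib t μ θ₀)) + e * σ ^ 2 * M := by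
  have := isProb_fib (T := t) hS θ₀
  have hsf := supp_fib (T := t) hS θ₀
  set ν := fib t μ θ₀
  set s := √σ with hs
  have hs2 : s ^ 2 = σ := Real.sq_sqrt hσ
  have hpc : Continuous fun p : Euc n × Euc n => θ₀ + pt s p.1 p.2 := by unfold pt; fun_prop
  have hFc := hF.cont
  have hF'c : Continuous fun z => ‖F' z‖ ^ 2 := hF.cont'.norm.pow 2
  have h1 := prod_var (P := ν) (Q := gam n) (H := fun x G => F (θ₀ + pt s x G))
    (hFc.comp hpc).stronglyMeasurable (fun x G => hB _)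
  have hF2b : ∀ z, |F z ^ 2| ≤ B ^ 2 := fun z => by rw [abs_pow]; exact pow_le_pow_left₀ (abs_nonneg _) (hB z) 2
  have hF'b : ∀ z, |‖F' z‖ ^ 2| ≤ M := fun z => by rw [abs_of_nonneg (sq_nonneg _)]; exact hM z
  have cG := continuous_gint (H := fun x G => ‖F' (θ₀ + pt s x G)‖ ^ 2) (hF'c.comp hpc) fun _ _ => hF'b _
  have hxpt : ∀ x, (∫ G, F (θ₀ + pt s x G) ^ 2 ∂(gam n)) - (∫ G, F (θ₀ + pt s x G) ∂(gam n)) ^ 2
      ≤ σ * ∫ G, ‖F' (θ₀ + pt s x G)‖ ^ 2 ∂(gam n) := fun x => by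
    have hd : D1 (fun G => F (θ₀ + pt s x G)) (fun G => s • F' (θ₀ + pt s x G)) := by
      refine ⟨fun G => ?_, (hF.cont'.comp (continuous_const.add (continuous_pt s x))).const_smul s⟩
      have h1 : HasFDerivAt (fun G => θ₀ + pt s x G) (s • ContinuousLinearMap.id ℝ (Euc n)) G :=
        (((hasFDerivAt_id G).const_smul s).const_add _).const_add _
      convert! (hF.deriv _).comp G h1 using 1
      ext v; simp
    refine (poincare_gam hd (B := B) (G := |s| * √M) (fun G => hB _) fun G => ?_).trans (le_of_eq ?_)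
    · rw [norm_smul, norm_eq_abs]
      exact mul_le_mul_of_nonneg_left (Real.le_sqrt_of_sq_le (hM _)) (abs_nonneg _)
    · rw [← integral_const_mul]
      exact integral_congr_ae (Eventually.of_forall fun G => by simp [norm_smul, mul_pow, hs2])
  have hGpt : ∀ G, (∫ x, F (θ₀ + pt s x G) ^ 2 ∂ν) - (∫ x, F (θ₀ + pt s x G) ∂ν) ^ 2
      ≤ K * σ ^ 2 * (∫ x, ‖F' (θ₀ + pt s x G)‖ ^ 2 ∂ν) + e * σ ^ 2 * M := fun G => by
    have hd : D1 (fun x => F (θ₀ + pt s x G)) (fun x => (s ^ 2) • F' (θ₀ + pt s x G)) := by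
      refine ⟨fun x => ?_, ((hF.cont'.comp (hpc.comp (continuous_id.prodMk (continuous_const (y := G))))).const_smul (s ^ 2))⟩
      have h1 : HasFDerivAt (fun x => θ₀ + pt s x G) ((s ^ 2) • ContinuousLinearMap.id ℝ (Euc n)) x :=
        (((hasFDerivAt_id x).const_smul (s ^ 2)).add_const _).const_add _
      convert! (hF.deriv _).comp x h1 using 1
      ext v; simp
    have h := hP _ _ (σ ^ 2 * M) hd (by positivity) fun x _ => by
      rw [norm_smul, norm_eq_abs, mul_pow, sq_abs, hs2]; exact mul_le_mul_of_nonneg_left (hM _) (sq_nonneg _)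
    rw [var_eq hsf hd.cont] at h
    refine h.trans (le_of_eq ?_)
    have e1 : ∀ x, ‖(s ^ 2) • F' (θ₀ + pt s x G)‖ ^ 2 = σ ^ 2 * ‖F' (θ₀ + pt s x G)‖ ^ 2 := fun x => by
      simp [norm_smul, mul_pow, hs2]
    simp only [e1, integral_const_mul]
    ring
  have hswap : Integrable (Function.uncurry fun x G => ‖F' (θ₀ + pt s x G)‖ ^ 2) (ν.prod (gam n)) :=
    Integrable.of_bound (hF'c.comp hpc).aestronglyMeasurable M (Eventually.of_forall fun z => hF'b _)
  have cu := continuous_gint (H := fun x G => F (θ₀ + pt s x G)) (hFc.comp hpc) fun _ _ => hB _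
  have cu2 := continuous_gint (H := fun x G => F (θ₀ + pt s x G) ^ 2) ((hFc.comp hpc).pow 2) fun _ _ => hF2b _
  have hb1 := integral_mono (hsf.integrable (cu2.sub (cu.pow 2))) ((hsf.integrable cG).const_mul σ) hxpt
  have cp : ∀ {φ : Euc n → ℝ}, Continuous φ → Continuous fun G => ∫ x, φ (θ₀ + pt s x G) ∂ν := fun {φ} hφ =>
    cont_param (F := fun G x => φ (θ₀ + pt s x G)) hsf (hφ.comp (hpc.comp (continuous_snd.prodMk continuous_fst)))
  have hbd : ∀ {φ : Euc n → ℝ} {b : ℝ}, (∀ z, |φ z| ≤ b) → ∀ G, |∫ x, φ (θ₀ + pt s x G) ∂ν| ≤ b := fun {φ b} hφ G => by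
    simpa using norm_integral_le_of_norm_le_const (μ := ν) (f := fun x => φ (θ₀ + pt s x G)) (C := b)
      (Eventually.of_forall fun x => hφ _)
  have i1 : Integrable (fun G => (∫ x, F (θ₀ + pt s x G) ^ 2 ∂ν) - (∫ x, F (θ₀ + pt s x G) ∂ν) ^ 2) (gam n) :=
    (integrable_gam_bdd (cp (φ := fun z => F z ^ 2) (hFc.pow 2)) (hbd hF2b)).sub
      (integrable_gam_bdd ((cp hFc).pow 2) (B := B ^ 2) fun G => by
        rw [abs_pow]; exact pow_le_pow_left₀ (abs_nonneg _) (hbd hB G) 2)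
  have hb2 := integral_mono i1
    (((integrable_gam_bdd (cp (φ := fun z => ‖F' z‖ ^ 2) hF'c) (hbd hF'b)).const_mul (K * σ ^ 2)).add (integrable_const _)) hGpt
  simp only [Pi.add_apply, Pi.sub_apply, Pi.pow_apply] at hb1 hb2
  rw [integral_const_mul] at hb1
  rw [integral_add ((integrable_gam_bdd (cp (φ := fun z => ‖F' z‖ ^ 2) hF'c) (hbd hF'b)).const_mul _) (integrable_const _),
    integral_const_mul, integral_const, probReal_univ, one_smul, ← integral_integral_swap hswap] at hb2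
  linarith

lemma pow_integral_le {α : Type*} [MeasurableSpace α] {P : Measure α} [IsProbabilityMeasure P] {f : α → ℝ}
    (hf : Integrable f P) (k : ℕ) (hfk : Integrable (fun x => f x ^ (2 * k)) P) :
    (∫ x, f x ∂P) ^ (2 * k) ≤ ∫ x, f x ^ (2 * k) ∂P :=
  (Even.convexOn_pow (even_two_mul k)).map_integral_le (continuousOn_pow _) isClosed_univ
    (Eventually.of_forall fun _ => mem_univ _) hf hfk

lemma add_pow_even_le (a b : ℝ) (k : ℕ) : (a + b) ^ (2 * k) ≤ 2 ^ (2 * k) * (a ^ (2 * k) + b ^ (2 * k)) := by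
  rw [← (even_two_mul k).pow_abs (a + b), ← (even_two_mul k).pow_abs a, ← (even_two_mul k).pow_abs b]
  calc |a + b| ^ (2 * k) ≤ (2 * max |a| |b|) ^ (2 * k) := by
        refine pow_le_pow_left₀ (abs_nonneg _) ((abs_add_le a b).trans ?_) _
        linarith [le_max_left |a| |b|, le_max_right |a| |b|]
    _ ≤ _ := by
      rw [mul_pow]
      refine mul_le_mul_of_nonneg_left ?_ (by positivity)
      rcases max_choice |a| |b| with h | h <;> rw [h]
      · exact le_add_of_nonneg_right (by positivity)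
      · exact le_add_of_nonneg_left (by positivity)

end

end Vale.Agent.P245
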