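import Vale.Agent.P245.Spectral
import Vale.Agent.P245.Kernel

open MeasureTheory Real Filter Set
open scoped Topology RealInnerProductSpace

namespace Vale.Agent.P245

variable {n : ℕ}

/-- Coordinate of the centred fibre variable. -/
noncomputable def cen (t : ℝ) (μ : Measure (Euc n)) (θ x : Euc n) : Euc n := x - bary t μ θ

/-- Covariance form of the fibre. -/
noncomputable def aent (t : ℝ) (μ : Measure (Euc n)) (θ u v : Euc n) : ℝ :=
  ∫ x, ⟪u, cen t μ θ x⟫ * ⟪v, cen t μ θ x⟫ ∂(fib t μ θ)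

/-- Third cumulant vector of the fibre. -/
noncomputable def wvec (t : ℝ) (μ : Measure (Euc n)) (θ u v : Euc n) : Euc n :=
  ∫ x, (⟪u, cen t μ θ x⟫ * ⟪v, cen t μ θ x⟫) • cen t μ θ x ∂(fib t μ θ)

section

variable {μ : Measure (Euc n)} [IsProbabilityMeasure μ] {R t : ℝ}

lemma continuous_fib_integral (hS : Supp μ R) {V : Type*} [NormedAddCommGroup V] [NormedSpace ℝ V]
    {F : Euc n → Euc n → V} (hF : Continuous (Function.uncurry F)) :
    Continuous fun θ => ∫ x, F θ x ∂(fib t μ θ) := by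
  have e : (fun θ => ∫ x, F θ x ∂(fib t μ θ)) = fun θ => (zf t μ θ)⁻¹ • ∫ x, wt t θ x • F θ x ∂μ :=
    funext fun θ => integral_fib θ _
  rw [e]
  exact ((continuous_zf hS).inv₀ fun θ => (zf_pos hS θ).ne').smul
    (cont_param (F := fun θ x => wt t θ x • F θ x) hS ((continuous_wt t).smul hF))

lemma continuous_cen (hS : Supp μ R) : Continuous (Function.uncurry fun θ x => cen t μ θ x) := by
  have := continuous_bary (T := t) hS
  unfold cen Function.uncurry; fun_prop

@[fun_prop]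
lemma continuous_cen_snd (θ : Euc n) : Continuous (cen t μ θ) := by unfold cen; fun_prop

lemma norm_cen_le (hS : Supp μ R) (θ : Euc n) : ∀ᵐ x ∂(fib t μ θ), ‖cen t μ θ x‖ ≤ 2 * R :=
  (supp_fib hS θ).mono fun x hx => (norm_sub_le _ _).trans (by linarith [norm_bary_le (T := t) hS θ])

lemma integral_cen (hS : Supp μ R) (θ v : Euc n) : ∫ x, ⟪v, cen t μ θ x⟫ ∂(fib t μ θ) = 0 := by
  have := isProb_fib (T := t) hS θ
  simp only [cen, inner_sub_right]
  rw [integral_sub ((supp_fib hS θ).integrable (by fun_prop)) (integrable_const _), inner_bary hS,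
    integral_const, probReal_univ, one_smul, sub_self]

lemma inner_wvec (hS : Supp μ R) (θ u v h : Euc n) :
    ⟪h, wvec t μ θ u v⟫ = ∫ x, ⟪u, cen t μ θ x⟫ * ⟪v, cen t μ θ x⟫ * ⟪h, cen t μ θ x⟫ ∂(fib t μ θ) := by
  have := isProb_fib (T := t) hS θ
  rw [wvec, ← integral_inner (f := fun x => (⟪u, cen t μ θ x⟫ * ⟪v, cen t μ θ x⟫) • cen t μ θ x)
    ((supp_fib hS θ).integrable (by fun_prop))]
  simp only [inner_smul_right]

lemma wvec_comm (θ u v : Euc n) : wvec t μ θ u v = wvec t μ θ v u := by simp only [wvec, mul_comm]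

lemma aent_comm (θ u v : Euc n) : aent t μ θ u v = aent t μ θ v u := by simp only [aent, mul_comm]

lemma continuous_aent (hS : Supp μ R) (u v : Euc n) : Continuous fun θ => aent t μ θ u v := by
  have h := continuous_cen (t := t) hS
  exact continuous_fib_integral hS ((continuous_const.inner h).mul (continuous_const.inner h))

lemma continuous_wvec (hS : Supp μ R) (u v : Euc n) : Continuous fun θ => wvec t μ θ u v := by
  have h := continuous_cen (t := t) hS
  exact continuous_fib_integral (F := fun θ x => (⟪u, cen t μ θ x⟫ * ⟪v, cen t μ θ x⟫) • cen t μ θ x) hS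
    (((continuous_const.inner (𝕜 := ℝ) (f := fun _ => u) h).mul (continuous_const.inner (𝕜 := ℝ) (f := fun _ => v) h)).smul h)

lemma abs_inner_cen_le (hS : Supp μ R) (θ u : Euc n) :
    ∀ᵐ x ∂(fib t μ θ), |⟪u, cen t μ θ x⟫| ≤ ‖u‖ * (2 * R) :=
  (norm_cen_le hS θ).mono fun x hx => (abs_real_inner_le_norm _ _).trans (mul_le_mul_of_nonneg_left hx (norm_nonneg _))

lemma abs_aent_le (hS : Supp μ R) (θ u v : Euc n) : |aent t μ θ u v| ≤ ‖u‖ * ‖v‖ * (4 * R ^ 2) := by
  have := isProb_fib (T := t) hS θ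
  have h := norm_integral_le_of_norm_le_const (μ := fib t μ θ) (C := ‖u‖ * ‖v‖ * (4 * R ^ 2))
    (f := fun x => ⟪u, cen t μ θ x⟫ * ⟪v, cen t μ θ x⟫) (by
      filter_upwards [abs_inner_cen_le hS θ u, abs_inner_cen_le hS θ v] with x hu hv
      rw [norm_mul, norm_eq_abs, norm_eq_abs]
      exact (mul_le_mul hu hv (abs_nonneg _) ((abs_nonneg _).trans hu)).trans (le_of_eq (by ring)))
  simpa [aent] using h

lemma norm_wvec_le (hS : Supp μ R) (θ u v : Euc n) : ‖wvec t μ θ u v‖ ≤ ‖u‖ * ‖v‖ * (8 * R ^ 3) := by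
  have := isProb_fib (T := t) hS θ
  have h := norm_integral_le_of_norm_le_const (μ := fib t μ θ) (C := ‖u‖ * ‖v‖ * (8 * R ^ 3))
    (f := fun x => (⟪u, cen t μ θ x⟫ * ⟪v, cen t μ θ x⟫) • cen t μ θ x) (by
      filter_upwards [abs_inner_cen_le hS θ u, abs_inner_cen_le hS θ v, norm_cen_le hS θ] with x hu hv hc
      rw [norm_smul, norm_eq_abs, abs_mul]
      exact (mul_le_mul (mul_le_mul hu hv (abs_nonneg _) ((abs_nonneg _).trans hu)) hc (norm_nonneg _)
        (mul_nonneg ((abs_nonneg _).trans hu) ((abs_nonneg _).trans hv))).trans (le_of_eq (by ring)))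
  simpa [wvec] using h

lemma aent_self_nonneg (θ v : Euc n) : 0 ≤ aent t μ θ v v := integral_nonneg fun x => mul_self_nonneg _

lemma aent_eq_sub (hS : Supp μ R) (θ u v : Euc n) :
    aent t μ θ u v = av t μ (fun x => ⟪u, x⟫ * ⟪v, x⟫) θ - ⟪u, bary t μ θ⟫ * ⟪v, bary t μ θ⟫ := by
  have := isProb_fib (T := t) hS θ
  have hsf := supp_fib (T := t) hS θ
  have e : ∀ x, ⟪u, cen t μ θ x⟫ * ⟪v, cen t μ θ x⟫ = ⟪u, x⟫ * ⟪v, x⟫ - ⟪v, bary t μ θ⟫ * ⟪u, x⟫
      - ⟪u, bary t μ θ⟫ * ⟪v, x⟫ + ⟪u, bary t μ θ⟫ * ⟪v, bary t μ θ⟫ := fun x => by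
    simp only [cen, inner_sub_right]; ring
  rw [aent, integral_congr_ae (Eventually.of_forall e), integral_add (hsf.integrable (by fun_prop)) (integrable_const _),
    integral_sub (hsf.integrable (by fun_prop)) (hsf.integrable (by fun_prop)),
    integral_sub (hsf.integrable (by fun_prop)) (hsf.integrable (by fun_prop)), integral_const_mul, integral_const_mul,
    inner_bary hS, inner_bary hS, integral_const, probReal_univ, one_smul, av]
  ring

lemma inner_cov (hS : Supp μ R) {g : Euc n → ℝ} (hg : Continuous g) (θ h : Euc n) :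
    ⟪h, cov t μ g θ⟫ = ∫ x, g x * ⟪h, cen t μ θ x⟫ ∂(fib t μ θ) := by
  have := isProb_fib (T := t) hS θ
  have hsf := supp_fib (T := t) hS θ
  simp only [cen, inner_sub_right, mul_sub]
  rw [cov, inner_sub_right, inner_smul_right, integral_sub (hsf.integrable (by fun_prop)) (hsf.integrable (by fun_prop)),
    integral_mul_const, ← integral_inner (f := fun x => g x • x) (hsf.integrable (by fun_prop))]
  simp only [inner_smul_right, av]

lemma hasFDerivAt_inner_bary (hS : Supp μ R) (θ u : Euc n) :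
    HasFDerivAt (fun θ => ⟪u, bary t μ θ⟫) (innerSL ℝ (cov t μ (fun x => ⟪u, x⟫) θ)) θ := by
  have e : (fun θ => ⟪u, bary t μ θ⟫) = av t μ (fun x => ⟪u, x⟫) := funext fun θ => (inner_bary hS θ u).symm
  rw [e]; exact hasFDerivAt_av hS (by fun_prop) θ

lemma hasFDerivAt_aent (hS : Supp μ R) (θ u v : Euc n) :
    HasFDerivAt (fun θ => aent t μ θ u v) (innerSL ℝ (wvec t μ θ u v)) θ := by
  have e : (fun θ => aent t μ θ u v)
      = fun θ => av t μ (fun x => ⟪u, x⟫ * ⟪v, x⟫) θ - ⟪u, bary t μ θ⟫ * ⟪v, bary t μ θ⟫ :=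
    funext fun θ => aent_eq_sub hS θ u v
  rw [e]
  have h := (hasFDerivAt_av (T := t) hS (g := fun x => ⟪u, x⟫ * ⟪v, x⟫) (by fun_prop) θ).fun_sub
    ((hasFDerivAt_inner_bary (t := t) hS θ u).fun_mul (hasFDerivAt_inner_bary (t := t) hS θ v))
  refine h.congr_fderiv (ContinuousLinearMap.ext fun w => ?_)
  have := isProb_fib (T := t) hS θ
  have hsf := supp_fib (T := t) hS θ
  simp only [sub_apply, add_apply, smul_apply, innerSL_apply_apply, smul_eq_mul]
  rw [real_inner_comm w (cov _ _ (fun x => ⟪u, x⟫ * ⟪v, x⟫) θ), real_inner_comm w (cov _ _ (fun x => ⟪v, x⟫) θ),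
    real_inner_comm w (cov _ _ (fun x => ⟪u, x⟫) θ), real_inner_comm w (wvec t μ θ u v),
    inner_cov hS (by fun_prop), inner_cov hS (by fun_prop), inner_cov hS (by fun_prop), inner_wvec hS,
    ← integral_const_mul, ← integral_const_mul, ← integral_add (hsf.integrable (by fun_prop)) (hsf.integrable (by fun_prop)),
    ← integral_sub (hsf.integrable (by fun_prop)) (hsf.integrable (by fun_prop))]
  have hz : ∫ x, ⟪u, bary t μ θ⟫ * ⟪v, bary t μ θ⟫ * ⟪w, cen t μ θ x⟫ ∂(fib t μ θ) = 0 := by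
    rw [integral_const_mul, integral_cen hS, mul_zero]
  rw [← sub_eq_zero, ← integral_sub (hsf.integrable (by fun_prop)) (hsf.integrable (by fun_prop)), ← neg_eq_zero, ← integral_neg]
  refine Eq.trans (integral_congr_ae (Eventually.of_forall fun x => ?_)) hz
  simp only [cen, inner_sub_right]; ring

/-- Covariance operator of the fibre, as a linear map. -/
noncomputable def aopL (t : ℝ) (μ : Measure (Euc n)) (θ u : Euc n) : Euc n :=
  ∑ c, aent t μ θ u (stdb n c) • stdb n c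

/-- Covariance operator of the fibre. -/
noncomputable def Aop (t : ℝ) (μ : Measure (Euc n)) (θ : Euc n) : Op n :=
  ∑ a, ∑ c, aent t μ θ (stdb n a) (stdb n c) • eop a c

/-- Derivative of the covariance operator in direction `h`. -/
noncomputable def dA (t : ℝ) (μ : Measure (Euc n)) (θ h : Euc n) : Op n :=
  ∑ a, ∑ c, ⟪wvec t μ θ (stdb n a) (stdb n c), h⟫ • eop a c

lemma bilin_eop {F : Euc n → Euc n → ℝ} (h1 : ∀ u v, F u v = ∑ c, ⟪stdb n c, v⟫ * F u (stdb n c))
    (h2 : ∀ v, ∀ u, F u v = ∑ a, ⟪stdb n a, u⟫ * F (stdb n a) v) (u v : Euc n) :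
    ⟪v, (∑ a, ∑ c, F (stdb n a) (stdb n c) • eop a c) u⟫ = F u v := by
  rw [h2 v u]
  simp only [sum_apply, smul_apply, eop, ContinuousLinearMap.smulRight_apply,
    innerSL_apply_apply, inner_sum, inner_smul_right]
  refine Finset.sum_congr rfl fun a _ => ?_
  conv_rhs => rw [h1 (stdb n a) v, Finset.mul_sum]
  refine Finset.sum_congr rfl fun c _ => ?_
  rw [real_inner_comm v (stdb n c)]; ring

lemma integral_expand (hS : Supp μ R) (θ v : Euc n) {F : Euc n → ℝ} (hF : Continuous F) :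
    ∫ x, F x * ⟪v, cen t μ θ x⟫ ∂(fib t μ θ)
      = ∑ c, ⟪stdb n c, v⟫ * ∫ x, F x * ⟪stdb n c, cen t μ θ x⟫ ∂(fib t μ θ) := by
  have := isProb_fib (T := t) hS θ
  simp only [← integral_const_mul]
  rw [← integral_finsetSum _ fun c _ => (supp_fib hS θ).integrable (by fun_prop)]
  refine integral_congr_ae (Eventually.of_forall fun x => ?_)
  simp only
  rw [inner_eq_sum (stdb n) v, Finset.mul_sum]
  exact Finset.sum_congr rfl fun c _ => by ring

lemma aent_expand (hS : Supp μ R) (θ u v : Euc n) :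
    aent t μ θ u v = ∑ c, ⟪stdb n c, v⟫ * aent t μ θ u (stdb n c) :=
  integral_expand hS θ v (by fun_prop)

lemma inner_Aop (hS : Supp μ R) (θ u v : Euc n) : ⟪v, Aop t μ θ u⟫ = aent t μ θ u v :=
  bilin_eop (F := aent t μ θ) (fun u v => aent_expand hS θ u v)
    (fun v u => by rw [aent_comm, aent_expand hS θ v u]; simp only [aent_comm θ v]) u v

lemma inner_dA (hS : Supp μ R) (θ h u v : Euc n) : ⟪v, dA t μ θ h u⟫ = ⟪wvec t μ θ u v, h⟫ := by
  have e : ∀ u v, ⟪wvec t μ θ u v, h⟫ = ∫ x, ⟪u, cen t μ θ x⟫ * ⟪h, cen t μ θ x⟫ * ⟪v, cen t μ θ x⟫ ∂(fib t μ θ) := fun u v => by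
    rw [real_inner_comm, inner_wvec hS]; simp only [mul_right_comm]
  have h1 : ∀ u v, ⟪wvec t μ θ u v, h⟫ = ∑ c, ⟪stdb n c, v⟫ * ⟪wvec t μ θ u (stdb n c), h⟫ := fun u v => by
    simp only [e]; exact integral_expand hS θ v (by fun_prop)
  exact bilin_eop (F := fun u v => ⟪wvec t μ θ u v, h⟫) h1
    (fun v u => by
      rw [wvec_comm, h1 v u]; simp only [wvec_comm θ v]) u v

lemma symOp_Aop (hS : Supp μ R) (θ : Euc n) : SymOp (Aop t μ θ) := fun u v => by
  rw [real_inner_comm, inner_Aop hS, inner_Aop hS, aent_comm]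

lemma symOp_dA (hS : Supp μ R) (θ h : Euc n) : SymOp (dA t μ θ h) := fun u v => by
  rw [real_inner_comm, inner_dA hS, inner_dA hS, wvec_comm]

lemma continuous_Aop (hS : Supp μ R) : Continuous (Aop t μ) :=
  continuous_finsetSum _ fun _ _ => continuous_finsetSum _ fun _ _ => (continuous_aent hS _ _).smul continuous_const

lemma hasFDerivAt_Aop (hS : Supp μ R) (θ : Euc n) :
    ∃ L : Euc n →L[ℝ] Op n, HasFDerivAt (Aop t μ) L θ ∧ ∀ h, L h = dA t μ θ h := by
  refine ⟨∑ a, ∑ c, (innerSL ℝ (wvec t μ θ (stdb n a) (stdb n c))).smulRight (eop a c), ?_, fun h => ?_⟩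
  · refine HasFDerivAt.fun_sum fun a _ => ?_
    refine HasFDerivAt.fun_sum fun c _ => ?_
    exact (hasFDerivAt_aent (t := t) hS θ (stdb n a) (stdb n c)).smul_const (eop a c)
  · simp [dA]

/-- Squared norm of the third cumulant slice at `u`. -/
noncomputable def sw (t : ℝ) (μ : Measure (Euc n)) (θ u : Euc n) : ℝ := ∑ c, ‖wvec t μ θ u (stdb n c)‖ ^ 2

/-- Covariance-weighted squared norm of the third cumulant slice at `u`. -/
noncomputable def tw (t : ℝ) (μ : Measure (Euc n)) (θ u : Euc n) : ℝ :=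
  ∑ c, aent t μ θ (wvec t μ θ u (stdb n c)) (wvec t μ θ u (stdb n c))

lemma sw_nonneg (θ u : Euc n) : 0 ≤ sw t μ θ u := Finset.sum_nonneg fun _ _ => sq_nonneg _

lemma tw_nonneg (θ u : Euc n) : 0 ≤ tw t μ θ u := Finset.sum_nonneg fun _ _ => aent_self_nonneg _ _

lemma inner_wvec_perm (hS : Supp μ R) (θ u v h : Euc n) : ⟪h, wvec t μ θ u v⟫ = ⟪v, wvec t μ θ u h⟫ := by
  simp only [inner_wvec hS, mul_right_comm]

lemma sum_sq_wvec (hS : Supp μ R) (θ u : Euc n) (b : OrthonormalBasis (Fin n) ℝ (Euc n)) :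
    ∑ i, ‖wvec t μ θ u (b i)‖ ^ 2 = sw t μ θ u := by
  simp only [sw, norm_sq_eq_sum (stdb n) (wvec t μ θ u (b _)), norm_sq_eq_sum b (wvec t μ θ u (stdb n _))]
  rw [Finset.sum_comm]
  exact Finset.sum_congr rfl fun c _ => Finset.sum_congr rfl fun i _ => by rw [inner_wvec_perm hS]

lemma sum_sq_dA (hS : Supp μ R) (θ u : Euc n) :
    ∑ k, ‖dA t μ θ (stdb n k) u‖ ^ 2 = sw t μ θ u := by
  simp only [sw, norm_sq_eq_sum (stdb n) (dA t μ θ _ u), inner_dA hS, norm_sq_eq_sum (stdb n) (wvec t μ θ u _)]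
  rw [Finset.sum_comm]
  exact Finset.sum_congr rfl fun c _ => Finset.sum_congr rfl fun k _ => by rw [real_inner_comm]

lemma tw_eigen (hS : Supp μ R) (θ u : Euc n) {b : OrthonormalBasis (Fin n) ℝ (Euc n)} {l : Fin n → ℝ}
    (he : ∀ i, Aop t μ θ (b i) = l i • b i) :
    tw t μ θ u = ∑ i, l i * ‖wvec t μ θ u (b i)‖ ^ 2 := by
  simp only [tw, ← inner_Aop hS, quad_eigen he, norm_sq_eq_sum (stdb n) (wvec t μ θ u (b _)), Finset.mul_sum]
  rw [Finset.sum_comm]
  exact Finset.sum_congr rfl fun i _ => Finset.sum_congr rfl fun c _ => by rw [inner_wvec_perm hS]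

end

end Vale.Agent.P245
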